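import Vale.Agent.P168.Structure.CellProb

/-! Patterns of positive probability: restriction, relabelling and amalgamation. -/

open MeasureTheory ProbabilityTheory Filter
open scoped BigOperators NNReal ENNReal

noncomputable section

namespace Vale.Agent.P168.Structure

open Vale.Agent.P168

variable {ν : Measure Arr} {ρ : ℝ} {ι : ℝ → ℤ}

/-- A pattern of positive probability. -/
def PosPat (ν : Measure Arr) (ι : ℝ → ℤ) {n : ℕ} (s : Pat n) : Prop :=
  0 < ν.real (cell ι (idRep n) s)

theorem exists_good_mem (h : IsTreeArray ν ρ) {S : Set Arr} (hS : 0 < ν.real S) :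
    ∃ ω ∈ S, GoodPt ρ ω := by
  haveI := h.prob
  by_contra hc
  push Not at hc
  have hnull : ν S = 0 :=
    measure_mono_null (fun ω hω => hc ω hω) (ae_iff.1 (ae_goodPt h))
  simp [Measure.real, hnull] at hS

/-- Algebraic properties of a positive pattern. -/
structure IsUltraPat (top : ℤ) {n : ℕ} (s : Pat n) : Prop where
  symm : ∀ i j, s i j = s j i
  diag : ∀ i, s i i = top
  le_top : ∀ i j, s i j ≤ top
  ultra : ∀ i j k, min (s i j) (s j k) ≤ s i k

theorem PosPat.isUltra (h : IsTreeArray ν ρ) (hι : Monotone ι) {n : ℕ} {s : Pat n}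
    (hs : PosPat ν ι s) : IsUltraPat (ι ρ) s := by
  obtain ⟨ω, hω, hg⟩ := exists_good_mem h hs
  have e : ∀ i j : Fin n, s i j = ι (rbar i j ω) := fun i j => (hω i j).symm
  exact ⟨fun i j => by rw [e, e, (hg i j i).1], fun i => by rw [e, (hg i i i).2.1],
    fun i j => by rw [e]; exact hg.iota_le hι i j,
    fun i j k => by rw [e, e, e]; exact hg.iota hι i j k⟩

theorem exists_perm_pair {i j : ℕ} (hij : i ≠ j) : ∃ π : Equiv.Perm ℕ, π 0 = i ∧ π 1 = j := by
  refine ⟨Equiv.swap 0 i * Equiv.swap 1 (Equiv.swap 0 i j), ?_, ?_⟩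
  · have hk : Equiv.swap 0 i j ≠ 0 := fun h0 => hij (by
      have := congrArg (Equiv.swap 0 i) h0
      rw [Equiv.swap_apply_self, Equiv.swap_apply_left] at this
      exact this.symm)
    rw [Equiv.Perm.mul_apply, Equiv.swap_apply_of_ne_of_ne (by norm_num) hk.symm,
      Equiv.swap_apply_left]
  · rw [Equiv.Perm.mul_apply, Equiv.swap_apply_left, Equiv.swap_apply_self]

theorem map_rbar (h : IsGGArray ν) {i j : ℕ} (hij : i ≠ j) :
    ν.map (rbar i j) = overlapLaw ν := by
  obtain ⟨π, h0, h1⟩ := exists_perm_pair hij
  conv_rhs => rw [overlapLaw, ← h.exch_rep π,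
    Measure.map_map (measurable_rbar 0 1) (measurable_permRep π)]
  congr 1
  funext ω
  simp [rbar_perm, h0, h1]

theorem PosPat.mass_pos (h : IsTreeArray ν ρ) (hι : Monotone ι) {n : ℕ} {s : Pat n}
    (hs : PosPat ν ι s) {i j : Fin n} (hij : i ≠ j) : 0 < mass ν ι (s i j) := by
  haveI := h.prob
  refine lt_of_lt_of_le hs ?_
  rw [mass, ← map_rbar h.toIsGGArray (Fin.val_ne_of_ne hij),
    map_measureReal_apply (measurable_rbar _ _) (hι.measurable (measurableSet_singleton _))]
  exact measureReal_mono fun ω hω => hω i j

theorem integral_cell_mem {n : ℕ} (hι : Monotone ι) [IsFiniteMeasure ν] (s : Pat n) :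
    ∫ _ in cell ι (idRep n) s, (1 : ℝ) ∂ν = ν.real (cell ι (idRep n) s) := by
  rw [setIntegral_const, smul_eq_mul, mul_one]

/-- One step: the integral over a pattern is a multiple of the integral over its restriction. -/
theorem cell_step (h : IsTreeArray ν ρ) (hι : Monotone ι) {n : ℕ} (hn : 1 ≤ n)
    (s : Pat (n + 1)) :
    ∃ K, 0 ≤ K ∧ ∀ F : RepData n → ℝ, Measurable F → (∀ z, |F z| ≤ 1) →
      ∫ ω in cell ι (idRep (n + 1)) s, F (repData n ω) ∂ν =
        K * ∫ ω in cell ι (idRep n) (patInit s), F (repData n ω) ∂ν := by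
  classical
  haveI := h.prob
  by_cases hpos : PosPat ν ι s
  · obtain ⟨ω, hω, hg⟩ := exists_good_mem h hpos
    obtain ⟨p, hp⟩ := exists_isExt_of_mem hι hn hg hω
    have hn' : (0 : ℝ) < n := by exact_mod_cast hn
    have hinit : PosPat ν ι (patInit s) :=
      lt_of_lt_of_le hpos (measureReal_mono (cell_subset_init ι s))
    have hu := hinit.isUltra h hι
    have hK : 0 ≤ stepMass ν ι s p :=
      (mass_nonneg _).trans (mass_le_stepMass h hp hu.diag hu.le_top)
    refine ⟨stepMass ν ι s p / n, div_nonneg hK hn'.le, fun F hF hFb => ?_⟩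
    rw [div_mul_eq_mul_div, eq_div_iff hn'.ne', mul_comm]
    exact integral_cell_ext h hι hp F hF hFb
  · refine ⟨0, le_rfl, fun F hF hFb => ?_⟩
    have hz : ν (cell ι (idRep (n + 1)) s) = 0 := by
      have hr : ν.real (cell ι (idRep (n + 1)) s) = 0 :=
        le_antisymm (not_lt.1 hpos) measureReal_nonneg
      exact (measureReal_eq_zero_iff).1 hr
    rw [setIntegral_measure_zero _ hz, zero_mul]

/-- The restriction of a pattern along a map of indices. -/
def patMap {n m : ℕ} (u : Fin m → Fin n) (s : Pat n) : Pat m := fun i j => s (u i) (u j)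

theorem cell_prefix (h : IsTreeArray ν ρ) (hι : Monotone ι) {M N : ℕ} (hM : 1 ≤ M)
    (hMN : M ≤ N) (s : Pat N) :
    ∃ K, 0 ≤ K ∧ ∀ F : RepData M → ℝ, Measurable F → (∀ z, |F z| ≤ 1) →
      ∫ ω in cell ι (idRep N) s, F (repData M ω) ∂ν =
        K * ∫ ω in cell ι (idRep M) (patMap (Fin.castLE hMN) s), F (repData M ω) ∂ν := by
  revert s
  induction N, hMN using Nat.le_induction with
  | base => exact fun s => ⟨1, zero_le_one, fun F _ _ => by rw [one_mul]; rfl⟩
  | succ N hMN ih =>
    intro s
    obtain ⟨K, hK0, hK⟩ := cell_step h hι (hM.trans hMN) s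
    obtain ⟨K', hK'0, hK'⟩ := ih (patInit s)
    refine ⟨K * K', mul_nonneg hK0 hK'0, fun F hF hFb => ?_⟩
    let proj : RepData N → RepData M := fun z =>
      (fun l => z.1 (Fin.castLE hMN l), fun g a b => z.2 g (Fin.castLE hMN a) (Fin.castLE hMN b))
    have hproj : Measurable proj := by
      simp only [proj]
      fun_prop
    have := hK (fun z => F (proj z)) (hF.comp hproj) fun z => hFb _
    rw [show (fun ω => F (proj (repData N ω))) = fun ω => F (repData M ω) from rfl] at this
    rw [this, hK' F hF hFb, mul_assoc]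
    rfl

theorem measurableSet_cell_id (hι : Monotone ι) {n : ℕ} (s : Pat n) :
    MeasurableSet (cell ι (idRep n) s) := measurableSet_cell hι _ _

/-- Relabelling by a permutation moving `idRep M` to `u`. -/
theorem integral_cell_perm (h : IsGGArray ν) (hι : Monotone ι) (π : Equiv.Perm ℕ) {n : ℕ}
    (u : Fin n → ℕ) (s : Pat n) (f : Arr → ℝ) :
    ∫ ω in cell ι (fun i => π (u i)) s, f (permRep π ω) ∂ν = ∫ ω in cell ι u s, f ω ∂ν := by
  rw [← integral_indicator (measurableSet_cell hι _ _),
    ← integral_indicator (measurableSet_cell hι _ _),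
    ← integral_perm h π ((cell ι u s).indicator f)]
  refine integral_congr_ae (Eventually.of_forall fun ω => ?_)
  beta_reduce
  by_cases hω : ω ∈ cell ι (fun i => π (u i)) s
  · rw [Set.indicator_of_mem hω, Set.indicator_of_mem (show permRep π ω ∈ cell ι u s from hω)]
  · rw [Set.indicator_of_notMem hω,
      Set.indicator_of_notMem (show permRep π ω ∉ cell ι u s from hω)]

/-- The integral over a pattern of a function of the replicas `u` is a constant multiple of the
integral over the pattern of `u`. -/
theorem cell_sub (h : IsTreeArray ν ρ) (hι : Monotone ι) {M N : ℕ} (hM : 1 ≤ M)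
    (u : Fin M → Fin N) (hu : Function.Injective u) (s : Pat N) :
    ∃ K, 0 ≤ K ∧ ∀ F : RepData M → ℝ, Measurable F → (∀ z, |F z| ≤ 1) →
      ∫ ω in cell ι (idRep N) s, F (repMap (fun i => (u i : ℕ)) ω) ∂ν =
        K * ∫ ω in cell ι (fun i => (u i : ℕ)) (patMap u s),
          F (repMap (fun i => (u i : ℕ)) ω) ∂ν := by
  classical
  have hMN : M ≤ N := by simpa using Fintype.card_le_of_injective u hu
  let c : Fin M → Fin N := Fin.castLE hMN
  let e0 : {x // x ∈ Set.range c} ≃ {x // x ∈ Set.range u} :=
    (Equiv.ofInjective c (Fin.castLE_injective hMN)).symm.trans (Equiv.ofInjective u hu)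
  let e : Equiv.Perm (Fin N) := e0.extendSubtype
  have he : ∀ i, e (c i) = u i := by
    intro i
    show e0.extendSubtype (c i) = u i
    rw [Equiv.extendSubtype_apply_of_mem e0 _ ⟨i, rfl⟩]
    simp [e0, Equiv.ofInjective_symm_apply]
  let π : Equiv.Perm ℕ := e.viaFintypeEmbedding Fin.valEmbedding
  have hπ : ∀ x : Fin N, π x = e x := fun x =>
    Equiv.Perm.viaFintypeEmbedding_apply_image e Fin.valEmbedding x
  have hrep : ∀ ω, repData M (permRep π ω) = repMap (fun i => (u i : ℕ)) ω := by
    intro ω
    have hi : ∀ i : Fin M, π (i : ℕ) = u i := fun i => by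
      rw [← he i, ← hπ]; rfl
    ext <;> simp [repData, permRep, repMap, hi]
  obtain ⟨K, hK0, hK⟩ := cell_prefix h hι hM hMN (patMap e s)
  refine ⟨K, hK0, fun F hF hFb => ?_⟩
  have hcellN : cell ι (fun i : Fin N => π (idRep N i)) (patMap e s) = cell ι (idRep N) s := by
    ext ω
    refine ⟨fun hω i j => ?_, fun hω i j => ?_⟩
    · have := hω (e.symm i) (e.symm j)
      simpa [idRep, hπ, patMap] using this
    · simpa [idRep, hπ, patMap] using hω (e i) (e j)
  have hcellM : cell ι (fun i : Fin M => π (idRep M i)) (patMap c (patMap e s)) =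
      cell ι (fun i => (u i : ℕ)) (patMap u s) := by
    have h1 : (fun i : Fin M => π (idRep M i)) = fun i => (u i : ℕ) := by
      funext i; rw [← he i, ← hπ]; rfl
    have h2 : patMap c (patMap e s) = patMap u s := by
      funext i j; simp [patMap, he]
    rw [h1, h2]
  have l1 := integral_cell_perm h.toIsGGArray hι π (idRep N) (patMap e s)
    fun ω => F (repData M ω)
  have l2 := integral_cell_perm h.toIsGGArray hι π (idRep M) (patMap c (patMap e s))
    fun ω => F (repData M ω)
  simp only [hrep] at l1 l2
  rw [hcellN] at l1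
  rw [hcellM] at l2
  rw [l1, l2]
  exact hK F hF hFb

/-- The map reading the amalgamated replicas. -/
def amalgMap {M N : ℕ} (u : Fin M → Fin N) (k : ℕ) : Fin (M + k) → Fin (N + k) :=
  Fin.addCases (fun i => Fin.castAdd k (u i)) fun i => Fin.natAdd N i

/-- Amalgamation: `k` fresh replicas copying the pattern `t` over the replicas `u`, separated from
all old replicas as much as `t` allows. -/
theorem amalgam (h : IsTreeArray ν ρ) (hι : Monotone ι) {M N : ℕ} (hM : 1 ≤ M)
    (u : Fin M → Fin N) (s₀ : Pat N) (hs₀ : PosPat ν ι s₀) :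
    ∀ (k : ℕ) (t : Pat (M + k)), PosPat ν ι t → patMap (Fin.castAdd k) t = patMap u s₀ →
      ∃ s : Pat (N + k), PosPat ν ι s ∧ patMap (Fin.castAdd k) s = s₀ ∧
        patMap (amalgMap u k) s = t ∧
        ∀ (x : Fin N) (i : Fin k), ∃ z : Fin M,
          s (Fin.castAdd k x) (Fin.natAdd N i) ≤ t (Fin.castAdd k z) (Fin.natAdd M i) := by
  haveI := h.prob
  intro k
  induction k with
  | zero =>
    intro t ht hagree
    refine ⟨s₀, hs₀, ?_, ?_, fun x i => i.elim0⟩
    · funext i j; rfl
    · rw [← show patMap u s₀ = t from hagree.symm.trans rfl]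
      funext i j
      show s₀ (amalgMap u 0 i) (amalgMap u 0 j) = s₀ (u i) (u j)
      simp [amalgMap, Fin.addCases, Fin.castAdd, Fin.castLE, Fin.castLT]
  | succ k ih =>
    intro t ht hagree
    have htu := ht.isUltra h hι
    obtain ⟨ω, hω, hg⟩ := exists_good_mem h ht
    have htu' : PosPat ν ι (patInit (n := M + k) t) :=
      lt_of_lt_of_le ht (measureReal_mono (cell_subset_init ι (n := M + k) t))
    obtain ⟨s', hs', hold, hnew, hsep⟩ := ih (patInit (n := M + k) t) htu' hagree
    obtain ⟨p, hp⟩ := exists_isExt_of_mem (n := M + k) hι (by omega) hg hω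
    set b := t p.castSucc (Fin.last (M + k)) with hb
    set p' := amalgMap u k p with hp'
    let row : Fin (N + k) → ℤ := fun x => min b (s' p' x)
    let s : Pat (N + k + 1) := fun i j =>
      Fin.lastCases (Fin.lastCases (ι ρ) row j)
        (fun i' => Fin.lastCases (row i') (fun j' => s' i' j') j) i
    have hinit : patInit (n := N + k) s = s' := by
      funext i j; simp [patInit, s]
    have hu' := hs'.isUltra h hι
    have hbtop : b ≤ ι ρ := htu.le_top _ _
    have hsx : ∀ x : Fin (N + k), s x.castSucc (Fin.last (N + k)) = row x := fun x => by simp [s]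
    have hext : IsExt (ι ρ) (n := N + k) s p' := by
      refine ⟨by simp [s], fun l => ?_, fun l => by simp [s]⟩
      have e1 : row p' = b := by simp [row, hu'.diag, hbtop]
      rw [hsx, hsx, e1]
      simp [row, s]
    have hpos : PosPat ν ι (n := N + k + 1) s := by
      have hn : (0 : ℝ) < ((N + k : ℕ) : ℝ) := by exact_mod_cast p'.pos
      have hmass : 0 < mass ν ι b := ht.mass_pos h hι (Fin.castSucc_lt_last p).ne
      have hKb : mass ν ι b ≤ stepMass ν ι (n := N + k) s p' := by
        have e : s p'.castSucc (Fin.last (N + k)) = b := by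
          rw [hsx]; simp [row, hu'.diag, hbtop]
        calc mass ν ι b = mass ν ι (s p'.castSucc (Fin.last (N + k))) := by rw [e]
          _ ≤ _ := mass_le_stepMass h hext (by rw [hinit]; exact hu'.diag)
              (by rw [hinit]; exact hu'.le_top)
      have := integral_cell_ext h hι hext (fun _ => 1) measurable_const (by simp)
      rw [integral_cell_mem hι, integral_cell_mem hι, hinit] at this
      unfold PosPat
      nlinarith [mul_pos (hmass.trans_le hKb) (show 0 < ν.real (cell ι (idRep (N + k)) s') from hs')]
    have hcast : ∀ i : Fin (M + k), amalgMap u (k + 1) i.castSucc = (amalgMap u k i).castSucc := by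
      intro i
      induction i using Fin.addCases with
      | left i =>
        rw [show (Fin.castAdd k i).castSucc = Fin.castAdd (k + 1) i from rfl]
        simp [amalgMap]
        rfl
      | right i =>
        rw [show (Fin.natAdd M i).castSucc = Fin.natAdd M i.castSucc from rfl]
        simp [amalgMap]
    have hlast : amalgMap u (k + 1) (Fin.last (M.add k)) = Fin.last (N + k) := by
      show Fin.addCases _ _ (Fin.natAdd M (Fin.last k)) = Fin.natAdd N (Fin.last k)
      exact Fin.addCases_right _
    refine ⟨s, hpos, ?_, ?_, ?_⟩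
    · funext i j
      rw [← hold]
      show s (Fin.castAdd k i).castSucc (Fin.castAdd k j).castSucc = _
      simp [s, patMap]
    · funext i j
      show s (amalgMap u (k + 1) i) (amalgMap u (k + 1) j) = t i j
      have hrow : ∀ l : Fin (M + k),
          row (amalgMap u k l) = t l.castSucc (Fin.last (M + k)) := fun l => by
        rw [hp.row l, ← hb]
        show min b (s' p' (amalgMap u k l)) = _
        rw [show t p.castSucc l.castSucc = patInit (n := M + k) t p l from rfl, ← hnew]
        rfl
      induction i using Fin.lastCases with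
      | last =>
        rw [hlast]
        induction j using Fin.lastCases with
        | last => rw [hlast, htu.diag]; simp [s]
        | cast j =>
          rw [hcast]
          refine Eq.trans ?_ (hp.col j).symm
          rw [← hrow]; simp [s]
      | cast i =>
        rw [hcast]
        induction j using Fin.lastCases with
        | last => rw [hlast, hsx, hrow]; rfl
        | cast j =>
          rw [hcast, show t i.castSucc j.castSucc = patInit (n := M + k) t i j from rfl, ← hnew]
          simp [s, patMap]
    · intro x i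
      induction i using Fin.lastCases with
      | cast i =>
        obtain ⟨z, hz⟩ := hsep x i
        refine ⟨z, ?_⟩
        show s (Fin.castAdd k x).castSucc (Fin.natAdd N i).castSucc ≤
          t (Fin.castAdd k z).castSucc (Fin.natAdd M i).castSucc
        simp only [s, Fin.lastCases_castSucc]
        simpa [patInit] using hz
      | last =>
        show ∃ z : Fin M, s (Fin.castAdd k x).castSucc (Fin.last (N + k)) ≤
          t (Fin.castAdd k z).castSucc (Fin.last (M + k))
        rw [hsx]
        induction p using Fin.addCases with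
        | left z => exact ⟨z, min_le_left _ _⟩
        | right j =>
          obtain ⟨z, hz⟩ := hsep x j
          refine ⟨z, le_trans ?_ (htu.ultra (Fin.castAdd k z).castSucc
            (Fin.natAdd M j).castSucc (Fin.last (M + k)))⟩
          have h1 : s' p' (Fin.castAdd k x) ≤
              t (Fin.castAdd k z).castSucc (Fin.natAdd M j).castSucc := by
            rw [hu'.symm]
            simpa [hp', amalgMap, patInit] using hz
          exact le_min ((min_le_right _ _).trans h1) (min_le_left _ _)

end Vale.Agent.P168.Structure
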