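import Vale.Agent.P168.Statements

/-! Measurability, relabelling of replicas and multi-overlap basics for the structure theorem. -/

open MeasureTheory ProbabilityTheory Filter
open scoped BigOperators NNReal ENNReal

noncomputable section

namespace Vale.Agent.P168.Structure

open Vale.Agent.P168

theorem measurable_kern (g a b : ℕ) : Measurable fun ω : Arr => ω.2 g a b := by
  fun_prop

theorem measurable_rbar (a b : ℕ) : Measurable (rbar a b) := by
  unfold rbar
  exact Measurable.tsum fun g => (measurable_kern g a b).const_mul _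

theorem measurable_spinProd (L : List ℕ) (i : ℕ) : Measurable (spinProd L i) := by
  induction L with
  | nil => exact measurable_const
  | cons a L ih =>
    show Measurable fun ω : Arr => spin (ω.1 a i) * spinProd L i ω
    exact ((measurable_of_countable spin).comp (by fun_prop)).mul ih

theorem measurable_rset (L : List ℕ) : Measurable (rset L) := by
  unfold rset
  exact Measurable.limsup fun k =>
    (Finset.measurable_sum _ fun i _ => measurable_spinProd L i).div_const _

theorem measurable_tmat {n : ℕ} (u : Fin n → ℕ) : Measurable (tmat u) :=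
  measurable_pi_lambda _ fun _ => measurable_pi_lambda _ fun _ => measurable_rbar _ _

theorem measurable_repData (n : ℕ) : Measurable (repData n) := by
  unfold repData
  fun_prop

theorem measurable_permRep (π : Equiv.Perm ℕ) : Measurable (permRep π) := by
  unfold permRep
  fun_prop

/-- `permRep` as a measurable equivalence. -/
def permEquiv (π : Equiv.Perm ℕ) : Arr ≃ᵐ Arr where
  toFun := permRep π
  invFun := permRep π⁻¹
  left_inv ω := by ext <;> simp [permRep]
  right_inv ω := by ext <;> simp [permRep]
  measurable_toFun := measurable_permRep π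
  measurable_invFun := measurable_permRep π⁻¹

variable {ν : Measure Arr}

theorem integral_perm (h : IsGGArray ν) (π : Equiv.Perm ℕ) (f : Arr → ℝ) :
    ∫ ω, f (permRep π ω) ∂ν = ∫ ω, f ω ∂ν := by
  conv_rhs => rw [← h.exch_rep π]
  exact (integral_map_equiv (permEquiv π) f).symm

theorem rbar_perm (π : Equiv.Perm ℕ) (a b : ℕ) (ω : Arr) :
    rbar a b (permRep π ω) = rbar (π a) (π b) ω := rfl

theorem spinProd_perm (π : Equiv.Perm ℕ) (L : List ℕ) (i : ℕ) (ω : Arr) :
    spinProd L i (permRep π ω) = spinProd (L.map π) i ω := by
  simp [spinProd, permRep, List.map_map, Function.comp_def]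

theorem rset_perm (π : Equiv.Perm ℕ) (L : List ℕ) (ω : Arr) :
    rset L (permRep π ω) = rset (L.map π) ω := by
  simp [rset, spinProd_perm]

theorem abs_spin (s : Bool) : |spin s| = 1 := by cases s <;> simp [spin]

theorem abs_spinProd (L : List ℕ) (i : ℕ) (ω : Arr) : |spinProd L i ω| = 1 := by
  induction L with
  | nil => simp [spinProd]
  | cons a L ih =>
    show |spin (ω.1 a i) * spinProd L i ω| = 1
    rw [abs_mul, abs_spin, ih, one_mul]

/-- The site average behind `rset`. -/
def siteAvg (L : List ℕ) (k : ℕ) (ω : Arr) : ℝ :=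
  (∑ i ∈ Finset.range (4 ^ k), spinProd L i ω) / (4 : ℝ) ^ k

theorem abs_siteAvg_le (L : List ℕ) (k : ℕ) (ω : Arr) : |siteAvg L k ω| ≤ 1 := by
  unfold siteAvg
  rw [abs_div, abs_of_pos (by positivity : (0 : ℝ) < 4 ^ k), div_le_one (by positivity)]
  refine (Finset.abs_sum_le_sum_abs _ _).trans ?_
  simp [abs_spinProd]

theorem abs_rset_le (L : List ℕ) (ω : Arr) : |rset L ω| ≤ 1 := by
  have h := fun k => abs_le.1 (abs_siteAvg_le L k ω)
  show |limsup (fun k => siteAvg L k ω) atTop| ≤ 1
  refine abs_le.2 ⟨?_, ?_⟩
  · exact le_limsup_of_frequently_le (Frequently.of_forall fun k => (h k).1)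
      ⟨1, eventually_map.2 (Eventually.of_forall fun k => (h k).2)⟩
  · refine limsup_le_of_le ⟨-1, fun a ha => ?_⟩ (Eventually.of_forall fun k => (h k).2)
    obtain ⟨k, hk⟩ := (eventually_map.1 ha).exists
    exact le_trans (h k).1 hk

theorem spinProd_perm_list {L L' : List ℕ} (h : L.Perm L') (i : ℕ) (ω : Arr) :
    spinProd L i ω = spinProd L' i ω :=
  (h.map _).prod_eq

theorem rset_perm_list {L L' : List ℕ} (h : L.Perm L') (ω : Arr) : rset L ω = rset L' ω := by
  simp [rset, spinProd_perm_list h]

theorem spinProd_append (L L' : List ℕ) (i : ℕ) (ω : Arr) :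
    spinProd (L ++ L') i ω = spinProd L i ω * spinProd L' i ω := by
  simp [spinProd, List.map_append, List.prod_append]

end Vale.Agent.P168.Structure
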