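import Vale.Agent.P168.Structure.Amalgam

/-! Exchangeable copies with almost constant pairwise multi-overlaps have almost equal
multi-overlaps with any fixed set of replicas. -/

open MeasureTheory ProbabilityTheory Filter
open scoped BigOperators NNReal ENNReal Topology

noncomputable section

namespace Vale.Agent.P168.Structure

open Vale.Agent.P168

variable {ν : Measure Arr} {ρ : ℝ}

theorem tendsto_siteAvg (h : IsTreeArray ν ρ) (L : List ℕ) :
    ∀ᵐ ω ∂ν, Tendsto (fun k => siteAvg L k ω) atTop (𝓝 (rset L ω)) :=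
  h.rset_lim L

theorem spinProd_self (L : List ℕ) (i : ℕ) (ω : Arr) : spinProd (L ++ L) i ω = 1 := by
  rw [spinProd_append, ← sq, ← sq_abs, abs_spinProd, one_pow]

theorem siteAvg_self (L : List ℕ) (k : ℕ) (ω : Arr) : siteAvg (L ++ L) k ω = 1 := by
  simp [siteAvg, spinProd_self]

/-- Cauchy–Schwarz for site averages. -/
theorem sq_sum_siteAvg_le {α : Type*} [Fintype α] (Z : List ℕ) (H : α → List ℕ) (c : α → ℝ)
    (k : ℕ) (ω : Arr) :
    (∑ a, c a * siteAvg (Z ++ H a) k ω) ^ 2 ≤
      ∑ a, ∑ b, c a * c b * siteAvg (H a ++ H b) k ω := by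
  set M : ℝ := (4 : ℝ) ^ k with hM
  have hMpos : 0 < M := by positivity
  set W : ℕ → ℝ := fun i => ∑ a, c a * spinProd (H a) i ω with hW
  have e1 : (∑ a, c a * siteAvg (Z ++ H a) k ω) =
      (∑ i ∈ Finset.range (4 ^ k), spinProd Z i ω * W i) / M := by
    simp only [siteAvg, spinProd_append, hW, Finset.mul_sum, ← hM, ← mul_div_assoc,
      ← Finset.sum_div]
    rw [Finset.sum_comm]
    congr 1
    exact Finset.sum_congr rfl fun i _ => Finset.sum_congr rfl fun a _ => by ring
  have e2 : (∑ a, ∑ b, c a * c b * siteAvg (H a ++ H b) k ω) =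
      (∑ i ∈ Finset.range (4 ^ k), W i ^ 2) / M := by
    have hsq : ∀ i, W i ^ 2 = ∑ a, ∑ b, c a * c b *
        (spinProd (H a) i ω * spinProd (H b) i ω) := fun i => by
      simp only [hW, sq]
      rw [Finset.sum_mul_sum]
      exact Finset.sum_congr rfl fun a _ => Finset.sum_congr rfl fun b _ => by ring
    simp only [siteAvg, spinProd_append, hsq, ← hM, ← mul_div_assoc, Finset.mul_sum,
      ← Finset.sum_div]
    congr 1
    symm
    rw [Finset.sum_comm]
    exact Finset.sum_congr rfl fun a _ => Finset.sum_comm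
  have hZ : ∑ i ∈ Finset.range (4 ^ k), spinProd Z i ω ^ 2 = M := by
    simp [← sq_abs (spinProd Z _ ω), abs_spinProd, hM]
  have hcs := Finset.sum_mul_sq_le_sq_mul_sq (Finset.range (4 ^ k)) (fun i => spinProd Z i ω) W
  rw [hZ] at hcs
  rw [e1, e2, div_pow, div_le_div_iff₀ (by positivity) hMpos]
  nlinarith

/-- The exchangeable-copies inequality. -/
theorem bessel (h : IsTreeArray ν ρ) {L : ℕ} (hL : 0 < L) (S : Set Arr) (hS : MeasurableSet S)
    (Z : List ℕ) (H : Bool × Fin L → List ℕ) (K η : ℝ) (hK : |K| ≤ 1) (hη : 0 < η)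
    (hη1 : η ≤ 1) (hLη : 1 / (L : ℝ) ≤ η ^ 4)
    (hsym : ∀ g i j, ∃ (π : Equiv.Perm ℕ) (σ : Equiv.Perm (Bool × Fin L)), σ (g, i) = (g, j) ∧
      (∀ ω, permRep π ω ∈ S ↔ ω ∈ S) ∧ Z.map π = Z ∧ ∀ a, (H a).map π = H (σ a))
    (hpair : ∀ a b, a ≠ b →
      ∫ ω in S, |rset (H a ++ H b) ω - K| ∂ν ≤ η ^ 4 * ν.real S)
    (i j : Fin L) :
    ∫ ω in S, |rset (Z ++ H (true, i)) ω - rset (Z ++ H (false, j)) ω| ∂ν ≤
      18 * η * ν.real S := by
  classical
  haveI := h.prob
  set A : Bool × Fin L → Arr → ℝ := fun a ω => rset (Z ++ H a) ω with hA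
  set N : ℝ := 2 * (L : ℝ) with hN
  set bar : Arr → ℝ := fun ω => (∑ a, A a ω) / N with hbar
  set c : Bool × Fin L → Arr → ℝ := fun a ω => A a ω - bar ω with hc
  have hLpos : (0 : ℝ) < L := by exact_mod_cast hL
  have hNpos : 0 < N := by positivity
  have hcard : (Fintype.card (Bool × Fin L) : ℝ) = N := by simp [hN]
  have hAm : ∀ a, Measurable (A a) := fun a => measurable_rset _
  have hbarm : Measurable bar := (Finset.measurable_sum _ fun a _ => hAm a).div_const _
  have hcm : ∀ a, Measurable (c a) := fun a => (hAm a).sub hbarm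
  have hbarb : ∀ ω, |bar ω| ≤ 1 := fun ω => by
    rw [hbar, abs_div, abs_of_pos hNpos, div_le_one hNpos, ← hcard]
    refine (Finset.abs_sum_le_sum_abs _ _).trans ?_
    refine (Finset.sum_le_sum fun a _ => abs_rset_le _ _).trans ?_
    simp
  have hcb : ∀ a ω, |c a ω| ≤ 2 := fun a ω =>
    (abs_sub _ _).trans (by linarith [abs_rset_le (Z ++ H a) ω, hbarb ω])
  have hsum0 : ∀ ω, ∑ a, c a ω = 0 := fun ω => by
    simp only [hc, Finset.sum_sub_distrib, Finset.sum_const, Finset.card_univ, nsmul_eq_mul,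
      hcard, hbar]
    field_simp
    ring
  set T : Arr → ℝ := fun ω => ∑ a, ∑ b, if a = b then 0 else |rset (H a ++ H b) ω - K| with hT
  have hpt : ∀ᵐ ω ∂ν, (∑ a, c a ω ^ 2) ^ 2 ≤ 8 * N + 4 * T ω := by
    filter_upwards [ae_all_iff.2 fun a => tendsto_siteAvg h (Z ++ H a),
      ae_all_iff.2 fun p : (Bool × Fin L) × (Bool × Fin L) =>
        tendsto_siteAvg h (H p.1 ++ H p.2)] with ω h1 h2
    have hle : (∑ a, c a ω * A a ω) ^ 2 ≤
        ∑ a, ∑ b, c a ω * c b ω * rset (H a ++ H b) ω :=
      le_of_tendsto_of_tendsto'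
        ((tendsto_finsetSum _ fun a _ => (h1 a).const_mul _).pow 2)
        (tendsto_finsetSum _ fun a _ => tendsto_finsetSum _ fun b _ =>
          (h2 (a, b)).const_mul _)
        fun k => sq_sum_siteAvg_le Z H (fun a => c a ω) k ω
    have hsq : ∑ a, c a ω * A a ω = ∑ a, c a ω ^ 2 := by
      have : ∀ a, c a ω * A a ω = c a ω ^ 2 + c a ω * bar ω := fun a => by
        simp only [hc]; ring
      simp only [this, Finset.sum_add_distrib, ← Finset.sum_mul, hsum0, zero_mul, add_zero]
    rw [hsq] at hle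
    refine hle.trans ?_
    have hdiag : ∀ a, rset (H a ++ H a) ω = 1 := fun a =>
      tendsto_nhds_unique (h2 (a, a)) (by simp only [siteAvg_self]; exact tendsto_const_nhds)
    have hre : ∑ a, ∑ b, c a ω * c b ω * rset (H a ++ H b) ω =
        ∑ a, ∑ b, c a ω * c b ω * (rset (H a ++ H b) ω - K) := by
      simp only [mul_sub, Finset.sum_sub_distrib, ← Finset.sum_mul, ← Finset.mul_sum, hsum0]
      simp
    have hbd : ∀ a b, c a ω * c b ω * (rset (H a ++ H b) ω - K) ≤
        (if a = b then 8 else 0) + 4 * (if a = b then 0 else |rset (H a ++ H b) ω - K|) := by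
      intro a b
      have hab : |c a ω * c b ω| ≤ 4 := by
        rw [abs_mul]
        nlinarith [hcb a ω, hcb b ω, abs_nonneg (c a ω), abs_nonneg (c b ω)]
      have hprod : c a ω * c b ω * (rset (H a ++ H b) ω - K) ≤
          4 * |rset (H a ++ H b) ω - K| :=
        (le_abs_self _).trans (by
          rw [abs_mul]; exact mul_le_mul_of_nonneg_right hab (abs_nonneg _))
      by_cases hab' : a = b
      · subst hab'
        rw [if_pos rfl, if_pos rfl, mul_zero, add_zero]
        refine hprod.trans ?_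
        rw [hdiag]
        linarith [abs_sub (1 : ℝ) K, abs_one (α := ℝ)]
      · rw [if_neg hab', if_neg hab', zero_add]
        exact hprod
    rw [hre]
    refine (Finset.sum_le_sum fun a _ => Finset.sum_le_sum fun b _ => hbd a b).trans ?_
    simp only [Finset.sum_add_distrib, ← Finset.mul_sum, hT]
    simp [hN]
    linarith
  set P := ν.real S with hP
  have hP0 : 0 ≤ P := measureReal_nonneg
  have hint : ∀ {f : Arr → ℝ}, Measurable f → ∀ C, (∀ ω, |f ω| ≤ C) →
      Integrable f (ν.restrict S) := fun hf C hb =>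
    Integrable.of_bound hf.aestronglyMeasurable C (Eventually.of_forall hb)
  have hTm : Measurable T := by
    refine Finset.measurable_sum _ fun a _ => Finset.measurable_sum _ fun b _ => ?_
    by_cases hab : a = b
    · simp [hab]
    · simp only [if_neg hab]; exact ((measurable_rset _).sub_const K).norm
  have hGb : ∀ a b ω, |(|rset (H a ++ H b) ω - K|)| ≤ 2 := fun a b ω => by
    rw [abs_abs]
    exact (abs_sub _ _).trans (by linarith [abs_rset_le (H a ++ H b) ω])
  have hTi : ∀ a b, Integrable (fun ω => if a = b then 0 else |rset (H a ++ H b) ω - K|)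
      (ν.restrict S) := fun a b => by
    by_cases hab : a = b
    · simp [hab]
    · simp only [if_neg hab]; exact hint ((measurable_rset _).sub_const K).norm 2 (hGb a b)
  have hTint : ∫ ω in S, T ω ∂ν ≤ N ^ 2 * (η ^ 4 * P) := by
    rw [integral_finsetSum _ fun a _ => integrable_finsetSum _ fun b _ => hTi a b]
    have : ∀ a, ∫ ω in S, (∑ b, if a = b then 0 else |rset (H a ++ H b) ω - K|) ∂ν ≤
        N * (η ^ 4 * P) := by
      intro a
      rw [integral_finsetSum _ fun b _ => hTi a b]
      refine (Finset.sum_le_sum fun b _ => (?_ : _ ≤ η ^ 4 * P)).trans (by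
        rw [Finset.sum_const, Finset.card_univ, nsmul_eq_mul, hcard])
      by_cases hab : a = b
      · simp [hab]; positivity
      · simp only [if_neg hab]; exact hpair a b hab
    refine (Finset.sum_le_sum fun a _ => this a).trans ?_
    rw [Finset.sum_const, Finset.card_univ, nsmul_eq_mul, hcard]
    linarith
  have hQi : ∀ a, Integrable (fun ω => c a ω ^ 2) (ν.restrict S) := fun a =>
    hint ((hcm a).pow_const 2) 4 fun ω => by
      rw [abs_pow]; nlinarith [hcb a ω, abs_nonneg (c a ω)]
  set t : ℝ := (L : ℝ) * η ^ 2 with ht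
  have htpos : 0 < t := by positivity
  have htot : ∫ ω in S, (∑ a, c a ω ^ 2) ∂ν ≤
      ((8 * N) * P + 4 * (N ^ 2 * (η ^ 4 * P))) / (2 * t) + t / 2 * P := by
    have hTI : Integrable T (ν.restrict S) :=
      integrable_finsetSum _ fun a _ => integrable_finsetSum _ fun b _ => hTi a b
    have hb : ∀ᵐ ω ∂(ν.restrict S), (∑ a, c a ω ^ 2) ≤
        (8 * N + 4 * T ω) / (2 * t) + t / 2 := by
      filter_upwards [ae_restrict_of_ae hpt] with ω hω
      have hsq := sq_nonneg ((∑ a, c a ω ^ 2) - t)
      rw [div_add_div _ _ (by positivity) two_ne_zero, le_div_iff₀ (by positivity)]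
      nlinarith
    have hI1 : Integrable (fun ω => (8 * N + 4 * T ω) / (2 * t)) (ν.restrict S) :=
      ((integrable_const _).add (hTI.const_mul 4)).div_const _
    refine (integral_mono_ae (integrable_finsetSum _ fun a _ => hQi a)
      (hI1.add (integrable_const _)) hb).trans ?_
    simp only [Pi.add_apply]
    rw [integral_add hI1 (integrable_const _), integral_div,
      integral_add (integrable_const _) (hTI.const_mul 4), integral_const_mul, setIntegral_const,
      setIntegral_const, smul_eq_mul, smul_eq_mul, ← hP, mul_comm P (t / 2)]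
    gcongr ?_ / _ + _
    have h4 : ∫ ω in S, 4 * T ω ∂ν = 4 * ∫ ω in S, T ω ∂ν := integral_const_mul _ _
    linarith
  have hexch : ∀ g i j, ∫ ω in S, c (g, i) ω ^ 2 ∂ν = ∫ ω in S, c (g, j) ω ^ 2 ∂ν := by
    intro g i j
    obtain ⟨π, σ, hσ, hSπ, hZπ, hHπ⟩ := hsym g i j
    have hcπ : ∀ a ω, c a (permRep π ω) = c (σ a) ω := fun a ω => by
      have hAπ : ∀ a, A a (permRep π ω) = A (σ a) ω := fun a => by
        simp [hA, rset_perm, List.map_append, hZπ, hHπ]
      simp only [hc, hbar, hAπ, Equiv.sum_comp σ fun a => A a ω]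
    rw [← integral_indicator hS, ← integral_indicator hS, ← hσ,
      ← integral_perm h.toIsGGArray π (S.indicator fun ω => c (g, i) ω ^ 2)]
    refine integral_congr_ae (Eventually.of_forall fun ω => ?_)
    beta_reduce
    by_cases hω : ω ∈ S
    · rw [Set.indicator_of_mem hω, Set.indicator_of_mem ((hSπ ω).2 hω), hcπ]
    · rw [Set.indicator_of_notMem hω, Set.indicator_of_notMem fun hc' => hω ((hSπ ω).1 hc')]
  have hone : ∀ g i, ∫ ω in S, c (g, i) ω ^ 2 ∂ν ≤ 17 * η ^ 2 * P := by
    intro g i
    have hcnt : (L : ℝ) * ∫ ω in S, c (g, i) ω ^ 2 ∂ν ≤ ∫ ω in S, (∑ a, c a ω ^ 2) ∂ν := by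
      rw [integral_finsetSum _ fun a _ => hQi a]
      calc (L : ℝ) * ∫ ω in S, c (g, i) ω ^ 2 ∂ν
          = ∑ j : Fin L, ∫ ω in S, c (g, j) ω ^ 2 ∂ν := by
            simp [← hexch g i]
        _ ≤ ∑ g' : Bool, ∑ j : Fin L, ∫ ω in S, c (g', j) ω ^ 2 ∂ν :=
            Finset.single_le_sum
              (f := fun g' : Bool => ∑ j : Fin L, ∫ ω in S, c (g', j) ω ^ 2 ∂ν)
              (fun g' _ => Finset.sum_nonneg fun j _ => integral_nonneg fun ω => sq_nonneg _)
              (Finset.mem_univ g)
        _ = _ := (Fintype.sum_prod_type fun a => ∫ ω in S, c a ω ^ 2 ∂ν).symm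
    refine le_of_mul_le_mul_left (hcnt.trans (htot.trans ?_)) hLpos
    rw [ht, hN]
    have h8 : (1 : ℝ) ≤ L * η ^ 4 := by
      rw [div_le_iff₀ hLpos] at hLη; linarith
    rw [div_add' _ _ _ (by positivity), div_le_iff₀ (by positivity)]
    have hLP : 0 ≤ (L : ℝ) * P := by positivity
    nlinarith [mul_le_mul_of_nonneg_left h8 hLP]
  have habs : ∀ g i, ∫ ω in S, |c (g, i) ω| ∂ν ≤ 9 * η * P := by
    intro g i
    have hI : Integrable (fun ω => c (g, i) ω ^ 2 / (2 * η) + η / 2) (ν.restrict S) :=
      ((hQi _).div_const _).add (integrable_const _)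
    refine (integral_mono_ae (hint (hcm _).norm 2 fun ω => by
      rw [abs_norm]; exact hcb _ ω) hI (Eventually.of_forall fun ω => ?_)).trans ?_
    · beta_reduce
      rw [Real.norm_eq_abs]
      have := sq_nonneg (|c (g, i) ω| - η)
      rw [div_add_div _ _ (by positivity) two_ne_zero, le_div_iff₀ (by positivity)]
      nlinarith [sq_abs (c (g, i) ω)]
    · rw [integral_add ((hQi _).div_const _) (integrable_const _), integral_div, setIntegral_const,
        smul_eq_mul, ← hP]
      have := hone g i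
      rw [div_add' _ _ _ (by positivity), div_le_iff₀ (by positivity)]
      nlinarith
  have hI2 : ∀ a, Integrable (fun ω => |c a ω|) (ν.restrict S) := fun a =>
    hint (hcm a).norm 2 fun ω => by simp only [Real.norm_eq_abs, abs_abs]; exact hcb a ω
  calc ∫ ω in S, |rset (Z ++ H (true, i)) ω - rset (Z ++ H (false, j)) ω| ∂ν
      ≤ ∫ ω in S, (|c (true, i) ω| + |c (false, j) ω|) ∂ν := by
        refine integral_mono_ae (hint ((measurable_rset _).sub (measurable_rset _)).norm 2
          fun ω => ?_) ((hI2 _).add (hI2 _)) (Eventually.of_forall fun ω => ?_)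
        · simp only [abs_abs]
          exact (abs_sub _ _).trans (by
            linarith [abs_rset_le (Z ++ H (true, i)) ω, abs_rset_le (Z ++ H (false, j)) ω])
        · have : rset (Z ++ H (true, i)) ω - rset (Z ++ H (false, j)) ω =
              c (true, i) ω - c (false, j) ω := by simp only [hc, hA]; ring
          beta_reduce
          rw [this]
          exact abs_sub _ _
    _ = _ := integral_add (hI2 _) (hI2 _)
    _ ≤ 18 * η * P := by linarith [habs true i, habs false j]

end Vale.Agent.P168.Structure
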