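import Vale.Agent.P168.Structure.StepCtx

/-! The conditional mean on a shape as a ratio of two continuous functions. -/

open MeasureTheory ProbabilityTheory Filter
open scoped BigOperators NNReal ENNReal

noncomputable section

namespace Vale.Agent.P168.Structure

open Vale.Agent.P168

variable {ν : Measure Arr} {ρ θ : ℝ}

/-- A continuous bump of radius `r`. -/
def tent (r t : ℝ) : ℝ := max 0 (min 1 (2 - 2 * |t| / r))

/-- The product of bumps around the off-diagonal entries of `c`. -/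
def box (r : ℝ) {D : ℕ} (c T : Mat D) : ℝ :=
  ∏ p : {p : Fin D × Fin D // p.1 ≠ p.2}, tent r (T p.1.1 p.1.2 - c p.1.1 p.1.2)

theorem continuous_box (r : ℝ) {D : ℕ} (c : Mat D) : Continuous (box r c) := by
  unfold box tent; fun_prop

theorem box_nonneg (r : ℝ) {D : ℕ} (c T : Mat D) : 0 ≤ box r c T :=
  Finset.prod_nonneg fun _ _ => le_max_left _ _

theorem box_le_one (r : ℝ) {D : ℕ} (c T : Mat D) : box r c T ≤ 1 :=
  Finset.prod_le_one (fun _ _ => le_max_left _ _)
    fun _ _ => max_le zero_le_one (min_le_left _ _)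

theorem box_eq_one {r : ℝ} (hr : 0 < r) {D : ℕ} {c T : Mat D}
    (h : ∀ a b, a ≠ b → |T a b - c a b| ≤ r / 2) : box r c T = 1 :=
  Finset.prod_eq_one fun p _ => by
    have := h _ _ p.2
    have h2 : 1 ≤ 2 - 2 * |T p.1.1 p.1.2 - c p.1.1 p.1.2| / r := by
      rw [le_sub_iff_add_le, ← le_sub_iff_add_le', div_le_iff₀ hr]; linarith
    rw [tent, min_eq_left h2, max_eq_right zero_le_one]

theorem near_of_box_ne_zero {r : ℝ} (hr : 0 < r) {D : ℕ} {c T : Mat D} (h : box r c T ≠ 0)
    (a b : Fin D) (hab : a ≠ b) : |T a b - c a b| ≤ r := by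
  by_contra hlt
  refine h (Finset.prod_eq_zero (Finset.mem_univ ⟨(a, b), hab⟩) ?_)
  have h2 : 2 - 2 * |T a b - c a b| / r ≤ 0 := by
    rw [sub_nonpos, le_div_iff₀ hr]; linarith [not_le.1 hlt]
  exact max_eq_left ((min_le_right _ _).trans h2)

theorem rset_nil (ω : Arr) : rset [] ω = 1 := by
  have : (fun k : ℕ => (∑ i ∈ Finset.range (4 ^ k), spinProd [] i ω) / (4 : ℝ) ^ k) =
      fun _ => (1 : ℝ) := by
    funext k
    simp [spinProd]
  rw [rset, this]
  exact limsup_const 1

/-- `core_cont` for a box, with and without the multi-overlap. -/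
theorem exists_box_functions (h : IsCoreArray ν ρ) {r : ℝ} (hr : 0 < r) {d : ℕ}
    (c : Mat (2 + d)) (hc : ∀ a b, a ≠ b → c a b + r < ρ) :
    ∃ c₁ cR : ℝ → ℝ, Continuous c₁ ∧ Continuous cR ∧
      (∀ g : ℝ → ℝ, Measurable g → (∀ q, |g q| ≤ 1) →
        ∫ ω, g (rbar 0 1 ω) * box r c (tmat (idRep (2 + d)) ω) ∂ν =
          ∫ q, g q * c₁ q ∂overlapLaw ν) ∧
      ∀ g : ℝ → ℝ, Measurable g → (∀ q, |g q| ≤ 1) →
        ∫ ω, g (rbar 0 1 ω) * (box r c (tmat (idRep (2 + d)) ω) * fullOverlap d ω) ∂ν =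
          ∫ q, g q * cR q ∂overlapLaw ν := by
  have hkill : ∀ T : Mat (2 + d), (∃ i j, i ≠ j ∧ ρ ≤ T i j) → box r c T = 0 := by
    rintro T ⟨i, j, hij, hT⟩
    by_contra hne
    have := (abs_le.1 (near_of_box_ne_zero hr hne i j hij)).2
    linarith [hc i j hij]
  obtain ⟨c₁, hc₁, h₁⟩ := h.core_cont d (box r c) ∅ (continuous_box r c) hkill
  obtain ⟨cR, hcR, hR⟩ := h.core_cont d (box r c) Finset.univ (continuous_box r c) hkill
  have hpush : ∀ u : ℝ → ℝ, Measurable u →
      ∫ ω, u (rbar 0 1 ω) ∂ν = ∫ q, u q ∂overlapLaw ν := fun u hu => by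
    rw [overlapLaw, integral_map (measurable_rbar 0 1).aemeasurable hu.aestronglyMeasurable]
  refine ⟨c₁, cR, hc₁, hcR, fun g hg hgb => ?_, fun g hg hgb => ?_⟩
  · rw [← hpush (fun q => g q * c₁ q) (hg.mul hc₁.measurable), ← h₁ g hg hgb]
    simp [rset_nil]
  · rw [← hpush (fun q => g q * cR q) (hg.mul hcR.measurable), ← hR g hg hgb]
    simp [fullOverlap, List.ofFn_eq_map]

/-- Two sided comparison of the box means with the shape mean. -/
theorem box_ratio (h : IsTreeArray ν ρ) {η δ δ₀ r : ℝ} {m d : ℕ} (hθ : 0 < θ) (hη : 0 < η)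
    (hη1 : η ≤ 1) (hD : DoublesBd ν ρ δ₀ (θ / 2) (η ^ 4) m) {ι ι₁ : ℝ → ℤ}
    (hι : IsMesh ρ δ ι) (hι₁ : IsMesh ρ δ₀ ι₁) (τ : Pat (2 + d))
    (hpos : 0 < ν.real (shapeEv ι (ρ - θ) τ)) (hr : 0 < r) (hrθ : r ≤ θ / 2)
    (c : Mat (2 + d)) (hc : ∀ a b, a ≠ b → c a b ≤ ρ - θ)
    (hnear : ∀ T ∈ shapeSet ι (ρ - θ) τ, (∀ a b, |T a b| ≤ ρ) →
      ∀ a b, a ≠ b → |T a b - c a b| ≤ r)
    (hconst : ∀ a b : Fin (2 + d), a ≠ b → ∀ x, |x - c a b| ≤ r → ι₁ x = ι₁ (c a b))
    (hcl : ClassesLE (fun a b => ι₁ (c a b)) m)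
    (m₁ : ℝ → ℝ) (hm₁ : IsShapeMean ν ι (ρ - θ) τ (fullOverlap d) m₁)
    (c₁ cR : ℝ → ℝ) (hc₁ : Continuous c₁) (hcR : Continuous cR)
    (h₁ : ∀ g : ℝ → ℝ, Measurable g → (∀ q, |g q| ≤ 1) →
      ∫ ω, g (rbar 0 1 ω) * box r c (tmat (idRep (2 + d)) ω) ∂ν =
        ∫ q, g q * c₁ q ∂overlapLaw ν)
    (hR : ∀ g : ℝ → ℝ, Measurable g → (∀ q, |g q| ≤ 1) →
      ∫ ω, g (rbar 0 1 ω) * (box r c (tmat (idRep (2 + d)) ω) * fullOverlap d ω) ∂ν =
        ∫ q, g q * cR q ∂overlapLaw ν) :
    ∀ᵐ q ∂(overlapLaw ν).restrict (pinSet ι (ρ - θ) τ ∩ Set.Icc (-ρ) ρ),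
      |cR q - m₁ q * c₁ q| ≤ 36 * η * d * c₁ q := by
  classical
  haveI := h.prob
  haveI := overlapLaw_prob h
  obtain ⟨hm₁m, hm₁b, hm₁i⟩ := hm₁
  set cut₁ := ρ - θ / 2 with hcut₁
  set A := pinSet ι (ρ - θ) τ with hAdef
  have hA : MeasurableSet A := measurableSet_pinSet hι.1 _ τ
  set τ₁ : Pat (2 + d) := fun a b => ι₁ (c a b) with hτ₁
  set ιc := cutIota ι (ρ - θ) with hιc
  have hιcm : Monotone ιc := monotone_cutIota hι.1 _
  have hsum : Monotone fun x => ιc x + ι₁ x := hιcm.add hι₁.1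
  set ιb := cutIota (fun x => ιc x + ι₁ x) cut₁ with hιb
  have hιbm : Monotone ιb := monotone_cutIota hsum _
  have hsplit : ∀ x y, ιb x = ιb y → ιc x = ιc y ∧ ι₁ x = ι₁ y ∧ (cut₁ < x ↔ cut₁ < y) := by
    intro x y hxy
    obtain ⟨e, e'⟩ := cutIota_eq hsum hxy
    wlog hle : x ≤ y generalizing x y
    · obtain ⟨a, b, c⟩ := this y x hxy.symm e.symm e'.symm (le_of_not_ge hle)
      exact ⟨a.symm, b.symm, c.symm⟩
    have := hιcm hle
    have := hι₁.1 hle
    exact ⟨by linarith, by linarith, e'⟩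
  set S : Set (Mat (2 + d)) := subShape ι₁ cut₁ id τ₁ ∩ qval ⁻¹' A with hS
  have hSdet : ∀ T T', (∀ a b, ιb (T a b) = ιb (T' a b)) → T ∈ S → T' ∈ S := by
    intro T T' hTT hT
    refine ⟨fun a b hab => ?_, ?_⟩
    · obtain ⟨-, e2, e3⟩ := hsplit _ _ (hTT a b)
      obtain ⟨g1, g2⟩ := hT.1 a b hab
      exact ⟨e2.symm.trans g1, not_lt.1 fun hlt => absurd (e3.2 hlt) (not_lt.2 g2)⟩
    · obtain ⟨e1, e2⟩ := cutIota_eq hι.1
        (hsplit _ _ (hTT (Fin.castAdd d 0) (Fin.castAdd d 1))).1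
      exact ⟨e1.symm.trans hT.2.1, not_lt.1 fun hlt => absurd (e2.2 hlt) (not_lt.2 hT.2.2)⟩
  have hIdet : ∀ T T', (∀ a b, ιb (T a b) = ιb (T' a b)) →
      T ∈ shapeSet ι (ρ - θ) τ → T' ∈ shapeSet ι (ρ - θ) τ := fun T T' hTT hT =>
    shapeSet_det hι.1 T T' (fun a b => (hsplit _ _ (hTT a b)).1) hT
  have hdetk : ∀ k (T T' : Mat (2 + d)),
      (∀ a b, fineIota ιb cut₁ k (T a b) = fineIota ιb cut₁ k (T' a b)) → T ∈ S → T' ∈ S :=
    fun k T T' hTT hT => hSdet T T' (fun a b => (fineIota_eq hιbm (hTT a b)).1) hT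
  have hside : ∀ σ : ℝ, |σ| ≤ 1 → ∀ J : Set ℝ, MeasurableSet J → J ⊆ A →
      ∫ q in J, σ * cR q ∂overlapLaw ν ≤
        ∫ q in J, (σ * m₁ q + 36 * η * d) * c₁ q ∂overlapLaw ν := by
    intro σ hσ J hJ hJA
    set ε := 36 * η * d with hε
    have hε0 : 0 ≤ ε := by positivity
    have hcell : ∀ k (s : Pat (2 + d)), patSet (fineIota ιb cut₁ k) s ⊆ S →
        PosPat ν (fineIota ιb cut₁ k) s →
        ∫ ω in cell (fineIota ιb cut₁ k) (idRep (2 + d)) s, σ * fullOverlap d ω ∂ν ≤
          ∫ ω in cell (fineIota ιb cut₁ k) (idRep (2 + d)) s,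
            (σ * m₁ (rbar 0 1 ω) + ε) ∂ν := by
      intro k s hsS hs
      have hιf := monotone_fineIota hιbm cut₁ k
      refine mean_cell h hιf (fun x y e => (fineIota_eq hιbm e).1) hSdet (fun T hT => hT.2) _
        hIdet (shapeDen_pos h hι.1 hpos) (fun J hJ hJA => shape_law h hι.1 hpos hJ hJA)
        (fun ω => σ * fullOverlap d ω) ((measurable_fullOverlap d).const_mul σ)
        (fun ω => by
          rw [abs_mul]; exact mul_le_one₀ hσ (abs_nonneg _) (abs_fullOverlap_le d ω))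
        (fun q => σ * m₁ q) (hm₁m.const_mul σ)
        (fun q => by rw [abs_mul]; exact mul_le_one₀ hσ (abs_nonneg _) (hm₁b q))
        (fun J hJ hJA => ?_) s hsS hs fun s₀ hs₀ hp₀ hpin => ?_
      · rw [integral_const_mul, integral_const_mul]
        exact (congrArg (σ * ·) (hm₁i J hJ hJA)).trans (mul_left_comm _ _ _)
      · set G : (Fin 1 → ℝ) → ℝ := fun x => σ * max (-1) (min 1 (x 0)) with hG
        have hGR : ∀ ω, G (fun _ : Fin 1 =>
            rset (repList (id : Fin (2 + d) → Fin (2 + d))) ω) = σ * fullOverlap d ω := fun ω => by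
          have := abs_le.1 (abs_fullOverlap_le d ω)
          show σ * max (-1) (min 1 (fullOverlap d ω)) = _
          rw [min_eq_right this.2, max_eq_right this.1]
        obtain ⟨ω₀, hω₀, hg₀⟩ := exists_good_mem h hp₀
        have hcmp := compare h (ι := ι₁) (δ := δ₀) (θ := θ / 2) hη hη1 hD hι₁ hιf
          (fun _ : Fin 1 => τ₁) (fun _ => hcl) s hs s₀ hp₀ hpin (fun _ => id) (fun _ => id)
          (fun _ => Function.injective_id) (fun _ => Function.injective_id)
          (fun _ _ => rfl) (fun _ _ => rfl) (fun _ T hT => (hsS hT).1)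
          (fun _ T hT a b hab => ?_) G (by simp only [hG]; fun_prop)
          (fun x => by
            rw [abs_mul]
            exact mul_le_one₀ hσ (abs_nonneg _)
              (abs_le.2 ⟨le_max_left _ _, max_le (by norm_num) (min_le_left _ _)⟩))
          (L := 1) zero_le_one (fun x y hx hy => by
            simp only [hG, Fin.sum_univ_one, one_mul]
            have hx0 := abs_le.1 (hx 0)
            have hy0 := abs_le.1 (hy 0)
            rw [min_eq_right hx0.2, max_eq_right hx0.1, min_eq_right hy0.2, max_eq_right hy0.1,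
              ← mul_sub, abs_mul]
            exact mul_le_of_le_one_left (abs_nonneg _) hσ)
        · simp only [hGR] at hcmp
          simpa [hε] using hcmp
        · obtain ⟨hab1, hab2⟩ : ι₁ (rbar (a : ℕ) (b : ℕ) ω₀) = τ₁ a b ∧
              rbar (a : ℕ) (b : ℕ) ω₀ ≤ cut₁ := by
            have hI := hs₀ (hω₀ : tmat (idRep (2 + d)) ω₀ ∈ patSet _ s₀)
            refine ⟨hconst a b hab _ (hnear _ hI (fun i j => (hg₀ i j 0).2.2.1) a b hab), ?_⟩
            have := (hI a b hab).2
            simp only [hcut₁]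
            exact le_trans this (by linarith)
          obtain ⟨-, e2, e3⟩ := hsplit _ _
            (fineIota_eq hιbm ((hT a b).trans (hω₀ a b).symm)).1
          exact ⟨e2.trans hab1, not_lt.1 fun hlt => absurd (e3.1 hlt) (not_lt.2 hab2)⟩
    set w : Mat (2 + d) → ℝ := fun T => J.indicator 1 (qval T) * box r c T with hw
    have hwm : Measurable w :=
      ((measurable_one.indicator hJ).comp (measurable_qval d)).mul (continuous_box r c).measurable
    have hJ0 : ∀ q, 0 ≤ J.indicator (1 : ℝ → ℝ) q := fun q =>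
      Set.indicator_nonneg (fun _ _ => zero_le_one) q
    have hwG : ∀ T, T ∉ S → w T = 0 := by
      intro T hT
      by_contra hne
      obtain ⟨hj, hb⟩ := mul_ne_zero_iff.1 hne
      refine hT ⟨fun a b hab => ?_, hJA (by
        by_contra hq; exact hj (Set.indicator_of_notMem hq _))⟩
      have hn := near_of_box_ne_zero hr hb a b hab
      refine ⟨hconst a b hab _ hn, ?_⟩
      have := (abs_le.1 hn).2
      show T a b ≤ cut₁
      linarith [hc a b hab]
    have hB : ∀ q, |σ * m₁ q| ≤ 1 := fun q => by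
      rw [abs_mul]; exact mul_le_one₀ hσ (abs_nonneg _) (hm₁b q)
    have hfb : ∀ ω, |σ * fullOverlap d ω| ≤ 1 := fun ω => by
      rw [abs_mul]; exact mul_le_one₀ hσ (abs_nonneg _) (abs_fullOverlap_le d ω)
    have hWt := bound_of_cells_weight h hιbm cut₁ S (measurableSet_of_det hιbm S hSdet) hdetk
      (fun ω => σ * fullOverlap d ω + 1) (fun ω => σ * m₁ (rbar 0 1 ω) + ε + 1)
      (((measurable_fullOverlap d).const_mul σ).add_const 1)
      (fun ω => by linarith [(abs_le.1 (hfb ω)).1]) (B := 2 + ε)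
      (fun ω => by linarith [(abs_le.1 (hfb ω)).2])
      ((((hm₁m.comp (measurable_rbar 0 1)).const_mul σ).add_const ε).add_const 1)
      (fun ω => by linarith [(abs_le.1 (hB (rbar 0 1 ω))).1])
      (fun ω => by linarith [(abs_le.1 (hB (rbar 0 1 ω))).2])
      (fun k s h1 h2 => by
        have := hcell k s h1 h2
        have i1 : IntegrableOn (fun ω => σ * fullOverlap d ω)
            (cell (fineIota ιb cut₁ k) (idRep (2 + d)) s) ν :=
          (integrable_of_bdd ((measurable_fullOverlap d).const_mul σ) hfb).integrableOn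
        have i2 : IntegrableOn (fun ω => σ * m₁ (rbar 0 1 ω) + ε)
            (cell (fineIota ιb cut₁ k) (idRep (2 + d)) s) ν :=
          (integrable_of_bdd (((hm₁m.comp (measurable_rbar 0 1)).const_mul σ).add_const ε)
            (C := 1 + ε) fun ω => (abs_add_le _ _).trans (by
              rw [abs_of_nonneg hε0]; exact add_le_add (hB _) le_rfl)).integrableOn
        rw [integral_add i1 (integrableOn_const (measure_ne_top _ _)),
          integral_add i2 (integrableOn_const (measure_ne_top _ _))]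
        linarith)
      w hwm (fun T => mul_nonneg (hJ0 _) (box_nonneg r c T)) (W := 1)
      (fun T => mul_le_one₀ (Set.indicator_le_self' (fun _ _ => zero_le_one) _)
        (box_nonneg r c T) (box_le_one r c T)) hwG
    have hgJ := abs_indicator_one_le J
    have hgm : ∀ q, |J.indicator (1 : ℝ → ℝ) q * (σ * m₁ q)| ≤ 1 := fun q => by
      rw [abs_mul]; exact mul_le_one₀ (hgJ q) (abs_nonneg _) (hB q)
    have hw1 : ∀ ω, |w (tmat (idRep (2 + d)) ω)| ≤ 1 := fun ω => by
      rw [abs_mul]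
      exact mul_le_one₀ (hgJ _) (abs_nonneg _)
        (by rw [abs_of_nonneg (box_nonneg r c _)]; exact box_le_one r c _)
    have iw : Integrable (fun ω => w (tmat (idRep (2 + d)) ω)) ν :=
      integrable_of_bdd (hwm.comp (measurable_tmat _)) hw1
    have iR : Integrable (fun ω => w (tmat (idRep (2 + d)) ω) * (σ * fullOverlap d ω)) ν :=
      integrable_of_bdd ((hwm.comp (measurable_tmat _)).mul
        ((measurable_fullOverlap d).const_mul σ)) (C := 1) fun ω => by
          rw [abs_mul]; exact mul_le_one₀ (hw1 ω) (abs_nonneg _) (hfb ω)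
    have im : Integrable (fun ω => w (tmat (idRep (2 + d)) ω) * (σ * m₁ (rbar 0 1 ω))) ν :=
      integrable_of_bdd ((hwm.comp (measurable_tmat _)).mul
        ((hm₁m.comp (measurable_rbar 0 1)).const_mul σ)) (C := 1) fun ω => by
          rw [abs_mul]; exact mul_le_one₀ (hw1 ω) (abs_nonneg _) (hB _)
    have eR : ∫ ω, w (tmat (idRep (2 + d)) ω) * (σ * fullOverlap d ω) ∂ν =
        ∫ q in J, σ * cR q ∂overlapLaw ν := by
      have := hR (J.indicator 1) (measurable_one.indicator hJ) hgJ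
      rw [integral_const_mul, ← integral_indicator hJ]
      calc _ = σ * ∫ ω, J.indicator 1 (rbar 0 1 ω) *
            (box r c (tmat (idRep (2 + d)) ω) * fullOverlap d ω) ∂ν := by
            rw [← integral_const_mul]
            refine integral_congr_ae (Eventually.of_forall fun ω => ?_)
            simp only [hw, qval_tmat]; ring
        _ = _ := by
            rw [this]
            congr 1
            refine integral_congr_ae (Eventually.of_forall fun q => ?_)
            by_cases hq : q ∈ J <;> simp [hq]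
    have e1 : ∫ ω, w (tmat (idRep (2 + d)) ω) ∂ν = ∫ q in J, c₁ q ∂overlapLaw ν := by
      rw [← integral_indicator hJ]
      refine Eq.trans (Eq.trans ?_ (h₁ _ (measurable_one.indicator hJ) hgJ))
        (integral_congr_ae (Eventually.of_forall fun q => by by_cases hq : q ∈ J <;> simp [hq]))
      exact integral_congr_ae (Eventually.of_forall fun ω => rfl)
    have em : ∫ ω, w (tmat (idRep (2 + d)) ω) * (σ * m₁ (rbar 0 1 ω)) ∂ν =
        ∫ q in J, σ * m₁ q * c₁ q ∂overlapLaw ν := by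
      rw [← integral_indicator hJ]
      refine Eq.trans (Eq.trans ?_
        (h₁ _ ((measurable_one.indicator hJ).mul (hm₁m.const_mul σ)) hgm))
        (integral_congr_ae (Eventually.of_forall fun q => by by_cases hq : q ∈ J <;> simp [hq]))
      refine integral_congr_ae (Eventually.of_forall fun ω => ?_)
      simp only [hw, qval_tmat, Pi.mul_apply]
      ring
    have i3 : Integrable (fun q => σ * m₁ q * c₁ q) ((overlapLaw ν).restrict (J ∩ Set.Icc (-ρ) ρ)) :=
      by
        obtain ⟨B, hB'⟩ := isCompact_Icc.exists_bound_of_continuousOn (hc₁.continuousOn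
          (s := Set.Icc (-ρ) ρ))
        refine Integrable.of_bound ((hm₁m.const_mul σ).mul hc₁.measurable).aestronglyMeasurable B ?_
        filter_upwards [ae_restrict_mem (hJ.inter measurableSet_Icc)] with q hq
        rw [Real.norm_eq_abs, abs_mul]
        exact (mul_le_of_le_one_left (abs_nonneg _) (hB q)).trans (hB' q hq.2)
    have hJeq : (overlapLaw ν).restrict J = (overlapLaw ν).restrict (J ∩ Set.Icc (-ρ) ρ) := by
      refine (Measure.restrict_congr_set ?_).symm
      have hae : ∀ᵐ q ∂overlapLaw ν, q ∈ Set.Icc (-ρ) ρ := by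
        refine (ae_map_iff (measurable_rbar 0 1).aemeasurable measurableSet_Icc).2 ?_
        filter_upwards [h.rbar_le 0 1] with ω hω using abs_le.1 hω
      filter_upwards [hae] with q hq
      exact eq_iff_iff.2 ⟨fun hh => hh.1, fun hh => ⟨hh, hq⟩⟩
    have i4 : Integrable c₁ ((overlapLaw ν).restrict J) := by
      obtain ⟨B, hB'⟩ := isCompact_Icc.exists_bound_of_continuousOn (hc₁.continuousOn
        (s := Set.Icc (-ρ) ρ))
      rw [hJeq]
      exact Integrable.of_bound hc₁.aestronglyMeasurable B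
        ((ae_restrict_mem (hJ.inter measurableSet_Icc)).mono fun q hq => hB' q hq.2)
    have hl : ∫ ω, w (tmat (idRep (2 + d)) ω) * (σ * fullOverlap d ω + 1) ∂ν =
        ∫ ω, w (tmat (idRep (2 + d)) ω) * (σ * fullOverlap d ω) ∂ν +
          ∫ ω, w (tmat (idRep (2 + d)) ω) ∂ν := by
      rw [← integral_add iR iw]; exact integral_congr_ae (Eventually.of_forall fun ω => by ring)
    have hr' : ∫ ω, w (tmat (idRep (2 + d)) ω) * (σ * m₁ (rbar 0 1 ω) + ε + 1) ∂ν =
        ∫ ω, w (tmat (idRep (2 + d)) ω) * (σ * m₁ (rbar 0 1 ω)) ∂ν +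
          (ε + 1) * ∫ ω, w (tmat (idRep (2 + d)) ω) ∂ν := by
      rw [← integral_const_mul, ← integral_add im (iw.const_mul _)]
      exact integral_congr_ae (Eventually.of_forall fun ω => by ring)
    rw [hl, hr', eR, em, e1] at hWt
    have hfin : ∫ q in J, (σ * m₁ q + ε) * c₁ q ∂overlapLaw ν =
        (∫ q in J, σ * m₁ q * c₁ q ∂overlapLaw ν) + ε * ∫ q in J, c₁ q ∂overlapLaw ν := by
      rw [← integral_const_mul, ← integral_add (hJeq ▸ i3) (i4.const_mul ε)]
      exact integral_congr_ae (Eventually.of_forall fun q => by ring)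
    rw [hfin]; linarith
  set A' := A ∩ Set.Icc (-ρ) ρ with hA'
  have hA'm : MeasurableSet A' := hA.inter measurableSet_Icc
  have hint : ∀ f : ℝ → ℝ, Measurable f → ∀ B, (∀ q, |f q| ≤ B) → ∀ g : ℝ → ℝ, Continuous g →
      Integrable (fun q => f q * g q) ((overlapLaw ν).restrict A') := fun f hf B hfB g hg => by
    obtain ⟨C, hC⟩ := isCompact_Icc.exists_bound_of_continuousOn (hg.continuousOn
      (s := Set.Icc (-ρ) ρ))
    refine Integrable.of_bound (hf.mul hg.measurable).aestronglyMeasurable (B * C) ?_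
    filter_upwards [ae_restrict_mem hA'm] with q hq
    rw [Real.norm_eq_abs, abs_mul]
    exact mul_le_mul (hfB q) (hC q hq.2) (abs_nonneg _) ((abs_nonneg _).trans (hfB q))
  have hae : ∀ σ : ℝ, |σ| ≤ 1 → ∀ᵐ q ∂(overlapLaw ν).restrict A',
      σ * cR q ≤ (σ * m₁ q + 36 * η * d) * c₁ q := fun σ hσ =>
    ae_le_of_forall_setIntegral_le (hint (fun _ => σ) measurable_const |σ| (fun _ => le_rfl) cR hcR)
      (hint _ ((hm₁m.const_mul σ).add_const _) (1 + 36 * η * d) (fun q => (abs_add_le _ _).trans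
        (by
          rw [abs_of_nonneg (by positivity : 0 ≤ 36 * η * (d : ℝ)), abs_mul]
          exact add_le_add (mul_le_one₀ hσ (abs_nonneg _) (hm₁b q)) le_rfl)) c₁ hc₁)
      fun J hJ _ => by
        rw [Measure.restrict_restrict hJ]
        exact hside σ hσ _ (hJ.inter hA'm) fun q hq => hq.2.1
  filter_upwards [hae 1 (by norm_num), hae (-1) (by norm_num)] with q h1 h2
  rw [abs_le]
  constructor <;> linarith

end Vale.Agent.P168.Structure
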