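import Vale.Agent.P168.Structure.Cells

/-! Probabilities of patterns: the one-step rule and its iteration. -/

open MeasureTheory ProbabilityTheory Filter
open scoped BigOperators NNReal ENNReal

noncomputable section

namespace Vale.Agent.P168.Structure

open Vale.Agent.P168

variable {ν : Measure Arr} {ρ : ℝ} {ι : ℝ → ℤ}

/-- An indicator times a bounded function, as a function of data. -/
def cutData (ι : ℝ → ℤ) {n : ℕ} (s : Pat n) (F : RepData n → ℝ) : RepData n → ℝ :=
  (cellData ι s).indicator F

theorem measurable_cutData (hι : Monotone ι) {n : ℕ} (s : Pat n) {F : RepData n → ℝ}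
    (hF : Measurable F) : Measurable (cutData ι s F) :=
  hF.indicator (measurableSet_cellData hι s)

theorem abs_cutData_le {n : ℕ} (s : Pat n) {F : RepData n → ℝ} (hF : ∀ z, |F z| ≤ 1) (z) :
    |cutData ι s F z| ≤ 1 := by
  by_cases hz : z ∈ cellData ι s <;> simp [cutData, hz, hF]

theorem cutData_repData {n : ℕ} (s : Pat n) (F : RepData n → ℝ) (ω : Arr) :
    cutData ι s F (repData n ω) =
      (cell ι (idRep n) s).indicator (fun ω => F (repData n ω)) ω := by
  rfl

theorem integrable_of_bdd [IsFiniteMeasure ν] {f : Arr → ℝ} (hf : Measurable f) {C : ℝ}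
    (hb : ∀ ω, |f ω| ≤ C) : Integrable f ν :=
  Integrable.of_bound hf.aestronglyMeasurable C (Eventually.of_forall hb)

theorem abs_indicator_one_le (A : Set ℝ) (x : ℝ) : |A.indicator (1 : ℝ → ℝ) x| ≤ 1 := by
  by_cases hx : x ∈ A <;> simp [hx]

open scoped Classical in
/-- The gg identity for an indicator, evaluated on a pattern. -/
theorem gg_on_cell (h : IsTreeArray ν ρ) (hι : Monotone ι) {n : ℕ} (t : Pat n) (p : Fin n)
    (B : Set ℤ) (F : RepData n → ℝ) (hF : Measurable F) (hFb : ∀ z, |F z| ≤ 1) :
    (n : ℝ) * ∫ ω, cutData ι t F (repData n ω) * (ι ⁻¹' B).indicator 1 (rbar p n ω) ∂ν =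
      ((overlapLaw ν).real (ι ⁻¹' B) +
          ((Finset.univ.erase p).filter fun l => t p l ∈ B).card) *
        ∫ ω, cutData ι t F (repData n ω) ∂ν := by
  classical
  have hB : MeasurableSet (ι ⁻¹' B) := hι.measurable B.to_countable.measurableSet
  rw [gg_set h hB n p p.isLt _ (measurable_cutData hι t hF) (abs_cutData_le t hFb), add_mul]
  congr 1
  have hmap : (Finset.range n).erase p.val = (Finset.univ.erase p).map Fin.valEmbedding := by
    rw [Finset.map_erase, Fin.map_valEmbedding_univ, Finset.Iio_eq_Ico] <;> simp
  rw [hmap, Finset.sum_map]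
  have : ∀ l : Fin n, ∫ ω, cutData ι t F (repData n ω) *
        (ι ⁻¹' B).indicator 1 (rbar p (Fin.valEmbedding l) ω) ∂ν =
      if t p l ∈ B then ∫ ω, cutData ι t F (repData n ω) ∂ν else 0 := by
    intro l
    have hp : ∀ ω, cutData ι t F (repData n ω) * (ι ⁻¹' B).indicator 1 (rbar p l ω) =
        if t p l ∈ B then cutData ι t F (repData n ω) else 0 := by
      intro ω
      by_cases hω : ω ∈ cell ι (idRep n) t
      · have : ι (rbar p l ω) = t p l := hω p l
        by_cases hl : t p l ∈ B
        · rw [if_pos hl, Set.indicator_of_mem (show rbar p l ω ∈ ι ⁻¹' B by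
            show ι _ ∈ B; rwa [this]), Pi.one_apply, mul_one]
        · rw [if_neg hl, Set.indicator_of_notMem (show rbar p l ω ∉ ι ⁻¹' B by
            show ι _ ∉ B; rwa [this]), mul_zero]
      · rw [cutData_repData, Set.indicator_of_notMem hω, zero_mul]
        simp
    simp only [Fin.valEmbedding_apply, hp]
    split_ifs <;> simp
  simp only [this]
  rw [← Finset.sum_filter, Finset.sum_const, nsmul_eq_mul]

theorem integral_cell_ext (h : IsTreeArray ν ρ) (hι : Monotone ι) {n : ℕ} {s : Pat (n + 1)}
    {p : Fin n} (hs : IsExt (ι ρ) s p) (F : RepData n → ℝ) (hF : Measurable F)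
    (hFb : ∀ z, |F z| ≤ 1) :
    (n : ℝ) * ∫ ω in cell ι (idRep (n + 1)) s, F (repData n ω) ∂ν =
      stepMass ν ι s p * ∫ ω in cell ι (idRep n) (patInit s), F (repData n ω) ∂ν := by
  classical
  haveI := h.prob
  set b := s p.castSucc (Fin.last n) with hb
  set t := patInit s with ht
  have hI : ∫ ω in cell ι (idRep n) t, F (repData n ω) ∂ν =
      ∫ ω, cutData ι t F (repData n ω) ∂ν := by
    rw [← integral_indicator (measurableSet_cell hι _ _)]
    simp [cutData_repData]
  set G := fun ω => cutData ι t F (repData n ω) with hG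
  have hGm : Measurable G := (measurable_cutData hι t hF).comp (measurable_repData n)
  have hGb : ∀ ω, |G ω| ≤ 1 := fun ω => abs_cutData_le t hFb _
  have hpt : ∀ᵐ ω ∂ν, (cell ι (idRep (n + 1)) s).indicator (fun ω => F (repData n ω)) ω =
      G ω * (ι ⁻¹' {b}).indicator 1 (rbar p n ω) -
        ∑ l : Fin n, classWeight s p l *
          (G ω * (ι ⁻¹' Set.Ioi b).indicator 1 (rbar l n ω)) := by
    filter_upwards [ae_goodPt h] with ω hg
    by_cases hω : ω ∈ cell ι (idRep n) t
    · have hGω : G ω = F (repData n ω) := by
        simp only [hG, cutData_repData, Set.indicator_of_mem hω]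
      have hi := indicator_step hι hs hg hω
      rw [hGω]
      calc (cell ι (idRep (n + 1)) s).indicator (fun ω => F (repData n ω)) ω
          = F (repData n ω) * (cell ι (idRep (n + 1)) s).indicator (1 : Arr → ℝ) ω := by
            by_cases hc : ω ∈ cell ι (idRep (n + 1)) s <;> simp [hc]
        _ = _ := by
            rw [hi, mul_sub, Finset.mul_sum]
            exact congrArg₂ (· - ·) rfl (Finset.sum_congr rfl fun l _ => by rw [← hb]; ring)
    · have hGω : G ω = 0 := by simp only [hG, cutData_repData, Set.indicator_of_notMem hω]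
      rw [Set.indicator_of_notMem fun hc => hω (cell_subset_init ι s hc)]
      simp [hGω]
  have hB : ∀ B : Set ℤ, MeasurableSet (ι ⁻¹' B) := fun B =>
    hι.measurable B.to_countable.measurableSet
  have hint : ∀ (l : ℕ) (B : Set ℤ),
      Integrable (fun ω => G ω * (ι ⁻¹' B).indicator 1 (rbar l n ω)) ν := fun l B =>
    integrable_of_bdd (hGm.mul ((measurable_one.indicator (hB B)).comp (measurable_rbar l n)))
      (C := 1) fun ω => by
        rw [abs_mul]
        exact mul_le_one₀ (hGb ω) (abs_nonneg _) (abs_indicator_one_le _ _)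
  rw [← integral_indicator (measurableSet_cell hι _ _), integral_congr_ae hpt,
    integral_sub (hint _ _) (integrable_finsetSum _ fun l _ => (hint _ _).const_mul _),
    integral_finsetSum _ fun l _ => (hint _ _).const_mul _, mul_sub, Finset.mul_sum,
    gg_on_cell h hι t p {b} F hF hFb]
  simp only [integral_const_mul]
  have : ∀ l : Fin n, (n : ℝ) *
      (classWeight s p l * ∫ ω, G ω * (ι ⁻¹' Set.Ioi b).indicator 1 (rbar l n ω) ∂ν) =
      classWeight s p l * ((massGt ν ι b +
        ((Finset.univ.erase l).filter fun l' => b < t l l').card) * ∫ ω, G ω ∂ν) := by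
    intro l
    rw [mul_left_comm, hG, gg_on_cell h hι t l (Set.Ioi b) F hF hFb]
    simp [massGt]
  simp only [this, stepMass, ← hb, hI, sub_mul, Finset.sum_mul, mass, ← ht, ← hG, mul_assoc]
  simp

theorem mass_nonneg (b : ℤ) : 0 ≤ mass ν ι b := measureReal_nonneg

theorem overlapLaw_prob (h : IsTreeArray ν ρ) : IsProbabilityMeasure (overlapLaw ν) := by
  haveI := h.prob
  exact Measure.isProbabilityMeasure_map (measurable_rbar 0 1).aemeasurable

/-- The one-step probability is at least the mass of the cell of attachment. -/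
theorem mass_le_stepMass (h : IsTreeArray ν ρ) {n : ℕ} {s : Pat (n + 1)}
    {p : Fin n} (hs : IsExt (ι ρ) s p) (hdiag : ∀ l : Fin n, patInit s l l = ι ρ)
    (htop : ∀ l l' : Fin n, patInit s l l' ≤ ι ρ) :
    mass ν ι (s p.castSucc (Fin.last n)) ≤ stepMass ν ι s p := by
  classical
  haveI := overlapLaw_prob h
  set b := s p.castSucc (Fin.last n) with hb
  have hbtop : b ≤ ι ρ := by
    have hrow := hs.row p
    rw [← hb, show s p.castSucc p.castSucc = ι ρ from hdiag p] at hrow
    exact hrow ▸ min_le_right _ _
  have key : ∀ l : Fin n, classWeight s p l *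
      (massGt ν ι b + ((Finset.univ.erase l).filter fun l' => b < patInit s l l').card) ≤
        if l ≠ p ∧ patInit s p l = b then 1 else 0 := by
    intro l
    by_cases hpl : patInit s p l = b
    · by_cases hlt : b < ι ρ
      · have hne : l ≠ p := by
          rintro rfl
          rw [hdiag] at hpl
          exact hlt.ne' hpl
        rw [if_pos ⟨hne, hpl⟩]
        have hmem : l ∈ Finset.univ.filter fun l' => b < patInit s l l' := by
          simp [hdiag, hlt]
        have hcard : (((Finset.univ.erase l).filter fun l' => b < patInit s l l').card : ℝ) + 1 =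
            ((Finset.univ.filter fun l' => b < patInit s l l').card : ℝ) := by
          rw [Finset.filter_erase, Finset.card_erase_of_mem hmem]
          have := Finset.card_pos.2 ⟨l, hmem⟩
          rw [Nat.cast_sub this, Nat.cast_one, sub_add_cancel]
        have hg : massGt ν ι b ≤ 1 := measureReal_le_one
        have hpos : (0 : ℝ) < (Finset.univ.filter fun l' => b < patInit s l l').card := by
          exact_mod_cast Finset.card_pos.2 ⟨l, hmem⟩
        simp only [classWeight, hpl, ← hb, if_true]
        rw [div_mul_eq_mul_div, one_mul, div_le_one hpos]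
        linarith
      · have hempty : (Finset.univ.filter fun l' => b < patInit s l l') = ∅ :=
          Finset.filter_eq_empty_iff.2 fun l' _ h' => hlt (h'.trans_le (htop l l'))
        simp only [classWeight, hpl, ← hb, if_true, hempty, Finset.card_empty, Nat.cast_zero,
          div_zero, zero_mul]
        split_ifs <;> norm_num
    · have hpl' : ¬ patInit s p l = s p.castSucc (Fin.last n) := hpl
      simp only [classWeight, if_neg hpl', zero_mul]
      split_ifs <;> norm_num
  have hsum := Finset.sum_le_sum fun l (_ : l ∈ (Finset.univ : Finset (Fin n))) => key l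
  rw [Finset.sum_boole] at hsum
  have hfil : (Finset.univ.filter fun l => l ≠ p ∧ patInit s p l = b) =
      (Finset.univ.erase p).filter fun l => patInit s p l = b := by
    ext l; simp [and_comm]
  rw [hfil] at hsum
  simp only [stepMass, ← hb]
  linarith

end Vale.Agent.P168.Structure
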