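import Vale.Agent.P168.Structure.Basic

/-! Cells of monotone partitions: their probabilities satisfy an exact one-step rule. -/

open MeasureTheory ProbabilityTheory Filter
open scoped BigOperators NNReal ENNReal

noncomputable section

namespace Vale.Agent.P168.Structure

open Vale.Agent.P168

/-- A pattern: the cell index of every pair of replicas. -/
abbrev Pat (n : ℕ) := Fin n → Fin n → ℤ

/-- The event that the replicas `u` have pattern `s`. -/
def cell (ι : ℝ → ℤ) {n : ℕ} (u : Fin n → ℕ) (s : Pat n) : Set Arr :=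
  {ω | ∀ i j, ι (rbar (u i) (u j) ω) = s i j}

/-- The master overlap read from data. -/
def rbarData {n : ℕ} (z : RepData n) (a b : Fin n) : ℝ := ∑' g, kWeight g * z.2 g a b

/-- The pattern event as a set of data. -/
def cellData (ι : ℝ → ℤ) {n : ℕ} (s : Pat n) : Set (RepData n) :=
  {z | ∀ i j, ι (rbarData z i j) = s i j}

/-- The data of the replicas `u`. -/
def repMap {n : ℕ} (u : Fin n → ℕ) (ω : Arr) : RepData n :=
  (fun l => ω.1 (u l), fun g a b => ω.2 g (u a) (u b))

theorem repData_eq_repMap (n : ℕ) : repData n = repMap (idRep n) := rfl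

theorem cell_eq_preimage (ι : ℝ → ℤ) {n : ℕ} (u : Fin n → ℕ) (s : Pat n) :
    cell ι u s = repMap u ⁻¹' cellData ι s := rfl

theorem measurable_repMap {n : ℕ} (u : Fin n → ℕ) : Measurable (repMap u) := by
  unfold repMap
  fun_prop

theorem measurable_rbarData {n : ℕ} (a b : Fin n) : Measurable fun z : RepData n => rbarData z a b :=
  Measurable.tsum fun _ => Measurable.const_mul (by fun_prop) _

theorem measurableSet_cellData {ι : ℝ → ℤ} (hι : Monotone ι) {n : ℕ} (s : Pat n) :
    MeasurableSet (cellData ι s) := by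
  rw [cellData, Set.setOf_forall]
  refine MeasurableSet.iInter fun i => ?_
  rw [Set.setOf_forall]
  exact MeasurableSet.iInter fun j =>
    (hι.measurable.comp (measurable_rbarData i j)) (measurableSet_singleton _)

theorem measurableSet_cell {ι : ℝ → ℤ} (hι : Monotone ι) {n : ℕ} (u : Fin n → ℕ) (s : Pat n) :
    MeasurableSet (cell ι u s) :=
  measurable_repMap u (measurableSet_cellData hι s)

/-- The pointwise properties of the overlaps that hold almost surely. -/
def GoodPt (ρ : ℝ) (ω : Arr) : Prop :=
  ∀ a b c : ℕ, rbar a b ω = rbar b a ω ∧ rbar a a ω = ρ ∧ |rbar a b ω| ≤ ρ ∧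
    min (rbar a b ω) (rbar b c ω) ≤ rbar a c ω

variable {ν : Measure Arr} {ρ : ℝ}

theorem ae_goodPt (h : IsTreeArray ν ρ) : ∀ᵐ ω ∂ν, GoodPt ρ ω := by
  unfold GoodPt
  simp only [ae_all_iff]
  intro a b c
  filter_upwards [h.rbar_symm a b, h.rbar_diag a, h.rbar_le a b, h.ultra a b c] with ω h1 h2 h3 h4
  exact ⟨h1, h2, h3, h4⟩

theorem GoodPt.iota {ι : ℝ → ℤ} (hι : Monotone ι) {ω : Arr} (hg : GoodPt ρ ω) (a b c : ℕ) :
    min (ι (rbar a b ω)) (ι (rbar b c ω)) ≤ ι (rbar a c ω) := by
  rw [← hι.map_min]
  exact hι (hg a b c).2.2.2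

theorem GoodPt.iota_le {ι : ℝ → ℤ} (hι : Monotone ι) {ω : Arr} (hg : GoodPt ρ ω) (a b : ℕ) :
    ι (rbar a b ω) ≤ ι ρ :=
  hι (le_of_abs_le (hg a b a).2.2.1)

/-- The mass of a cell for two replicas. -/
def mass (ν : Measure Arr) (ι : ℝ → ℤ) (b : ℤ) : ℝ := (overlapLaw ν).real (ι ⁻¹' {b})

/-- The mass above a cell. -/
def massGt (ν : Measure Arr) (ι : ℝ → ℤ) (b : ℤ) : ℝ := (overlapLaw ν).real (ι ⁻¹' Set.Ioi b)

theorem gg_set (h : IsTreeArray ν ρ) {A : Set ℝ} (hA : MeasurableSet A) (n : ℕ) (p : ℕ)
    (hp : p < n) (F : RepData n → ℝ) (hF : Measurable F) (hFb : ∀ z, |F z| ≤ 1) :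
    (n : ℝ) * ∫ ω, F (repData n ω) * A.indicator 1 (rbar p n ω) ∂ν =
      (overlapLaw ν).real A * ∫ ω, F (repData n ω) ∂ν +
        ∑ l ∈ (Finset.range n).erase p, ∫ ω, F (repData n ω) * A.indicator 1 (rbar p l ω) ∂ν := by
  have hb : ∀ z : ℝ, |A.indicator (1 : ℝ → ℝ) z| ≤ 1 := fun z => by
    by_cases hz : z ∈ A <;> simp [hz]
  rw [h.gg_scalar n p hp F (A.indicator 1) hF ((measurable_one).indicator hA) hFb hb]
  congr 1
  rw [mul_comm]
  congr 1
  rw [overlapLaw, ← integral_map (measurable_rbar 0 1).aemeasurable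
    ((measurable_one).indicator hA).aestronglyMeasurable, integral_indicator_one hA]

/-- The restriction of a pattern to the first `n` replicas. -/
def patInit {n : ℕ} (s : Pat (n + 1)) : Pat n := fun i j => s i.castSucc j.castSucc

/-- `s` is the extension of `patInit s` by a replica attached to `p`. -/
structure IsExt (top : ℤ) {n : ℕ} (s : Pat (n + 1)) (p : Fin n) : Prop where
  diag : s (Fin.last n) (Fin.last n) = top
  row : ∀ l : Fin n, s l.castSucc (Fin.last n) =
    min (s p.castSucc (Fin.last n)) (s p.castSucc l.castSucc)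
  col : ∀ l : Fin n, s (Fin.last n) l.castSucc = s l.castSucc (Fin.last n)

/-- The weight of the class of `l` in the exact one-step rule. -/
def classWeight {n : ℕ} (s : Pat (n + 1)) (p l : Fin n) : ℝ :=
  if patInit s p l = s p.castSucc (Fin.last n) then
    1 / ((Finset.univ.filter fun l' => s p.castSucc (Fin.last n) < patInit s l l').card : ℝ)
  else 0

/-- The numerator of the one-step probability. -/
def stepMass (ν : Measure Arr) (ι : ℝ → ℤ) {n : ℕ} (s : Pat (n + 1)) (p : Fin n) : ℝ :=
  let b := s p.castSucc (Fin.last n)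
  mass ν ι b + ((Finset.univ.erase p).filter fun l => patInit s p l = b).card -
    ∑ l : Fin n, classWeight s p l *
      (massGt ν ι b + ((Finset.univ.erase l).filter fun l' => b < patInit s l l').card)

theorem exists_isExt_of_mem {ι : ℝ → ℤ} (hι : Monotone ι) {n : ℕ} (hn : 1 ≤ n) {s : Pat (n + 1)}
    {ω : Arr} (hg : GoodPt ρ ω) (hω : ω ∈ cell ι (idRep (n + 1)) s) :
    ∃ p, IsExt (ι ρ) s p := by
  haveI : Nonempty (Fin n) := ⟨⟨0, hn⟩⟩
  obtain ⟨p, hp⟩ := Finite.exists_max fun l : Fin n => s l.castSucc (Fin.last n)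
  have e : ∀ i j : Fin (n + 1), s i j = ι (rbar i j ω) := fun i j => (hω i j).symm
  refine ⟨p, ?_, fun l => ?_, fun l => ?_⟩
  · rw [e, (hg _ 0 0).2.1]
  · have hpl := hp l
    rw [e, e] at hpl ⊢
    rw [e p.castSucc l.castSucc]
    simp only [Fin.val_last, Fin.val_castSucc] at hpl ⊢
    have h1 : min (ι (rbar p l ω)) (ι (rbar p n ω)) ≤ ι (rbar l n ω) := by
      rw [(hg p l 0).1]; exact hg.iota hι l p n
    have h2 : min (ι (rbar p n ω)) (ι (rbar l n ω)) ≤ ι (rbar p l ω) := by
      rw [(hg l n 0).1]; exact hg.iota hι p n l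
    rcases le_total (ι (rbar p n ω)) (ι (rbar p l ω)) with h3 | h3
    · rw [min_eq_right h3] at h1
      rw [min_eq_left h3]
      exact le_antisymm hpl h1
    · rw [min_eq_left h3] at h1
      rw [min_eq_right hpl] at h2
      rw [min_eq_right h3]
      exact le_antisymm h2 h1
  · rw [e, e, (hg _ _ 0).1]

theorem cell_subset_init (ι : ℝ → ℤ) {n : ℕ} (s : Pat (n + 1)) :
    cell ι (idRep (n + 1)) s ⊆ cell ι (idRep n) (patInit s) :=
  fun _ hω i j => hω i.castSucc j.castSucc

theorem indicator_step {ι : ℝ → ℤ} (hι : Monotone ι) {n : ℕ} {s : Pat (n + 1)} {p : Fin n}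
    (hs : IsExt (ι ρ) s p) {ω : Arr} (hg : GoodPt ρ ω)
    (hω : ω ∈ cell ι (idRep n) (patInit s)) :
    (cell ι (idRep (n + 1)) s).indicator (1 : Arr → ℝ) ω =
      (ι ⁻¹' {s p.castSucc (Fin.last n)}).indicator 1 (rbar p n ω) -
        ∑ l : Fin n, classWeight s p l *
          (ι ⁻¹' Set.Ioi (s p.castSucc (Fin.last n))).indicator 1 (rbar l n ω) := by
  classical
  set b := s p.castSucc (Fin.last n) with hb
  have e : ∀ i j : Fin n, patInit s i j = ι (rbar i j ω) := fun i j => (hω i j).symm
  have hclass : ∀ l : Fin n, b < ι (rbar l n ω) → patInit s p l = b →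
      ι (rbar p n ω) = b := by
    intro l hl hpl
    rw [e] at hpl
    have h1 : min (ι (rbar p l ω)) (ι (rbar l n ω)) ≤ ι (rbar p n ω) := hg.iota hι p l n
    rw [hpl, min_eq_left hl.le] at h1
    rcases lt_or_eq_of_le h1 with h2 | h2
    · exfalso
      have h3 : min (ι (rbar p n ω)) (ι (rbar n l ω)) ≤ ι (rbar p l ω) := hg.iota hι p n l
      rw [hpl, (hg n l 0).1] at h3
      exact absurd h3 (not_le.2 (lt_min h2 hl))
    · exact h2.symm
  by_cases hp : ι (rbar p n ω) = b
  · by_cases hall : ∀ l : Fin n, ι (rbar l n ω) ≤ b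
    · have hmem : ω ∈ cell ι (idRep (n + 1)) s := by
        have hrow : ∀ l : Fin n, ι (rbar l n ω) = s l.castSucc (Fin.last n) := by
          intro l
          rw [hs.row l, ← hb]
          show _ = min b (patInit s p l)
          rw [e]
          have h1 : min (ι (rbar p l ω)) b ≤ ι (rbar l n ω) := by
            rw [← hp, (hg p l 0).1]; exact hg.iota hι l p n
          have h2 : min b (ι (rbar l n ω)) ≤ ι (rbar p l ω) := by
            rw [← hp, (hg l n 0).1]; exact hg.iota hι p n l
          rcases le_total b (ι (rbar p l ω)) with h3 | h3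
          · rw [min_eq_right h3] at h1
            rw [min_eq_left h3]
            exact le_antisymm (hall l) h1
          · rw [min_eq_left h3] at h1
            rw [min_eq_right (hall l)] at h2
            rw [min_eq_right h3]
            exact le_antisymm h2 h1
        intro i j
        induction i using Fin.lastCases with
        | last =>
          induction j using Fin.lastCases with
          | last => rw [hs.diag]; exact congrArg ι (hg _ 0 0).2.1
          | cast j =>
            rw [hs.col j, ← hrow j]
            exact congrArg ι (hg n j 0).1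
        | cast i =>
          induction j using Fin.lastCases with
          | last => exact hrow i
          | cast j => exact hω i j
      rw [Set.indicator_of_mem hmem, Set.indicator_of_mem (show rbar p n ω ∈ ι ⁻¹' {b} from hp),
        Finset.sum_eq_zero fun l _ => by
          rw [Set.indicator_of_notMem (show rbar l n ω ∉ ι ⁻¹' Set.Ioi b from
            not_lt.2 (hall l)), mul_zero]]
      simp
    · push Not at hall
      obtain ⟨l₀, hl₀⟩ := hall
      have hnot : ω ∉ cell ι (idRep (n + 1)) s := fun hmem => by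
        have h1 : ι (rbar l₀ n ω) = s l₀.castSucc (Fin.last n) := hmem l₀.castSucc (Fin.last n)
        rw [hs.row l₀, ← hb] at h1
        exact absurd (h1 ▸ min_le_left b _) (not_le.2 hl₀)
      set S := Finset.univ.filter fun l : Fin n => b < ι (rbar l n ω) with hS
      have hwS : ∀ l ∈ S, classWeight s p l = 1 / (S.card : ℝ) := by
        intro l hl
        have hl' : b < ι (rbar l n ω) := (Finset.mem_filter.1 hl).2
        have hpl : patInit s p l = b := by
          rw [e]
          have h1 : min (ι (rbar p n ω)) (ι (rbar n l ω)) ≤ ι (rbar p l ω) := hg.iota hι p n l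
          rw [hp, (hg n l 0).1, min_eq_left hl'.le] at h1
          rcases lt_or_eq_of_le h1 with h2 | h2
          · exfalso
            have h3 : min (ι (rbar p l ω)) (ι (rbar l n ω)) ≤ ι (rbar p n ω) := hg.iota hι p l n
            rw [hp] at h3
            exact absurd h3 (not_le.2 (lt_min h2 hl'))
          · exact h2.symm
        have hcl : (Finset.univ.filter fun l' => b < patInit s l l') = S := by
          ext l'
          simp only [hS, Finset.mem_filter, Finset.mem_univ, true_and]
          constructor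
          · intro h'
            rw [e] at h'
            have h1 : min (ι (rbar l' l ω)) (ι (rbar l n ω)) ≤ ι (rbar l' n ω) :=
              hg.iota hι l' l n
            rw [(hg l' l 0).1] at h1
            exact (lt_min h' hl').trans_le h1
          · intro h'
            rw [e]
            have h1 : min (ι (rbar l n ω)) (ι (rbar n l' ω)) ≤ ι (rbar l l' ω) := hg.iota hι l n l'
            rw [(hg n l' 0).1] at h1
            exact (lt_min hl' h').trans_le h1
        simp [classWeight, hpl, ← hb, hcl]
      have hne : (S.card : ℝ) ≠ 0 := by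
        exact_mod_cast Finset.card_ne_zero.2 ⟨l₀, by simp [hS, hl₀]⟩
      rw [Set.indicator_of_notMem hnot, Set.indicator_of_mem (show rbar p n ω ∈ ι ⁻¹' {b} from hp)]
      have : ∑ l : Fin n, classWeight s p l * (ι ⁻¹' Set.Ioi b).indicator 1 (rbar l n ω) =
          ∑ l ∈ S, classWeight s p l := by
        rw [hS, Finset.sum_filter]
        refine Finset.sum_congr rfl fun l _ => ?_
        by_cases hl : b < ι (rbar l n ω)
        · rw [if_pos hl, Set.indicator_of_mem (show rbar l n ω ∈ ι ⁻¹' Set.Ioi b from hl)]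
          simp
        · rw [if_neg hl, Set.indicator_of_notMem (show rbar l n ω ∉ ι ⁻¹' Set.Ioi b from hl),
            mul_zero]
      rw [this, Finset.sum_congr rfl hwS, Finset.sum_const, nsmul_eq_mul, Pi.one_apply,
        mul_one_div, div_self hne, sub_self]
  · have hnot : ω ∉ cell ι (idRep (n + 1)) s := fun hmem =>
      hp (hmem p.castSucc (Fin.last n))
    rw [Set.indicator_of_notMem hnot,
      Set.indicator_of_notMem (show rbar p n ω ∉ ι ⁻¹' {b} from hp),
      Finset.sum_eq_zero fun l _ => by
        by_cases hl : b < ι (rbar l n ω)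
        · have : classWeight s p l = 0 := by
            unfold classWeight
            rw [if_neg fun hpl => hp (hclass l hl hpl)]
          rw [this, zero_mul]
        · rw [Set.indicator_of_notMem (show rbar l n ω ∉ ι ⁻¹' Set.Ioi b from hl), mul_zero]]
    simp

end Vale.Agent.P168.Structure
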