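import Vale.Agent.P168.Structure.ShapeBounds

/-! Switching one hanging class of replicas to a separated isomorphic one. -/

open MeasureTheory ProbabilityTheory Filter
open scoped BigOperators NNReal ENNReal

noncomputable section

namespace Vale.Agent.P168.Structure

open Vale.Agent.P168

variable {ν : Measure Arr} {ρ : ℝ} {ι ιf : ℝ → ℤ}

/-- The replicas `Z`, then the two classes. -/
def joinMap3 {M j N : ℕ} (Z : Fin M → Fin N) (H H' : Fin j → Fin N) : Fin (M + j + j) → Fin N :=
  Fin.addCases (joinMap Z H) H'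

theorem joinMap_injective {M j N : ℕ} {Z : Fin M → Fin N} {H : Fin j → Fin N}
    (hZ : Function.Injective Z) (hH : Function.Injective H) (hd : ∀ i z, H i ≠ Z z) :
    Function.Injective (joinMap Z H) := by
  intro x y hxy
  induction x using Fin.addCases with
  | left x =>
    induction y using Fin.addCases with
    | left y => simp only [joinMap_castAdd] at hxy; rw [hZ hxy]
    | right y => simp only [joinMap_castAdd, joinMap_natAdd] at hxy; exact absurd hxy.symm (hd _ _)
  | right x =>
    induction y using Fin.addCases with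
    | left y => simp only [joinMap_castAdd, joinMap_natAdd] at hxy; exact absurd hxy (hd _ _)
    | right y => simp only [joinMap_natAdd] at hxy; rw [hH hxy]

/-- The list of replicas in the image of an index map. -/
def repList {D N : ℕ} (u : Fin D → Fin N) : List ℕ := List.ofFn fun i => (u i : ℕ)

theorem repList_joinMap {M j N : ℕ} (Z : Fin M → Fin N) (H : Fin j → Fin N) :
    repList (joinMap Z H) = repList Z ++ repList H := by
  simp only [repList, ← List.ofFn_fin_append]
  congr 1
  funext x
  induction x using Fin.addCases <;> simp [joinMap]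

/-- Swapping two copies of the same type preserves a copy pattern. -/
theorem CopyPat.exists_swap (h : IsTreeArray ν ρ) (hι : Monotone ιf) {M j n : ℕ} (hM : 1 ≤ M)
    {p₀ : Pat M} {t : Bool → Pat (M + j)} {g : Fin n → Bool} {N : ℕ} {s : Pat N}
    {zi : Fin M → Fin N} {ci : Fin n → Fin j → Fin N} (hC : CopyPat ν ιf p₀ t g N s zi ci)
    (τ : Equiv.Perm (Fin n)) (hτ : ∀ a, g (τ a) = g a) :
    ∃ e : Equiv.Perm (Fin N), (∀ z, e (zi z) = zi z) ∧ (∀ a i, e (ci a i) = ci (τ a) i) ∧
      ∀ x y, s (e x) (e y) = s x y := by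
  classical
  have hu := hC.pos.isUltra h hι
  let φ : Fin M ⊕ (Fin n × Fin j) → Fin N := Sum.elim zi fun p => ci p.1 p.2
  have hφ : Function.Bijective φ := by
    refine ⟨?_, fun x => ?_⟩
    · rintro (z | ⟨a, i⟩) (z' | ⟨b, i'⟩) he
      · exact congrArg Sum.inl (hC.inj_z he)
      · exact absurd he.symm (hC.disj b i' z)
      · exact absurd he (hC.disj a i z')
      · obtain ⟨e1, e2⟩ := hC.inj_c a b i i' he
        rw [e1, e2]
    · rcases hC.cover x with ⟨z, hz⟩ | ⟨a, i, hai⟩
      · exact ⟨Sum.inl z, hz⟩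
      · exact ⟨Sum.inr (a, i), hai⟩
  let E := Equiv.ofBijective φ hφ
  let e : Equiv.Perm (Fin N) :=
    (E.symm.trans (Equiv.sumCongr (Equiv.refl _) (Equiv.prodCongr τ (Equiv.refl _)))).trans E
  have hez : ∀ z, e (zi z) = zi z := fun z => by
    have : E.symm (zi z) = Sum.inl z := E.symm_apply_eq.2 rfl
    simp [e, this, E, φ]
  have hec : ∀ a i, e (ci a i) = ci (τ a) i := fun a i => by
    have : E.symm (ci a i) = Sum.inr (a, i) := E.symm_apply_eq.2 rfl
    simp [e, this, E, φ]
  have hzc : ∀ a z i, s (zi z) (ci a i) = t (g a) (Fin.castAdd j z) (Fin.natAdd M i) :=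
    fun a z i => by rw [← hC.type a]; simp [patMap, joinMap_castAdd, joinMap_natAdd]
  have hcc : ∀ a i i', s (ci a i) (ci a i') = t (g a) (Fin.natAdd M i) (Fin.natAdd M i') :=
    fun a i i' => by rw [← hC.type a]; simp [patMap, joinMap_natAdd]
  refine ⟨e, hez, hec, fun x y => ?_⟩
  rcases hC.cover x with ⟨z, rfl⟩ | ⟨a, i, rfl⟩ <;>
    rcases hC.cover y with ⟨z', rfl⟩ | ⟨b, i', rfl⟩
  · rw [hez, hez]
  · rw [hez, hec, hzc, hzc, hτ]
  · rw [hez, hec, hu.symm, hzc, hu.symm (ci a i), hzc, hτ]
  · rw [hec, hec]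
    by_cases hab : a = b
    · subst hab; rw [hcc, hcc, hτ]
    · haveI : Nonempty (Fin M) := ⟨⟨0, hM⟩⟩
      obtain ⟨z, hz⟩ := Finite.exists_max fun z' : Fin M =>
        t (g b) (Fin.castAdd j z') (Fin.natAdd M i')
      rw [hC.cross h hι (τ.injective.ne hab) i i' z (by rw [hτ]; exact hz),
        hC.cross h hι hab i i' z hz, hτ, hτ]

/-- Switching one hanging class. -/
theorem class_switch (h : IsTreeArray ν ρ) {δ θ η : ℝ} {m : ℕ} (hη : 0 < η) (hη1 : η ≤ 1)
    (hD : DoublesBd ν ρ δ θ (η ^ 4) m) (hmesh : IsMesh ρ δ ι) (hιf : Monotone ιf)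
    (href : ∀ x y, ιf x = ιf y → ι x = ι y) {N M j : ℕ} (hM : 1 ≤ M) (hj : 1 ≤ j) (hjm : j ≤ m)
    (s : Pat N) (hs : PosPat ν ιf s) (Z : Fin M → Fin N) (H H' : Fin j → Fin N)
    (hinj : Function.Injective (joinMap3 Z H H')) (c : Pat N)
    (hc : ∀ ω ∈ cell ιf (idRep N) s, ∀ x y : Fin N, ι (rbar x y ω) = c x y)
    (hlow : ∀ x y : Fin N, ((∃ z i, x = Z z ∧ (y = H i ∨ y = H' i)) ∨
      ∃ i i', i ≠ i' ∧ ((x = H i ∧ y = H i') ∨ (x = H' i ∧ y = H' i'))) →
      ∀ r, ιf r = s x y → r ≤ ρ - θ)
    (a : ℤ) (z₀ : Fin M) (hz₀ : ∀ i, c (Z z₀) (H i) = a ∧ c (Z z₀) (H' i) = a)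
    (hle : ∀ z i, c (Z z) (H i) ≤ a ∧ c (Z z) (H' i) ≤ a)
    (hin : ∀ i i', i ≠ i' → c (H' i) (H' i') = c (H i) (H i') ∧ a < c (H i) (H i'))
    (hsep : ∀ i i', ∃ z, s (H i) (H' i') ≤ s (Z z) (H' i')) :
    ∫ ω in cell ιf (idRep N) s,
        |rset (repList Z ++ repList H) ω - rset (repList Z ++ repList H') ω| ∂ν ≤
      18 * η * ν.real (cell ιf (idRep N) s) := by
  classical
  haveI := h.prob
  haveI : Nonempty (Fin M) := ⟨⟨0, hM⟩⟩
  obtain ⟨ω₀, hω₀, hg₀⟩ := exists_good_mem h hs
  have hcv : ∀ x y : Fin N, ι (rbar x y ω₀) = c x y := hc ω₀ hω₀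
  have hsv : ∀ x y : Fin N, ιf (rbar x y ω₀) = s x y := hω₀
  have hcsymm : ∀ x y, c x y = c y x := fun x y => by rw [← hcv, ← hcv, (hg₀ x y x).1]
  have hcultra : ∀ x y z, min (c x y) (c y z) ≤ c x z := fun x y z => by
    rw [← hcv, ← hcv, ← hcv]; exact hg₀.iota hmesh.1 x y z
  have hu := hs.isUltra h hιf
  -- injectivity of the pieces
  have hZ : Function.Injective Z := fun x y e => by
    have := @hinj (Fin.castAdd j (Fin.castAdd j x)) (Fin.castAdd j (Fin.castAdd j y))
      (by simp [joinMap3, joinMap, e])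
    exact Fin.castAdd_injective _ _ (Fin.castAdd_injective _ _ this)
  have hH : Function.Injective H := fun x y e => by
    have := @hinj (Fin.castAdd j (Fin.natAdd M x)) (Fin.castAdd j (Fin.natAdd M y))
      (by simp [joinMap3, joinMap, e])
    exact Fin.natAdd_injective _ _ (Fin.castAdd_injective _ _ this)
  have hH' : Function.Injective H' := fun x y e => by
    have := @hinj (Fin.natAdd (M + j) x) (Fin.natAdd (M + j) y) (by simp [joinMap3, e])
    exact Fin.natAdd_injective _ _ this
  have hdH : ∀ i z, H i ≠ Z z := fun i z e => by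
    have := @hinj (Fin.castAdd j (Fin.natAdd M i)) (Fin.castAdd j (Fin.castAdd j z))
      (by simp [joinMap3, joinMap, e])
    have := congrArg Fin.val this
    simp only [Fin.val_castAdd, Fin.val_natAdd] at this
    omega
  have hdH' : ∀ i z, H' i ≠ Z z := fun i z e => by
    have := @hinj (Fin.natAdd (M + j) i) (Fin.castAdd j (Fin.castAdd j z))
      (by simp [joinMap3, joinMap, e])
    have := congrArg Fin.val this
    simp only [Fin.val_castAdd, Fin.val_natAdd] at this
    omega
  have hHH' : ∀ i i', H i ≠ H' i' := fun i i' e => by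
    have := @hinj (Fin.castAdd j (Fin.natAdd M i)) (Fin.natAdd (M + j) i')
      (by simp [joinMap3, joinMap, e])
    have := congrArg Fin.val this
    simp only [Fin.val_castAdd, Fin.val_natAdd] at this
    omega
  set Hb : Bool → Fin j → Fin N := fun b => if b then H else H' with hHb
  set t : Bool → Pat (M + j) := fun b => patMap (joinMap Z (Hb b)) s with ht
  have hHbinj : ∀ b, Function.Injective (Hb b) := fun b => by cases b <;> simp [hHb, hH, hH']
  have hHbd : ∀ b i z, Hb b i ≠ Z z := fun b => by cases b <;> simp [hHb, hdH, hdH']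
  have htpos : ∀ b, PosPat ν ιf (t b) := fun b =>
    hs.restrict h hιf (by omega) (joinMap_injective hZ (hHbinj b) (hHbd b))
  have hagree : ∀ b, patMap (Fin.castAdd j) (t b) = patMap Z s := fun b => by
    funext x y; simp [ht, patMap, joinMap_castAdd]
  -- the copies
  set L : ℕ := ⌈1 / η ^ 4⌉₊ with hLdef
  have hη4 : 0 < η ^ 4 := by positivity
  have hL : 0 < L := Nat.ceil_pos.2 (by positivity)
  have hLη : 1 / (L : ℝ) ≤ η ^ 4 := by
    rw [div_le_iff₀ (by exact_mod_cast hL), ← div_le_iff₀' hη4]
    exact Nat.le_ceil _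
  let e : Fin (Fintype.card (Bool × Fin L)) ≃ Bool × Fin L := (Fintype.equivFin _).symm
  obtain ⟨N', s', zi, ci, hC⟩ := exists_copyPat h hιf hM (patMap Z s)
    (hs.restrict h hιf hM hZ) t htpos hagree _ fun a => (e a).1
  set S := cell ιf (idRep N') s' with hS
  set κfun : Bool × Fin L → Fin j → Fin N' := fun p => ci (e.symm p) with hκ
  have hzc : ∀ a z i, s' (zi z) (ci a i) = s (Z z) (Hb (e a).1 i) := fun a z i => by
    have := congrFun (congrFun (hC.type a) (Fin.castAdd j z)) (Fin.natAdd M i)
    simpa [ht, patMap, joinMap_castAdd, joinMap_natAdd] using this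
  have hcc : ∀ a i i', s' (ci a i) (ci a i') = s (Hb (e a).1 i) (Hb (e a).1 i') := fun a i i' => by
    have := congrFun (congrFun (hC.type a) (Fin.natAdd M i)) (Fin.natAdd M i')
    simpa [ht, patMap, joinMap_natAdd] using this
  -- coarse values of codes
  have hco : ∀ (r : ℝ) (x y : Fin N), ιf r = s x y → ι r = c x y := fun r x y hr => by
    rw [← hcv]; exact href _ _ (hr.trans (hsv x y).symm)
  have hmono : ∀ x y x' y' : Fin N, s x y ≤ s x' y' → c x y ≤ c x' y' := by
    intro x y x' y' hle'
    rcases lt_or_eq_of_le hle' with hlt | heq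
    · rw [← hcv, ← hcv]
      refine hmesh.1 (le_of_lt ?_)
      by_contra hge
      exact absurd (hιf (not_lt.1 hge)) (by rw [hsv, hsv]; exact not_le.2 hlt)
    · rw [← hcv x y]; exact le_of_eq (hco _ _ _ ((hsv x y).trans heq))
  have hle' : ∀ b z i, c (Z z) (Hb b i) ≤ a := fun b z i => by
    cases b <;> simp [hHb, (hle z i).1, (hle z i).2]
  have hz₀' : ∀ b i, c (Z z₀) (Hb b i) = a := fun b i => by
    cases b <;> simp [hHb, (hz₀ i).1, (hz₀ i).2]
  have hlowZ : ∀ b z i r, ιf r = s (Z z) (Hb b i) → r ≤ ρ - θ := fun b z i =>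
    hlow _ _ (Or.inl ⟨z, i, rfl, by cases b <;> simp [hHb]⟩)
  have hlowI : ∀ b i i', i ≠ i' → ∀ r, ιf r = s (Hb b i) (Hb b i') → r ≤ ρ - θ :=
    fun b i i' hne => hlow _ _ (Or.inr ⟨i, i', hne, by cases b <;> simp [hHb]⟩)
  -- the doubled shape of two copies
  set τ : Pat (j + j) :=
    Fin.addCases (fun i => Fin.addCases (fun i' => c (H i) (H i')) fun _ => a)
      fun i => Fin.addCases (fun _ => a) fun i' => c (H i) (H i') with hτ
  have τll : ∀ i i', τ (Fin.castAdd j i) (Fin.castAdd j i') = c (H i) (H i') := fun i i' => by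
    simp only [hτ, Fin.addCases_left]
  have τlr : ∀ i i', τ (Fin.castAdd j i) (Fin.natAdd j i') = a := fun i i' => by
    simp only [hτ, Fin.addCases_left, Fin.addCases_right]
  have τrl : ∀ i i', τ (Fin.natAdd j i) (Fin.castAdd j i') = a := fun i i' => by
    simp only [hτ, Fin.addCases_left, Fin.addCases_right]
  have τrr : ∀ i i', τ (Fin.natAdd j i) (Fin.natAdd j i') = c (H i) (H i') := fun i i' => by
    simp only [hτ, Fin.addCases_right]
  have hdouble : IsDouble j τ :=
    ⟨a, fun i i' => ⟨τlr i i', τrl i' i⟩,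
      fun i i' hne => ⟨by rw [τrr, τll], by rw [τll]; exact (hin i i' hne).2⟩⟩
  obtain ⟨κ, hκ1, hκb⟩ := hD j hj hjm ι hmesh τ hdouble
  set lst : Bool × Fin L → List ℕ := fun p => repList (κfun p) with hlst
  have hpair : ∀ p q, p ≠ q →
      ∫ ω in S, |rset (lst p ++ lst q) ω - κ| ∂ν ≤ η ^ 4 * ν.real S := by
    intro p q hpq
    have hab : e.symm p ≠ e.symm q := e.symm.injective.ne hpq
    set u := joinMap (κfun p) (κfun q) with hu'
    have huinj : Function.Injective u := joinMap_injective
      (fun x y he => (hC.inj_c _ _ x y he).2) (fun x y he => (hC.inj_c _ _ x y he).2)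
      fun i z he => hab ((hC.inj_c _ _ i z he).1).symm
    have hsu : PosPat ν ιf (patMap u s') := hC.pos.restrict h hιf (by omega) huinj
    have hcross : ∀ i i', ∀ r, ιf r = s' (κfun p i) (κfun q i') → ι r = a ∧ r ≤ ρ - θ := by
      intro i i' r hr
      obtain ⟨z, hz⟩ := Finite.exists_max fun z' : Fin M =>
        t (e (e.symm q)).1 (Fin.castAdd j z') (Fin.natAdd M i')
      have hv := hC.cross h hιf hab i i' z hz
      simp only [ht, patMap, joinMap_castAdd, joinMap_natAdd, Equiv.apply_symm_apply] at hv hz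
      have hcz : c (Z z) (Hb q.1 i') = a :=
        le_antisymm (hle' _ _ _) ((hz₀' q.1 i').ge.trans (hmono _ _ _ _ (hz z₀)))
      have hcp : c (Z z) (Hb p.1 i) = a := by
        refine le_antisymm (hle' _ _ _) ?_
        have h1 : min (c (Z z) (Hb q.1 i')) (c (Hb q.1 i') (Z z₀)) ≤ c (Z z) (Z z₀) :=
          hcultra _ _ _
        rw [hcz, hcsymm _ (Z z₀), hz₀', min_self] at h1
        have h2 : min (c (Z z) (Z z₀)) (c (Z z₀) (Hb p.1 i)) ≤ c (Z z) (Hb p.1 i) := hcultra _ _ _
        rw [hz₀'] at h2
        exact (le_min h1 le_rfl).trans h2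
      rw [show s' (κfun p i) (κfun q i') = _ from hv] at hr
      rcases min_choice (s (Z z) (Hb q.1 i')) (s (Z z) (Hb p.1 i)) with hm | hm <;> rw [hm] at hr
      · exact ⟨(hco r _ _ hr).trans hcz, hlowZ _ _ _ r hr⟩
      · exact ⟨(hco r _ _ hr).trans hcp, hlowZ _ _ _ r hr⟩
    have hsymm' := hC.pos.isUltra h hιf
    have hsub : patSet ιf (patMap u s') ⊆ shapeSet ι (ρ - θ) τ := by
      intro T hT x y hxy
      have hT' := hT x y
      induction x using Fin.addCases with
      | left i =>
        induction y using Fin.addCases with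
        | left i' =>
          have hne : i ≠ i' := fun e => hxy (by rw [e])
          simp only [patMap, hu', joinMap_castAdd, hκ, hcc, Equiv.apply_symm_apply] at hT'
          refine ⟨?_, hlowI _ _ _ hne _ hT'⟩
          rw [hco _ _ _ hT', τll]
          cases p.1 <;> simp [hHb, (hin i i' hne).1]
        | right i' =>
          simp only [patMap, hu', joinMap_castAdd, joinMap_natAdd] at hT'
          rw [τlr]
          exact hcross i i' _ hT'
      | right i =>
        induction y using Fin.addCases with
        | left i' =>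
          simp only [patMap, hu', joinMap_castAdd, joinMap_natAdd] at hT'
          rw [hsymm'.symm] at hT'
          rw [τrl]
          exact hcross i' i _ hT'
        | right i' =>
          have hne : i ≠ i' := fun e => hxy (by rw [e])
          simp only [patMap, hu', joinMap_natAdd, hκ, hcc, Equiv.apply_symm_apply] at hT'
          refine ⟨?_, hlowI _ _ _ hne _ hT'⟩
          rw [hco _ _ _ hT', τrr]
          cases q.1 <;> simp [hHb, (hin i i' hne).1]
    have hb := hκb _ (measurableSet_patSet hιf _) hsub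
    rw [tmat_preimage_patSet] at hb
    have hup := bound_up h hιf (by omega) u huinj s'
      (fun z => |rsetClip (List.ofFn id) z - κ|) ((measurable_rsetClip _).sub_const _).norm
      (C := 2) (by norm_num) (fun z => by
        rw [abs_abs]; exact (abs_sub _ _).trans (by linarith [abs_rsetClip_le (List.ofFn id) z]))
      (η := η ^ 4) (by
        simpa [repData_eq_repMap, rsetClip_repMap, List.map_ofFn] using hb)
    have key : ∀ ω, rsetClip (List.ofFn id) (repMap (fun x => (u x : ℕ)) ω) =
        rset (lst p ++ lst q) ω := fun ω => by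
      rw [rsetClip_repMap, List.map_ofFn, hlst, ← repList_joinMap]; rfl
    simp only [key] at hup
    exact hup
  -- exchangeability
  have hsym : ∀ g i i', ∃ (π : Equiv.Perm ℕ) (σ : Equiv.Perm (Bool × Fin L)),
      σ (g, i) = (g, i') ∧ (∀ ω, permRep π ω ∈ S ↔ ω ∈ S) ∧
      (repList zi).map π = repList zi ∧ ∀ p, (lst p).map π = lst (σ p) := by
    intro g i i'
    let σ : Equiv.Perm (Bool × Fin L) := Equiv.swap (g, i) (g, i')
    have hσ : ∀ p, (σ p).1 = p.1 := fun p => by
      rcases eq_or_ne p (g, i) with rfl | h1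
      · simp [σ]
      rcases eq_or_ne p (g, i') with rfl | h2
      · simp [σ]
      simp [σ, Equiv.swap_apply_of_ne_of_ne h1 h2]
    obtain ⟨f, hfz, hfc, hfs⟩ := hC.exists_swap h hιf hM ((e.trans σ).trans e.symm)
      fun b => by simp [hσ]
    obtain ⟨π, hπ⟩ := exists_perm_extend (fun x => f x) f.injective
    refine ⟨π, σ, Equiv.swap_apply_left _ _, fun ω => ?_, ?_, fun p => ?_⟩
    · simp only [hS, cell, Set.mem_setOf_eq, rbar_perm, idRep, hπ]
      refine ⟨fun hω x y => ?_, fun hω x y => by rw [hω, hfs]⟩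
      have := hω (f.symm x) (f.symm y)
      rw [← hfs] at this
      simpa using this
    · simp [repList, List.map_ofFn, Function.comp_def, hπ, hfz]
    · simp [hlst, hκ, repList, List.map_ofFn, Function.comp_def, hπ, hfc]
  set i₀ : Fin L := ⟨0, hL⟩
  have hB := bessel h hL S (measurableSet_cell hιf _ _) (repList zi) lst κ η hκ1 hη hη1 hLη
    hsym hpair i₀ i₀
  -- identify the sub-pattern
  set u := joinMap3 zi (κfun (true, i₀)) (κfun (false, i₀)) with hu3
  have hab : e.symm (true, i₀) ≠ e.symm (false, i₀) := e.symm.injective.ne (by simp)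
  have huinj : Function.Injective u := by
    refine joinMap_injective (joinMap_injective hC.inj_z (fun x y he => (hC.inj_c _ _ x y he).2)
      fun i z => hC.disj _ i z) (fun x y he => (hC.inj_c _ _ x y he).2) fun i z => ?_
    induction z using Fin.addCases with
    | left z => rw [joinMap_castAdd]; exact hC.disj _ _ _
    | right z => rw [joinMap_natAdd]; exact fun he => hab ((hC.inj_c _ _ i z he).1).symm
  have hsymm' := hC.pos.isUltra h hιf
  have hzz : ∀ z z', s' (zi z) (zi z') = s (Z z) (Z z') := fun z z' =>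
    congrFun (congrFun hC.base z) z'
  have hcross2 : ∀ i i', s' (κfun (true, i₀) i) (κfun (false, i₀) i') = s (H i) (H' i') := by
    intro i i'
    obtain ⟨z, hz⟩ := Finite.exists_max fun z' : Fin M =>
      t (e (e.symm (false, i₀))).1 (Fin.castAdd j z') (Fin.natAdd M i')
    rw [show s' (κfun (true, i₀) i) (κfun (false, i₀) i') = _ from hC.cross h hιf hab i i' z hz]
    simp only [ht, patMap, joinMap_castAdd, joinMap_natAdd, Equiv.apply_symm_apply, hHb] at hz ⊢
    obtain ⟨z', hz'⟩ := hsep i i'
    exact (sep_eq hu (hz'.trans (hz z'))).symm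
  have hpat : patMap u s' = patMap (joinMap3 Z H H') s := by
    funext x y
    induction x using Fin.addCases with
    | left x =>
      induction x using Fin.addCases with
      | left x =>
        induction y using Fin.addCases with
        | left y =>
          induction y using Fin.addCases with
          | left y => simp [patMap, hu3, joinMap3, joinMap, hzz]
          | right y => simp [patMap, hu3, joinMap3, joinMap, hzc, hHb, hκ]
        | right y => simp [patMap, hu3, joinMap3, joinMap, hzc, hHb, hκ]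
      | right x =>
        induction y using Fin.addCases with
        | left y =>
          induction y using Fin.addCases with
          | left y =>
            simp only [patMap, hu3, joinMap3, joinMap, Fin.addCases_left, Fin.addCases_right]
            rw [hsymm'.symm, hu.symm (H x)]
            simp [hzc, hHb, hκ]
          | right y => simp [patMap, hu3, joinMap3, joinMap, hcc, hHb, hκ]
        | right y => simp [patMap, hu3, joinMap3, joinMap, hcross2]
    | right x =>
      induction y using Fin.addCases with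
      | left y =>
        induction y using Fin.addCases with
        | left y =>
          simp only [patMap, hu3, joinMap3, joinMap, Fin.addCases_left, Fin.addCases_right]
          rw [hsymm'.symm, hu.symm (H' x)]
          simp [hzc, hHb, hκ]
        | right y =>
          simp [patMap, hu3, joinMap3, joinMap, hsymm'.symm (κfun (false, i₀) x),
            hcross2, hu.symm (H' x)]
      | right y => simp [patMap, hu3, joinMap3, joinMap, hcc, hHb, hκ]
  set L1 : List (Fin (M + j + j)) := List.ofFn fun x : Fin (M + j) => Fin.castAdd j x with hL1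
  set L2 : List (Fin (M + j + j)) :=
    (List.ofFn fun z : Fin M => Fin.castAdd j (Fin.castAdd j z)) ++
      List.ofFn fun i : Fin j => Fin.natAdd (M + j) i with hL2
  set F : RepData (M + j + j) → ℝ := fun z => |rsetClip L1 z - rsetClip L2 z| with hF
  have hFm : Measurable F := ((measurable_rsetClip _).sub (measurable_rsetClip _)).norm
  have hFb : ∀ z, |F z| ≤ 2 := fun z => by
    rw [hF]; simp only [abs_abs]
    exact (abs_sub _ _).trans (by linarith [abs_rsetClip_le L1 z, abs_rsetClip_le L2 z])
  have hFu : ∀ {N : ℕ} (Z : Fin M → Fin N) (H H' : Fin j → Fin N) (ω : Arr),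
      F (repMap (fun x => (joinMap3 Z H H' x : ℕ)) ω) =
        |rset (repList Z ++ repList H) ω - rset (repList Z ++ repList H') ω| := by
    intro N Z H H' ω
    simp only [hF, rsetClip_repMap, hL1, hL2, List.map_ofFn, List.map_append, ← repList_joinMap]
    congr 3
    · simp [repList, joinMap3, Function.comp_def]
    · rw [repList_joinMap]
      simp [repList, joinMap3, joinMap, Function.comp_def]
  have hdown := bound_down h hιf (by omega) u huinj s' hC.pos F hFm (C := 2) (by norm_num) hFb
    (η := 18 * η) (by simpa [hFu, hu3, hlst, hS] using hB)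
  rw [hpat] at hdown
  have hup := bound_up h hιf (by omega) (joinMap3 Z H H') hinj s F hFm (C := 2) (by norm_num) hFb
    hdown
  simpa [hFu] using hup

end Vale.Agent.P168.Structure
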