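import Vale.Agent.P168.Structure.StepTools

/-! Averages of multi-overlaps over patterns with the same pins, and their conditional means. -/

open MeasureTheory ProbabilityTheory Filter
open scoped BigOperators NNReal ENNReal

noncomputable section

namespace Vale.Agent.P168.Structure

open Vale.Agent.P168

variable {ν : Measure Arr} {ρ : ℝ}

/-- Two patterns with the same pins: equal configurations give almost equal averages. -/
theorem compare (h : IsTreeArray ν ρ) {ι ιf : ℝ → ℤ} {δ θ η : ℝ} {m d r e₁ e₂ : ℕ} (hη : 0 < η)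
    (hη1 : η ≤ 1) (hD : DoublesBd ν ρ δ θ (η ^ 4) m) (hmesh : IsMesh ρ δ ι) (hιf : Monotone ιf)
    (τ : Fin r → Pat (2 + d)) (hcl : ∀ i, ClassesLE (τ i) m)
    (s₁ : Pat (2 + e₁)) (hs₁ : PosPat ν ιf s₁) (s₂ : Pat (2 + e₂)) (hs₂ : PosPat ν ιf s₂)
    (hpin : pat01 s₁ = pat01 s₂)
    (u : Fin r → Fin (2 + d) → Fin (2 + e₁)) (v : Fin r → Fin (2 + d) → Fin (2 + e₂))
    (hu : ∀ i, Function.Injective (u i)) (hv : ∀ i, Function.Injective (v i))
    (hup : ∀ i p, u i (Fin.castAdd d p) = Fin.castAdd e₁ p)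
    (hvp : ∀ i p, v i (Fin.castAdd d p) = Fin.castAdd e₂ p)
    (hus : ∀ i, patSet ιf s₁ ⊆ subShape ι (ρ - θ) (u i) (τ i))
    (hvs : ∀ i, patSet ιf s₂ ⊆ subShape ι (ρ - θ) (v i) (τ i))
    (G : (Fin r → ℝ) → ℝ) (hG : Measurable G) (hGb : ∀ x, |G x| ≤ 1) {L : ℝ} (hL : 0 ≤ L)
    (hGL : ∀ x y : Fin r → ℝ, (∀ i, |x i| ≤ 1) → (∀ i, |y i| ≤ 1) →
      |G x - G y| ≤ L * ∑ i, |x i - y i|) :
    ν.real (cell ιf (idRep (2 + e₂)) s₂) *
        ∫ ω in cell ιf (idRep (2 + e₁)) s₁, G (fun i => rset (repList (u i)) ω) ∂ν ≤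
      ν.real (cell ιf (idRep (2 + e₁)) s₁) *
          ∫ ω in cell ιf (idRep (2 + e₂)) s₂, G (fun i => rset (repList (v i)) ω) ∂ν +
        L * r * (36 * η * d) * (ν.real (cell ιf (idRep (2 + e₁)) s₁) *
          ν.real (cell ιf (idRep (2 + e₂)) s₂)) := by
  classical
  haveI := h.prob
  set pins : Fin 2 → Fin (2 + e₁) := Fin.castAdd e₁ with hpins
  have hu₁ := hs₁.isUltra h hιf
  have hu₂ := hs₂.isUltra h hιf
  have hagree : patMap (Fin.castAdd e₂) s₂ = patMap pins s₁ := by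
    funext a b
    have hp' : s₂ (Fin.castAdd e₂ 0) (Fin.castAdd e₂ 1) =
        s₁ (Fin.castAdd e₁ 0) (Fin.castAdd e₁ 1) := hpin.symm
    simp only [patMap, hpins]
    fin_cases a <;> fin_cases b
    · exact (hu₂.diag _).trans (hu₁.diag _).symm
    · exact hp'
    · exact (hu₂.symm _ _).trans (hp'.trans (hu₁.symm _ _).symm).symm.symm
    · exact (hu₂.diag _).trans (hu₁.diag _).symm
  obtain ⟨s, hs, hold, hnew, -⟩ :=
    amalgam h hιf (by norm_num : 1 ≤ 2) pins s₁ hs₁ e₂ s₂ hs₂ hagree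
  set old : Fin (2 + e₁) → Fin (2 + e₁ + e₂) := Fin.castAdd e₂ with hold'
  set star := amalgMap pins e₂ with hstar
  have holdi : Function.Injective old := Fin.castAdd_injective _ _
  have hstari : Function.Injective star := by
    intro x y hxy
    induction x using Fin.addCases with
    | left x =>
      induction y using Fin.addCases with
      | left y =>
        simp only [hstar, hpins, amalgMap, Fin.addCases_left] at hxy
        rw [Fin.castAdd_injective _ _ (Fin.castAdd_injective _ _ hxy)]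
      | right y =>
        simp only [hstar, amalgMap, Fin.addCases_left, Fin.addCases_right] at hxy
        have := congrArg Fin.val hxy
        simp only [Fin.val_castAdd, Fin.val_natAdd] at this
        omega
    | right x =>
      induction y using Fin.addCases with
      | left y =>
        simp only [hstar, amalgMap, Fin.addCases_left, Fin.addCases_right] at hxy
        have := congrArg Fin.val hxy
        simp only [Fin.val_castAdd, Fin.val_natAdd] at this
        omega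
      | right y =>
        simp only [hstar, amalgMap, Fin.addCases_right] at hxy
        rw [Fin.natAdd_injective _ _ hxy]
  set P := ν.real (cell ιf (idRep (2 + e₁ + e₂)) s) with hP
  set X : Fin r → Arr → ℝ := fun i ω => rset (repList fun a => old (u i a)) ω with hX
  set Y : Fin r → Arr → ℝ := fun i ω => rset (repList fun a => star (v i a)) ω with hY
  have hsw : ∀ i, ∫ ω in cell ιf (idRep (2 + e₁ + e₂)) s, |X i ω - Y i ω| ∂ν ≤
      36 * η * d * P := by
    intro i
    have := switch h hη hη1 hD hmesh (τ i) (hcl i) (fun a => old (u i a)) (fun a => star (v i a))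
      (holdi.comp (hu i)) (hstari.comp (hv i))
      (fun p => by simp [hstar, hold', hpins, amalgMap, hup, hvp])
      (patSet ιf s) (measurableSet_patSet hιf s)
      (fun T hT => ⟨hus i (fun a b => (hT (old a) (old b)).trans (congrFun (congrFun hold a) b)),
        hvs i (fun a b => (hT (star a) (star b)).trans (congrFun (congrFun hnew a) b))⟩)
    rwa [tmat_preimage_patSet] at this
  have hXb : ∀ i ω, |X i ω| ≤ 1 := fun i ω => abs_rset_le _ _
  have hYb : ∀ i ω, |Y i ω| ≤ 1 := fun i ω => abs_rset_le _ _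
  have hi : ∀ f : Arr → ℝ, Measurable f → ∀ B, (∀ ω, |f ω| ≤ B) →
      Integrable f (ν.restrict (cell ιf (idRep (2 + e₁ + e₂)) s)) := fun f hf B hfB =>
    Integrable.of_bound hf.aestronglyMeasurable B (Eventually.of_forall hfB)
  have hXm : ∀ i, Measurable (X i) := fun i => measurable_rset _
  have hYm : ∀ i, Measurable (Y i) := fun i => measurable_rset _
  have hdiffi : ∀ i, Integrable (fun ω => |X i ω - Y i ω|)
      (ν.restrict (cell ιf (idRep (2 + e₁ + e₂)) s)) := fun i =>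
    hi _ ((hXm i).sub (hYm i)).norm 2 fun ω => by
      rw [abs_abs]; exact (abs_sub _ _).trans (by linarith [hXb i ω, hYb i ω])
  have hmain : ∫ ω in cell ιf (idRep (2 + e₁ + e₂)) s, G (fun i => X i ω) ∂ν ≤
      ∫ ω in cell ιf (idRep (2 + e₁ + e₂)) s, G (fun i => Y i ω) ∂ν +
        L * r * (36 * η * d) * P := by
    have hGX := hi (fun ω => G fun i => X i ω) (hG.comp (measurable_pi_lambda _ hXm)) 1
      fun ω => hGb _
    have hGY := hi (fun ω => G fun i => Y i ω) (hG.comp (measurable_pi_lambda _ hYm)) 1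
      fun ω => hGb _
    have hsum : Integrable (fun ω => L * ∑ i, |X i ω - Y i ω|)
        (ν.restrict (cell ιf (idRep (2 + e₁ + e₂)) s)) :=
      (integrable_finsetSum _ fun i _ => hdiffi i).const_mul L
    calc ∫ ω in cell ιf (idRep (2 + e₁ + e₂)) s, G (fun i => X i ω) ∂ν
        ≤ ∫ ω in cell ιf (idRep (2 + e₁ + e₂)) s,
            (G (fun i => Y i ω) + L * ∑ i, |X i ω - Y i ω|) ∂ν := by
          refine integral_mono hGX (hGY.add hsum) fun ω => ?_
          have := le_abs_self (G (fun i => X i ω) - G (fun i => Y i ω))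
          have := hGL (fun i => X i ω) (fun i => Y i ω) (fun i => hXb i ω) fun i => hYb i ω
          linarith
      _ = ∫ ω in cell ιf (idRep (2 + e₁ + e₂)) s, G (fun i => Y i ω) ∂ν +
            L * ∑ i, ∫ ω in cell ιf (idRep (2 + e₁ + e₂)) s, |X i ω - Y i ω| ∂ν := by
          rw [integral_add hGY hsum, integral_const_mul,
            integral_finsetSum _ fun i _ => hdiffi i]
      _ ≤ _ := by
          have := Finset.sum_le_sum fun i (_ : i ∈ (Finset.univ : Finset (Fin r))) => hsw i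
          rw [Finset.sum_const, Finset.card_univ, Fintype.card_fin, nsmul_eq_mul] at this
          linarith [mul_le_mul_of_nonneg_left this hL]
  obtain ⟨K₁, -, hK₁, hP₁⟩ := cell_scale h hιf (by omega : 1 ≤ 2 + e₁) old holdi s
  obtain ⟨K₂, -, hK₂, hP₂⟩ := cell_scale h hιf (by omega : 1 ≤ 2 + e₂) star hstari s
  have hf₁ : Measurable fun z : RepData (2 + e₁) => G fun i => rsetClip (List.ofFn (u i)) z :=
    hG.comp (measurable_pi_lambda _ fun i => measurable_rsetClip _)
  have hf₂ : Measurable fun z : RepData (2 + e₂) => G fun i => rsetClip (List.ofFn (v i)) z :=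
    hG.comp (measurable_pi_lambda _ fun i => measurable_rsetClip _)
  have e1 := hK₁ _ hf₁ fun z => hGb _
  have e2 := hK₂ _ hf₂ fun z => hGb _
  simp only [rsetClip_repMap', rsetClip_repData] at e1 e2
  rw [show patMap old s = s₁ from hold] at e1 hP₁
  rw [show patMap star s = s₂ from hnew] at e2 hP₂
  simp only [hX, hY, e1, e2] at hmain
  have hPpos : 0 < P := hs
  rw [← hP] at hP₁ hP₂
  refine le_of_mul_le_mul_left ?_ hPpos
  set I₁ := ∫ ω in cell ιf (idRep (2 + e₁)) s₁, G (fun i => rset (repList (u i)) ω) ∂ν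
  set I₂ := ∫ ω in cell ιf (idRep (2 + e₂)) s₂, G (fun i => rset (repList (v i)) ω) ∂ν
  set P₁ := ν.real (cell ιf (idRep (2 + e₁)) s₁)
  set P₂ := ν.real (cell ιf (idRep (2 + e₂)) s₂)
  have hP12 : 0 ≤ P₁ * P₂ := by positivity
  have := mul_le_mul_of_nonneg_left hmain hP12
  calc P * (P₂ * I₁) = P₁ * P₂ * (K₁ * I₁) := by rw [hP₁]; ring
    _ ≤ _ := this
    _ = P₁ * P₂ * (K₂ * I₂) + P * (L * r * (36 * η * d) * (P₁ * P₂)) := by ring
    _ = _ := by rw [hP₂]; ring

/-- Inequalities on the cells of a partition give inequalities on their unions. -/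
theorem le_on_union (h : IsTreeArray ν ρ) {ι : ℝ → ℤ} (hι : Monotone ι) {n : ℕ} (S : Set (Mat n))
    (hdet : ∀ T T', (∀ a b, ι (T a b) = ι (T' a b)) → T ∈ S → T' ∈ S) (f g : Arr → ℝ)
    (hf : Measurable f) (hg : Measurable g) {B : ℝ} (hfB : ∀ ω, |f ω| ≤ B) (hgB : ∀ ω, |g ω| ≤ B)
    (hcell : ∀ s : Pat n, patSet ι s ⊆ S → PosPat ν ι s →
      ∫ ω in cell ι (idRep n) s, f ω ∂ν ≤ ∫ ω in cell ι (idRep n) s, g ω ∂ν) :
    ∫ ω in tmat (idRep n) ⁻¹' S, f ω ∂ν ≤ ∫ ω in tmat (idRep n) ⁻¹' S, g ω ∂ν := by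
  haveI := h.prob
  set I := {s : Pat n // patSet ι s ⊆ S}
  have hu : tmat (idRep n) ⁻¹' S = ⋃ s : I, cell ι (idRep n) s.1 := by
    conv_lhs => rw [eq_iUnion_patSet S hdet, Set.preimage_iUnion]
    rfl
  have hd : Pairwise (Function.onFun Disjoint fun s : I => cell ι (idRep n) s.1) := by
    intro s s' hne
    refine Set.disjoint_left.2 fun ω h1 h2 => hne (Subtype.ext ?_)
    funext x y
    rw [← h1 x y, h2 x y]
  have hsum : ∀ u : Arr → ℝ, Measurable u → (∀ ω, |u ω| ≤ B) →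
      HasSum (fun s : I => ∫ ω in cell ι (idRep n) s.1, u ω ∂ν)
        (∫ ω in tmat (idRep n) ⁻¹' S, u ω ∂ν) := fun u hu' huB => by
    rw [hu]
    exact hasSum_integral_iUnion (fun s : I => measurableSet_cell hι _ _) hd
      (integrable_of_bdd hu' huB).integrableOn
  refine hasSum_le (fun s => ?_) (hsum f hf hfB) (hsum g hg hgB)
  by_cases hs : PosPat ν ι s.1
  · exact hcell _ s.2 hs
  · have h0 : ν.real (cell ι (idRep n) s.1) = 0 :=
      le_antisymm (not_lt.1 hs) measureReal_nonneg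
    rw [setIntegral_measure_zero _ ((measureReal_eq_zero_iff).1 h0),
      setIntegral_measure_zero _ ((measureReal_eq_zero_iff).1 h0)]

/-- A mean over a reference shape bounds the average on every cell of a compatible shape. -/
theorem mean_cell (h : IsTreeArray ν ρ) {ιb ιf : ℝ → ℤ} (hιf : Monotone ιf)
    (href : ∀ x y, ιf x = ιf y → ιb x = ιb y) {A : Set ℝ} {e₁ e₀ : ℕ}
    {S : Set (Mat (2 + e₁))} (hSdet : ∀ T T', (∀ a b, ιb (T a b) = ιb (T' a b)) → T ∈ S → T' ∈ S)
    (hSA : ∀ T ∈ S, qval T ∈ A) (X : Arr → ℝ)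
    {I : Set (Mat (2 + e₀))} (hIdet : ∀ T T', (∀ a b, ιb (T a b) = ιb (T' a b)) → T ∈ I → T' ∈ I)
    {b₀ : ℝ} (hb₀ : 0 < b₀)
    (hb : ∀ J, MeasurableSet J → J ⊆ A →
      ν.real (tmat (idRep (2 + e₀)) ⁻¹' I ∩ rbar 0 1 ⁻¹' J) = b₀ * (overlapLaw ν).real J)
    (X₀ : Arr → ℝ) (hX₀ : Measurable X₀) (hX₀b : ∀ ω, |X₀ ω| ≤ 1)
    (m : ℝ → ℝ) (hm : Measurable m) (hmb : ∀ q, |m q| ≤ 1)
    (hmean : ∀ J, MeasurableSet J → J ⊆ A →
      ∫ ω in tmat (idRep (2 + e₀)) ⁻¹' I ∩ rbar 0 1 ⁻¹' J, X₀ ω ∂ν =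
        b₀ * ∫ q in J, m q ∂overlapLaw ν)
    {ε : ℝ} (s : Pat (2 + e₁)) (hsS : patSet ιf s ⊆ S) (hs : PosPat ν ιf s)
    (hcmp : ∀ s₀ : Pat (2 + e₀), patSet ιf s₀ ⊆ I → PosPat ν ιf s₀ → pat01 s = pat01 s₀ →
      ν.real (cell ιf (idRep (2 + e₀)) s₀) * ∫ ω in cell ιf (idRep (2 + e₁)) s, X ω ∂ν ≤
        ν.real (cell ιf (idRep (2 + e₁)) s) * ∫ ω in cell ιf (idRep (2 + e₀)) s₀, X₀ ω ∂ν +
          ε * (ν.real (cell ιf (idRep (2 + e₁)) s) *
            ν.real (cell ιf (idRep (2 + e₀)) s₀))) :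
    ∫ ω in cell ιf (idRep (2 + e₁)) s, X ω ∂ν ≤
      ∫ ω in cell ιf (idRep (2 + e₁)) s, (m (rbar 0 1 ω) + ε) ∂ν := by
  haveI := h.prob
  set P := ν.real (cell ιf (idRep (2 + e₁)) s) with hPdef
  have hP : 0 < P := hs
  set j := pat01 s with hj
  set J := ιf ⁻¹' {j} with hJdef
  have hJ : MeasurableSet J := hιf.measurable (measurableSet_singleton _)
  have hu := hs.isUltra h hιf
  obtain ⟨ω₀, hω₀, -⟩ := exists_good_mem h hs
  have hJA : J ⊆ A := by
    intro x hx
    let T : Mat (2 + e₁) := fun a b =>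
      if (a = Fin.castAdd e₁ 0 ∧ b = Fin.castAdd e₁ 1) ∨
        (a = Fin.castAdd e₁ 1 ∧ b = Fin.castAdd e₁ 0) then x else tmat (idRep (2 + e₁)) ω₀ a b
    have hT : T ∈ patSet ιf s := by
      intro a b
      simp only [T]
      split_ifs with hab
      · rcases hab with ⟨rfl, rfl⟩ | ⟨rfl, rfl⟩
        · exact hx
        · rw [hu.symm]; exact hx
      · exact hω₀ a b
    have := hSA T (hsS hT)
    simpa [qval, T] using this
  have hmass : 0 < mass ν ιf j := by
    refine hs.mass_pos h hιf ?_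
    exact fun hh => absurd (Fin.castAdd_injective _ _ hh) (by decide)
  set c := ((∫ ω in cell ιf (idRep (2 + e₁)) s, X ω ∂ν) - ε * P) / P with hc
  have hdet' : ∀ T T', (∀ a b, ιf (T a b) = ιf (T' a b)) →
      T ∈ I ∩ qval ⁻¹' J → T' ∈ I ∩ qval ⁻¹' J := fun T T' hTT hT =>
    ⟨hIdet T T' (fun a b => href _ _ (hTT a b)) hT.1, ((hTT _ _).symm.trans hT.2 : _)⟩
  have hle := le_on_union h hιf (I ∩ qval ⁻¹' J) hdet' (fun _ => c) X₀ measurable_const hX₀
    (B := max |c| 1) (fun _ => le_max_left _ _) (fun ω => (hX₀b ω).trans (le_max_right _ _))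
    fun s₀ hs₀ hp₀ => by
      obtain ⟨ω₁, hω₁, -⟩ := exists_good_mem h hp₀
      have hpin : pat01 s = pat01 s₀ :=
        ((hs₀ (hω₁ : tmat (idRep (2 + e₀)) ω₁ ∈ patSet ιf s₀)).2.symm.trans (hω₁ _ _) : _)
      have := hcmp s₀ (fun T hT => (hs₀ hT).1) hp₀ hpin
      rw [setIntegral_const, smul_eq_mul]
      refine le_of_mul_le_mul_left ?_ hP
      have hcP : P * c = (∫ ω in cell ιf (idRep (2 + e₁)) s, X ω ∂ν) - ε * P := by
        rw [hc, mul_div_cancel₀ _ hP.ne']
      calc P * (ν.real (cell ιf (idRep (2 + e₀)) s₀) * c) =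
          ν.real (cell ιf (idRep (2 + e₀)) s₀) * (P * c) := by ring
        _ ≤ _ := by rw [hcP]; linarith
  have hpre : tmat (idRep (2 + e₀)) ⁻¹' (I ∩ qval ⁻¹' J) =
      tmat (idRep (2 + e₀)) ⁻¹' I ∩ rbar 0 1 ⁻¹' J := rfl
  rw [hpre, hmean J hJ hJA, setIntegral_const, smul_eq_mul, hb J hJ hJA] at hle
  have hμJ : (overlapLaw ν).real J = mass ν ιf j := rfl
  rw [hμJ] at hle
  have hle' : c * mass ν ιf j ≤ ∫ q in J, m q ∂overlapLaw ν :=
    le_of_mul_le_mul_left (by linarith) hb₀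
  have hq := q_law h hιf s hs m hm hmb
  rw [← hj, ← hJdef, ← hPdef] at hq
  have hi : IntegrableOn (fun ω => m (rbar 0 1 ω)) (cell ιf (idRep (2 + e₁)) s) ν :=
    (integrable_of_bdd (hm.comp (measurable_rbar 0 1)) fun ω => hmb _).integrableOn
  rw [integral_add hi (integrableOn_const (measure_ne_top _ _)), setIntegral_const, smul_eq_mul,
    ← hPdef]
  refine le_of_mul_le_mul_left ?_ hmass
  have hcP : P * c = (∫ ω in cell ιf (idRep (2 + e₁)) s, X ω ∂ν) - ε * P := by
    rw [hc, mul_div_cancel₀ _ hP.ne']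
  have := mul_le_mul_of_nonneg_left hle' hP.le
  rw [← hq, ← mul_assoc, hcP] at this
  linarith

end Vale.Agent.P168.Structure
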