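import Vale.Agent.P168.Structure.Amalgam

/-! A pattern with many separated copies of two groups of replicas over a fixed set. -/

open MeasureTheory ProbabilityTheory Filter
open scoped BigOperators NNReal ENNReal

noncomputable section

namespace Vale.Agent.P168.Structure

open Vale.Agent.P168

variable {ν : Measure Arr} {ρ : ℝ} {ι : ℝ → ℤ}

/-- Reading `Z` and `H` as one index map. -/
def joinMap {M j N : ℕ} (Z : Fin M → Fin N) (H : Fin j → Fin N) : Fin (M + j) → Fin N :=
  Fin.addCases Z H

theorem joinMap_castAdd {M j N : ℕ} (Z : Fin M → Fin N) (H : Fin j → Fin N) (z : Fin M) :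
    joinMap Z H (Fin.castAdd j z) = Z z := Fin.addCases_left z

theorem joinMap_natAdd {M j N : ℕ} (Z : Fin M → Fin N) (H : Fin j → Fin N) (i : Fin j) :
    joinMap Z H (Fin.natAdd M i) = H i := Fin.addCases_right i

/-- A separated pair: the value is determined by the two patterns over `Z`. -/
theorem sep_eq {top : ℤ} {N : ℕ} {s : Pat N} (hs : IsUltraPat top s) {x y z : Fin N}
    (hle : s x y ≤ s z y) : s x y = min (s z y) (s z x) := by
  have h1 : min (s z x) (s z y) ≤ s x y := by
    rw [hs.symm z x]; exact hs.ultra x z y
  have h2 : min (s z y) (s y x) ≤ s z x := hs.ultra z y x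
  rw [hs.symm y x, min_eq_right hle] at h2
  exact le_antisymm (le_min hle h2) (by rw [min_comm]; exact h1)

/-- Separation is symmetric. -/
theorem sep_symm {top : ℤ} {N : ℕ} {s : Pat N} (hs : IsUltraPat top s) {x y z : Fin N}
    (hle : s x y ≤ s z y) : s y x ≤ s z x := by
  rw [hs.symm y x, sep_eq hs hle]; exact min_le_right _ _

/-- Replicas `Z` and `n` separated copies, copy `a` of type `g a`. -/
structure CopyPat (ν : Measure Arr) (ι : ℝ → ℤ) {M j n : ℕ} (p₀ : Pat M) (t : Bool → Pat (M + j))
    (g : Fin n → Bool) (N : ℕ) (s : Pat N) (zi : Fin M → Fin N)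
    (ci : Fin n → Fin j → Fin N) : Prop where
  pos : PosPat ν ι s
  base : patMap zi s = p₀
  inj_z : Function.Injective zi
  inj_c : ∀ a b i i', ci a i = ci b i' → a = b ∧ i = i'
  disj : ∀ a i z, ci a i ≠ zi z
  cover : ∀ x, (∃ z, zi z = x) ∨ ∃ a i, ci a i = x
  type : ∀ a, patMap (joinMap zi (ci a)) s = t (g a)
  sep : ∀ a b i i', a ≠ b → ∃ z, s (ci a i) (ci b i') ≤ s (zi z) (ci b i')

theorem exists_copyPat (h : IsTreeArray ν ρ) (hι : Monotone ι) {M j : ℕ} (hM : 1 ≤ M)
    (p₀ : Pat M) (hp₀ : PosPat ν ι p₀) (t : Bool → Pat (M + j)) (ht : ∀ b, PosPat ν ι (t b))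
    (hagree : ∀ b, patMap (Fin.castAdd j) (t b) = p₀) :
    ∀ (n : ℕ) (g : Fin n → Bool), ∃ (N : ℕ) (s : Pat N) (zi : Fin M → Fin N)
      (ci : Fin n → Fin j → Fin N), CopyPat ν ι p₀ t g N s zi ci := by
  intro n
  induction n with
  | zero =>
    intro g
    exact ⟨M, p₀, id, fun a => a.elim0, hp₀, rfl, fun _ _ h => h, fun a => a.elim0,
      fun a => a.elim0, fun x => Or.inl ⟨x, rfl⟩, fun a => a.elim0, fun a => a.elim0⟩
  | succ n ih =>
    intro g
    obtain ⟨N, s, zi, ci, hC⟩ := ih fun a => g a.castSucc
    obtain ⟨s', hs', hold, hnew, hsep⟩ :=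
      amalgam h hι hM zi s hC.pos j (t (g (Fin.last n))) (ht _) (by rw [hagree, hC.base])
    have hold' : ∀ x y, s' (Fin.castAdd j x) (Fin.castAdd j y) = s x y := fun x y =>
      congrFun (congrFun hold x) y
    refine ⟨N + j, s', fun z => Fin.castAdd j (zi z),
      Fin.snoc (fun a i => Fin.castAdd j (ci a i)) (fun i => Fin.natAdd N i), ?_⟩
    have hne : ∀ (x : Fin N) (i : Fin j), Fin.castAdd j x ≠ Fin.natAdd N i := fun x i he => by
      have := congrArg Fin.val he
      simp only [Fin.val_castAdd, Fin.val_natAdd] at this
      omega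
    refine ⟨hs', ?_, (Fin.castAdd_injective N j).comp hC.inj_z, ?_, ?_, ?_, ?_, ?_⟩
    · rw [← hC.base]; funext x y; exact hold' _ _
    · intro a b i i' he
      induction a using Fin.lastCases with
      | last =>
        induction b using Fin.lastCases with
        | last =>
          simp only [Fin.snoc_last] at he
          exact ⟨rfl, Fin.natAdd_injective j N he⟩
        | cast b =>
          simp only [Fin.snoc_last, Fin.snoc_castSucc] at he
          exact absurd he.symm (hne _ _)
      | cast a =>
        induction b using Fin.lastCases with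
        | last =>
          simp only [Fin.snoc_last, Fin.snoc_castSucc] at he
          exact absurd he (hne _ _)
        | cast b =>
          simp only [Fin.snoc_castSucc] at he
          obtain ⟨e1, e2⟩ := hC.inj_c a b i i' (Fin.castAdd_injective N j he)
          exact ⟨by rw [e1], e2⟩
    · intro a i z
      induction a using Fin.lastCases with
      | last => simp only [Fin.snoc_last]; exact (hne _ _).symm
      | cast a =>
        simp only [Fin.snoc_castSucc]
        exact fun he => hC.disj a i z (Fin.castAdd_injective N j he)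
    · intro x
      induction x using Fin.addCases with
      | left x =>
        rcases hC.cover x with ⟨z, hz⟩ | ⟨a, i, hai⟩
        · exact Or.inl ⟨z, by rw [hz]⟩
        · exact Or.inr ⟨a.castSucc, i, by simp [hai]⟩
      | right i => exact Or.inr ⟨Fin.last n, i, by simp⟩
    · intro a
      induction a using Fin.lastCases with
      | last =>
        rw [← hnew]
        funext x y
        show s' (joinMap _ _ x) (joinMap _ _ y) = s' (amalgMap zi j x) (amalgMap zi j y)
        simp only [Fin.snoc_last]
        rfl
      | cast a =>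
        rw [← hC.type a]
        funext x y
        have e : ∀ x, joinMap (fun z => Fin.castAdd j (zi z))
            (fun i => Fin.castAdd j (ci a i)) x = Fin.castAdd j (joinMap zi (ci a) x) := by
          intro x
          induction x using Fin.addCases with
          | left x => simp [joinMap_castAdd]
          | right x => simp [joinMap_natAdd]
        simp only [patMap, Fin.snoc_castSucc, e, hold']
    · have hu := hs'.isUltra h hι
      have hnz : ∀ z (i : Fin j), s' (Fin.castAdd j (zi z)) (Fin.natAdd N i) =
          t (g (Fin.last n)) (Fin.castAdd j z) (Fin.natAdd M i) := fun z i => by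
        rw [← hnew]; simp [patMap, amalgMap]
      intro a b i i' hab
      induction a using Fin.lastCases with
      | last =>
        induction b using Fin.lastCases with
        | last => exact absurd rfl hab
        | cast b =>
          obtain ⟨z, hz⟩ := hsep (ci b i') i
          rw [← hnz] at hz
          exact ⟨z, by simpa using sep_symm hu hz⟩
      | cast a =>
        induction b using Fin.lastCases with
        | last =>
          obtain ⟨z, hz⟩ := hsep (ci a i) i'
          rw [← hnz] at hz
          exact ⟨z, by simpa using hz⟩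
        | cast b =>
          obtain ⟨z, hz⟩ := hC.sep a b i i' fun e => hab (by rw [e])
          exact ⟨z, by simpa [hold'] using hz⟩

/-- The value between two separated copies depends only on their types. -/
theorem CopyPat.cross (h : IsTreeArray ν ρ) (hι : Monotone ι) {M j n : ℕ} {p₀ : Pat M}
    {t : Bool → Pat (M + j)} {g : Fin n → Bool} {N : ℕ} {s : Pat N} {zi : Fin M → Fin N}
    {ci : Fin n → Fin j → Fin N} (hC : CopyPat ν ι p₀ t g N s zi ci) {a b : Fin n} (hab : a ≠ b)
    (i i' : Fin j) (z : Fin M)
    (hz : ∀ z', t (g b) (Fin.castAdd j z') (Fin.natAdd M i') ≤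
      t (g b) (Fin.castAdd j z) (Fin.natAdd M i')) :
    s (ci a i) (ci b i') = min (t (g b) (Fin.castAdd j z) (Fin.natAdd M i'))
      (t (g a) (Fin.castAdd j z) (Fin.natAdd M i)) := by
  have hu := hC.pos.isUltra h hι
  have hzv : ∀ a z i, s (zi z) (ci a i) = t (g a) (Fin.castAdd j z) (Fin.natAdd M i) :=
    fun a z i => by rw [← hC.type a]; simp [patMap, joinMap_castAdd, joinMap_natAdd]
  obtain ⟨z', hz'⟩ := hC.sep a b i i' hab
  rw [hzv] at hz'
  have hle : s (ci a i) (ci b i') ≤ s (zi z) (ci b i') := by
    rw [hzv]; exact hz'.trans (hz z')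
  rw [sep_eq hu hle, hzv, hzv]

end Vale.Agent.P168.Structure
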