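import Vale.Agent.P168.Structure.StepDefs
import Vale.Agent.P168.AssemblyMP.Key

/-! The structure theorem from its induction step. -/

open MeasureTheory ProbabilityTheory Filter
open scoped BigOperators NNReal ENNReal

noncomputable section

namespace Vale.Agent.P168.Structure

open Vale.Agent.P168

variable {ν : Measure Arr} {ρ : ℝ}

/-- The multi-overlap of all replicas is within `η` of `κ` on every event of matrices in `S`. -/
def Bd (ν : Measure Arr) (η κ : ℝ) {D : ℕ} (S : Set (Mat D)) : Prop :=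
  ∀ E : Set (Mat D), MeasurableSet E → E ⊆ S →
    ∫ ω in tmat (idRep D) ⁻¹' E, |rset (List.ofFn (idRep D)) ω - κ| ∂ν ≤
      η * ν.real (tmat (idRep D) ⁻¹' E)

/-- Good matrices with entries in `[-ρ, ρ]`. -/
def GoodB (ρ : ℝ) {D : ℕ} (T : Mat D) : Prop := GoodMat T ∧ ∀ a b, |T a b| ≤ ρ

/-- Matrices with off-diagonal cells `τ`. -/
def offShape (ι : ℝ → ℤ) {D : ℕ} (τ : Pat D) : Set (Mat D) :=
  {T | ∀ a b, a ≠ b → ι (T a b) = τ a b}

theorem measurableSet_offShape {ι : ℝ → ℤ} (hι : Monotone ι) {D : ℕ} (τ : Pat D) :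
    MeasurableSet (offShape ι τ) := by
  simp only [offShape, Set.ofPred_forall]
  refine MeasurableSet.iInter fun a => MeasurableSet.iInter fun b => MeasurableSet.iInter fun _ =>
    ?_
  exact (hι.measurable.comp (by fun_prop : Measurable fun T : Mat D => T a b))
    (measurableSet_singleton _)

theorem mesh_mono {δ δ' : ℝ} {ι : ℝ → ℤ} (h : IsMesh ρ δ ι) (hle : δ ≤ δ') : IsMesh ρ δ' ι :=
  ⟨h.1, fun x hx y hy e => (h.2 x hx y hy e).trans hle⟩

theorem ae_goodB (h : IsTreeArray ν ρ) {n : ℕ} (u : Fin n → ℕ) :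
    ∀ᵐ ω ∂ν, GoodB ρ (tmat u ω) := by
  filter_upwards [ae_goodPt h] with ω hω
  exact ⟨⟨fun a b => (hω (u a) (u b) (u a)).1, fun a b c => (hω (u a) (u b) (u c)).2.2.2⟩,
    fun a b => (hω (u a) (u b) (u a)).2.2.1⟩

theorem measurableSet_abs_le (ρ : ℝ) (D : ℕ) :
    MeasurableSet {T : Mat D | ∀ a b, |T a b| ≤ ρ} := by
  simp only [Set.ofPred_forall]
  exact MeasurableSet.iInter fun a => MeasurableSet.iInter fun b =>
    (by fun_prop : Measurable fun T : Mat D => |T a b|) measurableSet_Iic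

/-- Bounds only matter on good matrices. -/
theorem Bd.of_good (h : IsTreeArray ν ρ) {η κ : ℝ} {D : ℕ} {S S' : Set (Mat D)}
    (hB : Bd ν η κ S') (hS : S ∩ {T | ∀ a b, |T a b| ≤ ρ} ⊆ S') : Bd ν η κ S := by
  intro E hE hES
  have := hB (E ∩ {T | ∀ a b, |T a b| ≤ ρ}) (hE.inter (measurableSet_abs_le ρ D))
    fun T hT => hS ⟨hES hT.1, hT.2⟩
  have he : (tmat (idRep D) ⁻¹' (E ∩ {T | ∀ a b, |T a b| ≤ ρ}) : Set Arr) =ᵐ[ν]
      (tmat (idRep D) ⁻¹' E : Set Arr) := by
    refine eventuallyEq_set.2 ?_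
    filter_upwards [ae_goodB h (idRep D)] with ω hω
    exact ⟨fun hT => hT.1, fun hT => ⟨hT, hω.2⟩⟩
  rwa [setIntegral_congr_set he, measureReal_congr he] at this

/-- Shapes without good matrices are null. -/
theorem Bd.of_empty (h : IsTreeArray ν ρ) {η : ℝ} {D : ℕ} {S : Set (Mat D)}
    (hS : ∀ T ∈ S, ¬ GoodB ρ T) (κ : ℝ) : Bd ν η κ S := by
  intro E _ hES
  have := h.prob
  have h0 : ν (tmat (idRep D) ⁻¹' E) = 0 :=
    measure_mono_null (fun ω (hω : tmat (idRep D) ω ∈ E) =>
      show ¬ GoodB ρ (tmat (idRep D) ω) from hS _ (hES hω)) (ae_goodB h (idRep D))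
  rw [setIntegral_measure_zero _ h0, measureReal_def, h0]
  simp

theorem Bd.mono_eta {η η' κ : ℝ} {D : ℕ} {S : Set (Mat D)} (hB : Bd ν η κ S) (hle : η ≤ η') :
    Bd ν η' κ S := fun E hE hES =>
  (hB E hE hES).trans (mul_le_mul_of_nonneg_right hle measureReal_nonneg)

/-- Renaming replicas. -/
theorem Bd.relabel (h : IsGGArray ν) {η κ : ℝ} {D D' : ℕ} (e : Fin D' ≃ Fin D)
    {S' : Set (Mat D')} (hB : Bd ν η κ S') :
    Bd ν η κ {T : Mat D | (fun a b => T (e a) (e b)) ∈ S'} := by
  intro E hE hES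
  obtain rfl : D' = D := Fin.equiv_iff_eq.1 ⟨e⟩
  obtain ⟨π, hπ⟩ := exists_perm_extend e e.injective
  set E' : Set (Mat D') := {T | (fun a b => T (e.symm a) (e.symm b)) ∈ E} with hE'
  have hE'm : MeasurableSet E' :=
    (by fun_prop : Measurable fun (T : Mat D') a b => T (e.symm a) (e.symm b)) hE
  have hsub : E' ⊆ S' := fun T hT => by
    have := hES hT
    simpa using this
  have hT : ∀ ω, (fun a b => tmat (idRep D') (permRep π ω) (e.symm a) (e.symm b)) =
      tmat (idRep D') ω := by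
    intro ω
    funext a b
    simp [tmat, idRep, rbar_perm, hπ]
  have hpre : permRep π ⁻¹' (tmat (idRep D') ⁻¹' E') = tmat (idRep D') ⁻¹' E := by
    ext ω
    show (fun a b => tmat (idRep D') (permRep π ω) (e.symm a) (e.symm b)) ∈ E ↔ _
    rw [hT]
    rfl
  have hR : ∀ ω, rset (List.ofFn (idRep D')) (permRep π ω) = rset (List.ofFn (idRep D')) ω := by
    intro ω
    rw [rset_perm, List.map_ofFn]
    have : (π ∘ idRep D') = idRep D' ∘ e := funext fun i => hπ i
    rw [this]
    exact rset_perm_list (Equiv.Perm.ofFn_comp_perm e (idRep D')) ω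
  have hm := hB E' hE'm hsub
  have hS'm : MeasurableSet (tmat (idRep D') ⁻¹' E') := measurable_tmat _ hE'm
  have h1 := integral_perm h π ((tmat (idRep D') ⁻¹' E').indicator
    fun ω => |rset (List.ofFn (idRep D')) ω - κ|)
  have h2 : ν.real (tmat (idRep D') ⁻¹' E) = ν.real (tmat (idRep D') ⁻¹' E') := by
    conv_rhs => rw [← h.exch_rep π]
    rw [map_measureReal_apply (measurable_permRep π) hS'm, hpre]
  rw [← integral_indicator hS'm, ← h1] at hm
  rw [← integral_indicator (measurable_tmat _ hE), h2]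
  refine le_trans (le_of_eq (integral_congr_ae (Eventually.of_forall fun ω => ?_))) hm
  by_cases hω : ω ∈ tmat (idRep D') ⁻¹' E
  · have hω' : permRep π ω ∈ tmat (idRep D') ⁻¹' E' := by
      rw [← Set.mem_preimage, hpre]; exact hω
    simp only [Set.indicator_of_mem hω, Set.indicator_of_mem hω', hR]
  · have hω' : permRep π ω ∉ tmat (idRep D') ⁻¹' E' := fun hm' => hω (by
      rw [← hpre]; exact hm')
    simp only [Set.indicator_of_notMem hω, Set.indicator_of_notMem hω']

theorem exists_equiv_pins {D d : ℕ} (hD : 2 + d = D) {a b : Fin D} (hab : a ≠ b) :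
    ∃ e : Fin (2 + d) ≃ Fin D, e (Fin.castAdd d 0) = a ∧ e (Fin.castAdd d 1) = b := by
  subst hD
  have h01 : (Fin.castAdd d (0 : Fin 2)) ≠ Fin.castAdd d 1 := fun e => by
    simpa using Fin.castAdd_injective 2 d e
  set e1 := Equiv.swap (Fin.castAdd d (0 : Fin 2)) a with he1
  set y := e1 (Fin.castAdd d (1 : Fin 2)) with hy
  have hya : y ≠ a := fun e => h01 (e1.injective (by
    rw [← hy, e, he1, Equiv.swap_apply_left]))
  exact ⟨e1.trans (Equiv.swap y b), by
    simp [he1, Equiv.swap_apply_of_ne_of_ne hya.symm hab], by simp [← hy]⟩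

theorem pin_cases {d : ℕ} (i : Fin (2 + d)) :
    i = Fin.castAdd d 0 ∨ i = Fin.castAdd d 1 ∨ ∃ l, i = Fin.natAdd 2 l := by
  induction i using Fin.addCases with
  | left p => fin_cases p <;> simp
  | right l => exact Or.inr (Or.inr ⟨l, rfl⟩)

theorem pins_perm {d : ℕ} (π : Equiv.Perm (Fin (2 + d)))
    (h0 : π (Fin.castAdd d (0 : Fin 2)) = Fin.castAdd d 1)
    (h1 : π (Fin.castAdd d (1 : Fin 2)) = Fin.castAdd d 0) :
    (∀ i, (π i).val < 2 ↔ i.val < 2) ∧ ∀ i : Fin (2 + d), i.val < 2 → π i ≠ i := by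
  have hne : ∀ i : Fin (2 + d), i.val < 2 → i = Fin.castAdd d (0 : Fin 2) ∨
      i = Fin.castAdd d (1 : Fin 2) := by
    intro i hi
    rcases pin_cases i with e | e | ⟨l, rfl⟩
    · exact Or.inl e
    · exact Or.inr e
    · simp at hi; omega
  refine ⟨fun i => ⟨fun hi => ?_, fun hi => ?_⟩, fun i hi e => ?_⟩
  · rcases hne _ hi with e | e
    · rw [π.injective (e.trans h1.symm)]; simp
    · rw [π.injective (e.trans h0.symm)]; simp
  · rcases hne _ hi with rfl | rfl
    · rw [h0]; simp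
    · rw [h1]; simp
  · rcases hne _ hi with rfl | rfl
    · rw [h0] at e; simp [Fin.ext_iff] at e
    · rw [h1] at e; simp [Fin.ext_iff] at e

/-- The double of halves of size `k + 1` satisfies the hypotheses of the step. -/
theorem stepGood_double {k : ℕ} (e : Fin (2 + (k + k)) ≃ Fin ((k + 1) + (k + 1)))
    (he0 : e (Fin.castAdd _ 0) = Fin.castAdd _ 0) (he1 : e (Fin.castAdd _ 1) = Fin.natAdd _ 0)
    {τ : Pat ((k + 1) + (k + 1))} (hτ : IsDouble (k + 1) τ) :
    StepGood k ((e.trans (finSumFinEquiv.symm.trans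
      ((Equiv.sumComm _ _).trans finSumFinEquiv))).trans e.symm)
      (fun a b => τ (e a) (e b)) := by
  obtain ⟨a, hcross, hin⟩ := hτ
  set sw : Fin ((k + 1) + (k + 1)) ≃ Fin ((k + 1) + (k + 1)) :=
    finSumFinEquiv.symm.trans ((Equiv.sumComm _ _).trans finSumFinEquiv) with hsw
  have sl : ∀ i, sw (Fin.castAdd _ i) = Fin.natAdd _ i := fun i => by
    simp [hsw, finSumFinEquiv_symm_apply_castAdd]
  have sr : ∀ i, sw (Fin.natAdd _ i) = Fin.castAdd _ i := fun i => by
    rw [hsw, Equiv.trans_apply, finSumFinEquiv_symm_apply_natAdd]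
    rfl
  refine ⟨fun x y hxy => ?_, ?_⟩
  · simp only [Equiv.trans_apply, Equiv.apply_symm_apply]
    have hne : e x ≠ e y := e.injective.ne hxy
    generalize e x = i, e y = i' at hne
    induction i using Fin.addCases with
    | left i =>
      induction i' using Fin.addCases with
      | left i' =>
        rw [sl, sl, (hin i i' fun h => hne (by rw [h])).1]
      | right i' => rw [sl, sr, (hcross _ _).2, (hcross _ _).1]
    | right i =>
      induction i' using Fin.addCases with
      | left i' => rw [sr, sl, (hcross _ _).1, (hcross _ _).2]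
      | right i' =>
        rw [sr, sr, (hin i i' fun h => hne (by rw [h])).1]
  intro ι hι T hT hTτ ι' hι' l
  let idx : Fin (k + k) → Fin (k + 1) := fun l =>
    (finSumFinEquiv.symm (e (Fin.natAdd 2 l))).elim id id
  let side : Fin (k + k) → Bool := fun l =>
    (finSumFinEquiv.symm (e (Fin.natAdd 2 l))).isLeft
  have hel : ∀ l, e (Fin.natAdd 2 l) = if side l then Fin.castAdd _ (idx l)
      else Fin.natAdd _ (idx l) := by
    intro l
    obtain ⟨z, hz⟩ : ∃ z, e (Fin.natAdd 2 l) = finSumFinEquiv z :=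
      ⟨finSumFinEquiv.symm (e (Fin.natAdd 2 l)), by simp⟩
    cases z <;> simp only [side, idx, hz, Equiv.symm_apply_apply] <;> rfl
  have hidx0 : ∀ l, idx l ≠ 0 := by
    intro l h0
    have h2 := hel l
    rw [h0] at h2
    split_ifs at h2
    · rw [← he0] at h2
      have := congrArg Fin.val (e.injective h2)
      simp only [Fin.val_natAdd, Fin.val_castAdd, Fin.val_zero] at this
      omega
    · rw [← he1] at h2
      have := congrArg Fin.val (e.injective h2)
      simp only [Fin.val_natAdd, Fin.val_castAdd, Fin.val_one] at this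
      omega
  have hnn : ∀ l l', l ≠ l' → (Fin.natAdd 2 l : Fin (2 + (k + k))) ≠ Fin.natAdd 2 l' :=
    fun l l' hne hh => hne (Fin.natAdd_injective _ _ hh)
  have hpn : ∀ (p : Fin 2) l, (Fin.castAdd (k + k) p) ≠ Fin.natAdd 2 l := fun p l hh => by
    have := congrArg Fin.val hh
    simp only [Fin.val_natAdd, Fin.val_castAdd] at this
    have := p.isLt
    omega
  have hside : ∀ l' ∈ hangClass (fun a b => ι' (T a b)) l, side l' = side l := by
    intro l' hl'
    rcases (Finset.mem_filter.1 hl').2 with rfl | hlt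
    · rfl
    by_contra hne
    have hll : l ≠ l' := fun hh => hne (by rw [hh])
    have hcode : ι (T (Fin.natAdd 2 l) (Fin.natAdd 2 l')) = a := by
      rw [hTτ _ _ (hnn _ _ hll)]
      simp only [hel]
      cases hs : side l <;> cases hs' : side l' <;> simp_all
    obtain ⟨p, hp⟩ : ∃ p : Fin 2, a < ι (T (Fin.castAdd _ p) (Fin.natAdd 2 l)) := by
      cases hs : side l
      · refine ⟨1, ?_⟩
        rw [hTτ _ _ (hpn _ _)]
        show a < τ (e _) (e _)
        rw [hel, he1, hs, if_neg (by simp), (hin 0 (idx l) (hidx0 l).symm).1]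
        exact (hin 0 (idx l) (hidx0 l).symm).2
      · refine ⟨0, ?_⟩
        rw [hTτ _ _ (hpn _ _)]
        show a < τ (e _) (e _)
        rw [hel, he0, hs, if_pos rfl]
        exact (hin 0 (idx l) (hidx0 l).symm).2
    have hTlt : T (Fin.natAdd 2 l) (Fin.natAdd 2 l') ≤ T (Fin.castAdd _ p) (Fin.natAdd 2 l) := by
      by_contra hlt'
      have := hι (not_le.1 hlt').le
      omega
    have h3 := hι' hTlt
    have hle : ι' (T (Fin.castAdd _ p) (Fin.natAdd 2 l)) ≤
        attachLevel (fun a b => ι' (T a b)) l := by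
      fin_cases p
      · exact le_max_left _ _
      · exact le_max_right _ _
    simp only at hlt
    omega
  have hinj : Set.InjOn idx (hangClass (fun a b => ι' (T a b)) l : Set (Fin (k + k))) := by
    intro x hx y hy hxy
    have h1 := hel x
    have h2 := hel y
    rw [hside x hx, hxy] at h1
    rw [hside y hy] at h2
    exact Fin.natAdd_injective _ _ (e.injective (h1.trans h2.symm))
  calc (hangClass (fun a b => ι' (T a b)) l).card
      = ((hangClass (fun a b => ι' (T a b)) l).image idx).card :=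
        (Finset.card_image_of_injOn hinj).symm
    _ ≤ (Finset.univ.erase (0 : Fin (k + 1))).card := Finset.card_le_card fun i hi => by
        obtain ⟨x, -, rfl⟩ := Finset.mem_image.1 hi
        simp [hidx0]
    _ = k := by simp

/-- The bound for doubles of every size. -/
theorem doubles_of_step (hS : StepStmt) (h : IsCoreArray ν ρ) :
    ∀ (m : ℕ) (θ : ℝ), 0 < θ → ∀ η > 0, ∃ δ > 0, DoublesBd ν ρ δ θ η m := by
  intro m
  induction m with
  | zero => exact fun θ _ η _ => ⟨1, one_pos, fun j hj hj' => by omega⟩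
  | succ k ih =>
    intro θ hθ η hη
    obtain ⟨δ₁, hδ₁, hlow⟩ := ih θ hθ η hη
    obtain ⟨e, he0, he1⟩ := exists_equiv_pins (D := (k + 1) + (k + 1)) (d := k + k) (by omega)
      (a := Fin.castAdd (k + 1) 0) (b := Fin.natAdd (k + 1) 0) (fun hh => by
        have := congrArg Fin.val hh
        simp at this)
    have h0 : ((e.trans (finSumFinEquiv.symm.trans
        ((Equiv.sumComm _ _).trans finSumFinEquiv))).trans e.symm) (Fin.castAdd _ 0) =
        Fin.castAdd _ 1 := by
      rw [Equiv.trans_apply, Equiv.trans_apply, he0, Equiv.symm_apply_eq, he1]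
      simp [finSumFinEquiv_symm_apply_castAdd]
    have h1 : ((e.trans (finSumFinEquiv.symm.trans
        ((Equiv.sumComm _ _).trans finSumFinEquiv))).trans e.symm) (Fin.castAdd _ 1) =
        Fin.castAdd _ 0 := by
      rw [Equiv.trans_apply, Equiv.trans_apply, he1, Equiv.symm_apply_eq, he0,
        Equiv.trans_apply, finSumFinEquiv_symm_apply_natAdd]
      rfl
    obtain ⟨hp, hp'⟩ := pins_perm _ h0 h1
    obtain ⟨δ₂, hδ₂, htop⟩ := hS ν ρ h θ hθ k (k + k) _ hp hp'
      (fun η' hη' => ih (θ / 2) (by positivity) η' hη') η hη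
    refine ⟨min δ₁ δ₂, lt_min hδ₁ hδ₂, fun j hj hj' ι hι τ hτ => ?_⟩
    rcases lt_or_eq_of_le hj' with hlt | rfl
    · exact hlow j hj (by omega) ι (mesh_mono hι (min_le_left _ _)) τ hτ
    obtain ⟨κ, hκ1, hκ⟩ :=
      htop ι (mesh_mono hι (min_le_right _ _)) _ (stepGood_double e he0 he1 hτ)
    refine ⟨κ, hκ1, ?_⟩
    intro E hE hES
    exact Bd.relabel h.toIsGGArray e (S' := shapeSet ι (ρ - θ) _) hκ E hE fun T hT a b hab =>
      hES hT (e a) (e b) (e.injective.ne hab)

/-- All shapes below the cut. -/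
theorem shapes_below (hS : StepStmt) (h : IsCoreArray ν ρ) (D : ℕ) :
    ∀ θ : ℝ, 0 < θ → ∀ η > 0, ∃ δ > 0, ShapeBd ν ρ δ θ η D fun _ => True := by
  intro θ hθ η hη
  have := h.prob
  have hT : IsTreeArray ν ρ := h.toIsTreeArray
  match D with
  | 0 =>
    refine ⟨1, one_pos, fun ι _ τ _ => ⟨1, by simp, fun E _ _ => ?_⟩⟩
    have : ∀ ω, rset (List.ofFn (idRep 0)) ω = 1 := fun ω => by
      simp [rset, spinProd, limsup_const]
    simp only [this, sub_self, abs_zero, integral_zero]
    exact mul_nonneg hη.le measureReal_nonneg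
  | 1 =>
    obtain ⟨o, ho⟩ := h.magnetisation
    have ho1 : |o| ≤ 1 := by
      obtain ⟨ω, hω⟩ := (ho 0).exists
      exact hω ▸ abs_rset_le _ _
    refine ⟨1, one_pos, fun ι _ τ _ => ⟨o, ho1, fun E _ _ => ?_⟩⟩
    have he : ∀ᵐ ω ∂ν.restrict (tmat (idRep 1) ⁻¹' E),
        |rset (List.ofFn (idRep 1)) ω - o| = 0 := by
      refine ae_restrict_of_ae ?_
      filter_upwards [ho 0] with ω hω
      simp [idRep, hω]
    rw [integral_congr_ae he, integral_zero]
    exact mul_nonneg hη.le measureReal_nonneg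
  | d + 2 =>
    obtain ⟨hp, hp'⟩ := pins_perm (Equiv.swap (Fin.castAdd d (0 : Fin 2)) (Fin.castAdd d 1))
      (Equiv.swap_apply_left _ _) (Equiv.swap_apply_right _ _)
    obtain ⟨δ, hδ, htop⟩ := hS ν ρ h θ hθ d d _ hp hp'
      (fun η' hη' => doubles_of_step hS h d (θ / 2) (by positivity) η' hη') η hη
    refine ⟨δ, hδ, fun ι hι τ _ => ?_⟩
    by_cases hgood : ∃ T ∈ shapeSet ι (ρ - θ) τ, GoodB ρ T
    swap
    · exact ⟨0, by simp, Bd.of_empty hT (fun T hTS hG => hgood ⟨T, hTS, hG⟩) 0⟩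
    obtain ⟨T₀, hT₀, ⟨hsymm, hult⟩, -⟩ := hgood
    obtain ⟨⟨p, q⟩, hpq, hmax⟩ := Finset.exists_max_image
      ((Finset.univ : Finset (Fin (d + 2) × Fin (d + 2))).filter fun x => x.1 ≠ x.2)
      (fun x => T₀ x.1 x.2) ⟨(0, 1), by simp⟩
    simp only [Finset.mem_filter, Finset.mem_univ, true_and] at hpq hmax
    obtain ⟨e, he0, he1⟩ := exists_equiv_pins (d := d) (by omega) hpq
    set p₀ : Fin (2 + d) := Fin.castAdd d 0 with hp₀
    set p₁ : Fin (2 + d) := Fin.castAdd d 1 with hp₁
    have hswap : ∀ x, x ≠ p → x ≠ q → T₀ p x = T₀ q x := by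
      intro x hxp hxq
      have a1 : T₀ q x ≤ T₀ p q := hmax (q, x) (Ne.symm hxq) |>.trans le_rfl
      have a2 : T₀ p x ≤ T₀ p q := hmax (p, x) (Ne.symm hxp) |>.trans le_rfl
      have b1 := hult p q x
      have b2 := hult q p x
      rw [hsymm q p] at b2
      rw [min_eq_right a1] at b1
      rw [min_eq_right a2] at b2
      exact le_antisymm b2 b1
    have hgoodπ : StepGood d (Equiv.swap p₀ p₁) fun a b => τ (e a) (e b) := by
      refine ⟨fun x y hxy => ?_, fun ι' _ T _ _ ι'' _ l => ?_⟩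
      · have hne : e (Equiv.swap p₀ p₁ x) ≠ e (Equiv.swap p₀ p₁ y) :=
          e.injective.ne ((Equiv.swap p₀ p₁).injective.ne hxy)
        show τ _ _ = τ _ _
        rw [← (hT₀ _ _ hne).1, ← (hT₀ _ _ (e.injective.ne hxy)).1]
        congr 1
        have hv : ∀ z, e (Equiv.swap p₀ p₁ z) = Equiv.swap p q (e z) := fun z => by
          rw [e.injective.map_swap, he0, he1]
        rw [hv, hv]
        have hii : e x ≠ e y := e.injective.ne hxy
        generalize e x = i, e y = i' at hii
        have sp : Equiv.swap p q p = q := Equiv.swap_apply_left _ _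
        have sq' : Equiv.swap p q q = p := Equiv.swap_apply_right _ _
        have so : ∀ z, z ≠ p → z ≠ q → Equiv.swap p q z = z := fun z h1 h2 =>
          Equiv.swap_apply_of_ne_of_ne h1 h2
        by_cases h1 : i = p
        · by_cases h2 : i' = q
          · rw [h1, h2, sp, sq', hsymm]
          · have h3 : i' ≠ p := fun hh => hii (h1.trans hh.symm)
            rw [h1, sp, so i' h3 h2, hswap i' h3 h2]
        · by_cases h1' : i = q
          · by_cases h2 : i' = p
            · rw [h1', h2, sp, sq', hsymm]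
            · have h3 : i' ≠ q := fun hh => hii (h1'.trans hh.symm)
              rw [h1', sq', so i' h2 h3, hswap i' h2 h3]
          · by_cases h2 : i' = p
            · rw [h2, sp, so i h1 h1', hsymm i q, hsymm i p, hswap i h1 h1']
            · by_cases h2' : i' = q
              · rw [h2', sq', so i h1 h1', hsymm i q, hsymm i p, hswap i h1 h1']
              · rw [so i h1 h1', so i' h2 h2']
      · exact le_trans (Finset.card_le_univ _) (by simp)
    obtain ⟨κ, hκ1, hκ⟩ := htop ι hι _ hgoodπ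
    refine ⟨κ, hκ1, fun E hE hES => ?_⟩
    exact Bd.relabel h.toIsGGArray e (S' := shapeSet ι (ρ - θ) _) hκ E hE fun T hT a b hab =>
      hES hT (e a) (e b) (e.injective.ne hab)

/-- A bound on the first `n` replicas passes to events of more replicas. -/
theorem Bd.lift (h : IsTreeArray ν ρ) {η κ : ℝ} (hη : 0 ≤ η) (hη1 : η ≤ 1) (hκ : |κ| ≤ 1) {n k : ℕ}
    {S' : Set (Mat n)} (hS' : MeasurableSet S') (hB : Bd ν η κ S') {E : Set (Mat (n + k))}
    (hE : MeasurableSet E)
    (hES : E ⊆ {T : Mat (n + k) | (fun a b => T (Fin.castAdd k a) (Fin.castAdd k b)) ∈ S'}) :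
    ∫ ω in tmat (idRep (n + k)) ⁻¹' E, |rset (List.ofFn (idRep n)) ω - κ| ∂ν ≤
      η * ν.real (tmat (idRep (n + k)) ⁻¹' E) := by
  classical
  have := h.prob
  set F : RepData n → ℝ := fun z =>
    if AssemblyMP.tmatData z ∈ S' then |AssemblyMP.rsetData z - κ| / 2 else 0 with hF
  have hFm : Measurable F := Measurable.ite ((AssemblyMP.measurable_tmatData n) hS')
    (((AssemblyMP.measurable_rsetData n).sub_const _).abs.div_const 2) measurable_const
  have hF0 : ∀ z, 0 ≤ F z := fun z => by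
    simp only [hF]; split_ifs
    · positivity
    · exact le_rfl
  have hF1 : ∀ z, F z ≤ 1 := fun z => by
    simp only [hF]; split_ifs
    · linarith [abs_sub (AssemblyMP.rsetData z) κ, AssemblyMP.abs_rsetData z]
    · exact zero_le_one
  have hpt : ∀ ω, F (repData n ω) = (tmat (idRep n) ⁻¹' S').indicator
      (fun ω => |rset (List.ofFn (idRep n)) ω - κ| / 2) ω := fun ω => by
    rw [Set.indicator_apply]
    simp only [hF, AssemblyMP.rset_idRep, AssemblyMP.tmatData_repData, Set.mem_preimage]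
    congr
  have hc : ∀ A : Set (Mat n), MeasurableSet A →
      ∫ ω in tmat (idRep n) ⁻¹' A, F (repData n ω) ∂ν ≤
        η / 2 * ν.real (tmat (idRep n) ⁻¹' A) := by
    intro A hA
    simp only [hpt]
    rw [setIntegral_indicator (measurable_tmat _ hS'), integral_div, ← Set.preimage_inter]
    have h1 := hB (A ∩ S') (hA.inter hS') Set.inter_subset_right
    have h2 : ν.real (tmat (idRep n) ⁻¹' (A ∩ S')) ≤ ν.real (tmat (idRep n) ⁻¹' A) :=
      measureReal_mono (Set.preimage_mono Set.inter_subset_left)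
    have := mul_le_mul_of_nonneg_left h2 hη
    linarith
  obtain ⟨f, hfm, hf1, hfc, hfg⟩ := AssemblyMP.exists_cond F hFm hF0 hF1 (η / 2) (by linarith)
    (by linarith) hc
  set G : Mat (n + k) → ℝ := E.indicator 1 with hG
  have hG1 : ∀ T, |G T| ≤ 1 := fun T => by by_cases hT : T ∈ E <;> simp [hG, hT]
  have e := h.consistent n k F f hFm hfm (fun z => abs_le.2 ⟨by linarith [hF0 z], hF1 z⟩) hf1
    hfg G (measurable_one.indicator hE) hG1
  have hEm := measurable_tmat (idRep (n + k)) hE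
  have eG : ∀ ω, G (tmat (idRep (n + k)) ω) =
      (tmat (idRep (n + k)) ⁻¹' E).indicator 1 ω := fun ω => rfl
  simp only [eG] at e
  have h1 : ∀ g : Arr → ℝ, ∫ ω, g ω * (tmat (idRep (n + k)) ⁻¹' E).indicator 1 ω ∂ν =
      ∫ ω in tmat (idRep (n + k)) ⁻¹' E, g ω ∂ν := fun g => by
    rw [← integral_indicator hEm]
    refine integral_congr_ae (Eventually.of_forall fun ω => ?_)
    by_cases hω : ω ∈ tmat (idRep (n + k)) ⁻¹' E <;> simp [hω]
  rw [h1, h1] at e
  have h2 : ∫ ω in tmat (idRep (n + k)) ⁻¹' E, F (repData n ω) ∂ν =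
      (∫ ω in tmat (idRep (n + k)) ⁻¹' E, |rset (List.ofFn (idRep n)) ω - κ| ∂ν) / 2 := by
    rw [← integral_div]
    refine setIntegral_congr_fun hEm fun ω hω => ?_
    rw [hpt, Set.indicator_of_mem]
    exact hES hω
  have h3 : ∫ ω in tmat (idRep (n + k)) ⁻¹' E, f (tmat (idRep n) ω) ∂ν ≤
      ∫ _ω in tmat (idRep (n + k)) ⁻¹' E, η / 2 ∂ν :=
    setIntegral_mono
      (AssemblyMP.integrable_bdd (hfm.comp (measurable_tmat _)) 1 fun ω => hf1 _).integrableOn
      (integrable_const _).integrableOn fun ω => hfc _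
  rw [setIntegral_const, smul_eq_mul] at h3
  linarith

/-- Two replicas at overlap near the top can be dropped from a multi-overlap. -/
theorem near_top_drop (h : IsTreeArray ν ρ) (L : List ℕ) (a b : ℕ) :
    ∀ᵐ ω ∂ν, |rset (L ++ [a, b]) ω - rset L ω| ≤ 2 * (ρ - rbar a b ω) := by
  filter_upwards [tendsto_siteAvg h (L ++ [a, b]), tendsto_siteAvg h L, tendsto_siteAvg h [a, b],
    h.near_top a b] with ω h1 h2 h3 h4
  refine le_trans ?_ h4
  refine le_of_tendsto_of_tendsto' (h1.sub h2).abs (tendsto_const_nhds.sub h3) fun k => ?_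
  have h4k : (0 : ℝ) < 4 ^ k := by positivity
  have e : (1 : ℝ) = (∑ i ∈ Finset.range (4 ^ k), (1 : ℝ)) / 4 ^ k := by simp
  unfold siteAvg
  conv_rhs => rw [e]
  rw [← sub_div, ← sub_div, abs_div, abs_of_pos h4k, div_le_div_iff_of_pos_right h4k,
    ← Finset.sum_sub_distrib, ← Finset.sum_sub_distrib]
  refine (Finset.abs_sum_le_sum_abs _ _).trans (Finset.sum_le_sum fun i _ => ?_)
  rw [spinProd_append, ← mul_sub_one, abs_mul, abs_spinProd, one_mul, abs_sub_comm,
    abs_of_nonneg (by linarith [le_of_abs_le (abs_spinProd [a, b] i ω).le])]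

theorem ofFn_idRep_two (n : ℕ) :
    List.ofFn (idRep (n + 2)) = List.ofFn (idRep n) ++ [n, n + 1] := by
  rw [List.ofFn_succ' , List.ofFn_succ']
  simp [idRep, List.concat_eq_append]
  rfl

/-- All shapes, with near-top pairs dropped. -/
theorem shapes_all (hS : StepStmt) (h : IsCoreArray ν ρ) :
    ∀ (D : ℕ) (ε : ℝ), 0 < ε → ∃ δ > 0, ∀ ι : ℝ → ℤ, IsMesh ρ δ ι → ∀ τ : Pat D,
      ∃ κ : ℝ, |κ| ≤ 1 ∧ Bd ν ε κ (offShape ι τ) := by
  have hT : IsTreeArray ν ρ := h.toIsTreeArray
  have := h.prob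
  intro D
  induction D using Nat.strong_induction_on with
  | _ D ih =>
    intro ε hε
    set ε' := min ε 1 with hε'
    have hε'p : 0 < ε' := lt_min hε one_pos
    set θ := ε' / 24 with hθ
    have hθp : 0 < θ := by positivity
    obtain ⟨δ₁, hδ₁, hlow⟩ := shapes_below hS h D θ hθp ε hε
    obtain ⟨δ₂, hδ₂, hprev⟩ : ∃ δ > 0, ∀ n, n + 2 = D → ∀ ι : ℝ → ℤ, IsMesh ρ δ ι →
        ∀ τ : Pat n, ∃ κ : ℝ, |κ| ≤ 1 ∧ Bd ν (ε' / 2) κ (offShape ι τ) := by
      by_cases hD : 2 ≤ D
      · obtain ⟨δ, hδ, hh⟩ := ih (D - 2) (by omega) (ε' / 2) (by positivity)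
        refine ⟨δ, hδ, fun n hn => ?_⟩
        obtain rfl : n = D - 2 := by omega
        exact hh
      · exact ⟨1, one_pos, fun n hn => by omega⟩
    refine ⟨min (min δ₁ δ₂) θ, lt_min (lt_min hδ₁ hδ₂) hθp, fun ι hι τ => ?_⟩
    have hι1 := mesh_mono hι ((min_le_left _ _).trans (min_le_left _ _))
    have hι2 := mesh_mono hι ((min_le_left _ _).trans (min_le_right _ _))
    by_cases hgood : ∃ T ∈ offShape ι τ, GoodB ρ T
    swap
    · exact ⟨0, by simp, Bd.of_empty hT (fun T hTS hG => hgood ⟨T, hTS, hG⟩) 0⟩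
    obtain ⟨T₀, hT₀, -, hT₀b⟩ := hgood
    have hclose : ∀ T ∈ offShape ι τ, (∀ a b, |T a b| ≤ ρ) → ∀ a b, a ≠ b →
        |T a b - T₀ a b| ≤ θ := fun T hTτ hTb a b hab =>
      (hι.2 _ (abs_le.1 (hTb a b)) _ (abs_le.1 (hT₀b a b))
        ((hTτ a b hab).trans (hT₀ a b hab).symm)).trans (min_le_right _ _)
    by_cases hall : ∀ a b, a ≠ b → T₀ a b ≤ ρ - 2 * θ
    · obtain ⟨κ, hκ1, hκ⟩ := hlow ι hι1 τ trivial
      refine ⟨κ, hκ1, Bd.of_good hT (S' := shapeSet ι (ρ - θ) τ) hκ ?_⟩
      rintro T ⟨hTτ, hTb⟩ a b hab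
      exact ⟨hTτ a b hab, by
        linarith [(abs_le.1 (hclose T hTτ hTb a b hab)).2, hall a b hab]⟩
    push Not at hall
    obtain ⟨p, q, hpq, htop⟩ := hall
    obtain ⟨n, rfl⟩ : ∃ n, D = n + 2 := by
      refine ⟨D - 2, ?_⟩
      have h1 := p.isLt
      have h2 := q.isLt
      have h3 : p.val ≠ q.val := fun hh => hpq (Fin.ext hh)
      omega
    obtain ⟨e', he0, he1⟩ := exists_equiv_pins (d := n) (by omega) hpq
    set e : Fin (n + 2) ≃ Fin (n + 2) := finAddFlip.trans e' with he
    have hep : e (Fin.natAdd n 0) = p := by rw [he, Equiv.trans_apply, finAddFlip_apply_natAdd, he0]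
    have heq : e (Fin.natAdd n 1) = q := by rw [he, Equiv.trans_apply, finAddFlip_apply_natAdd, he1]
    obtain ⟨κ, hκ1, hκ⟩ := hprev n rfl ι hι2
      fun a b => τ (e (Fin.castAdd 2 a)) (e (Fin.castAdd 2 b))
    refine ⟨κ, hκ1, ?_⟩
    set S₁ : Set (Mat (n + 2)) :=
      offShape ι (fun a b => τ (e a) (e b)) ∩ {T | ∀ a b, |T a b| ≤ ρ} with hS₁
    have hB : Bd ν ε κ S₁ := by
      intro E hE hES
      set A := tmat (idRep (n + 2)) ⁻¹' E with hA
      have hAm : MeasurableSet A := measurable_tmat _ hE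
      have hl := Bd.lift hT (k := 2) (by positivity) (by linarith [min_le_right ε 1]) hκ1
        (measurableSet_offShape hι.1 _) hκ hE fun T hTE a b hab =>
          (hES hTE).1 _ _ fun hh => hab (Fin.castAdd_injective _ _ hh)
      have hdiff : ∀ᵐ ω ∂ν.restrict A,
          |rset (List.ofFn (idRep (n + 2))) ω - rset (List.ofFn (idRep n)) ω| ≤ ε' / 4 := by
        rw [ae_restrict_iff' hAm]
        filter_upwards [near_top_drop hT (List.ofFn (idRep n)) n (n + 1)] with ω hω hωA
        obtain ⟨hTτ, hTb⟩ := hES hωA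
        rw [ofFn_idRep_two]
        refine hω.trans ?_
        set T' : Mat (n + 2) := fun a b =>
          tmat (idRep (n + 2)) ω (e.symm a) (e.symm b) with hT'
        have h1 := hclose T' (fun a b hab => by
          simpa [hT'] using hTτ (e.symm a) (e.symm b) (e.symm.injective.ne hab))
          (fun a b => hTb _ _) p q hpq
        have h2 : T' p q = rbar n (n + 1) ω := by
          rw [hT']
          simp only [← hep, ← heq, Equiv.symm_apply_apply]
          simp [tmat, idRep]
        rw [h2] at h1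
        have h3 := (abs_le.1 h1).1
        linarith
      have hint : ∀ L : List ℕ, IntegrableOn (fun ω => |rset L ω - κ|) A ν := fun L =>
        (AssemblyMP.integrable_bdd ((measurable_rset L).sub_const κ).abs 2 fun ω => by
          rw [abs_abs]; linarith [abs_sub (rset L ω) κ, abs_rset_le L ω]).integrableOn
      calc ∫ ω in A, |rset (List.ofFn (idRep (n + 2))) ω - κ| ∂ν
          ≤ ∫ ω in A, (ε' / 4 + |rset (List.ofFn (idRep n)) ω - κ|) ∂ν := by
            refine setIntegral_mono_ae_restrict (hint _)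
              (Integrable.add (integrable_const _) (hint _)) ?_
            filter_upwards [hdiff] with ω hω
            linarith [abs_sub_le (rset (List.ofFn (idRep (n + 2))) ω)
              (rset (List.ofFn (idRep n)) ω) κ]
        _ ≤ ε' / 4 * ν.real A + ε' / 2 * ν.real A := by
            rw [integral_add (integrable_const _) (hint _), setIntegral_const, smul_eq_mul,
              mul_comm (ν.real A)]
            exact add_le_add le_rfl hl
        _ ≤ ε * ν.real A := by
            rw [← add_mul]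
            exact mul_le_mul_of_nonneg_right (by linarith [min_le_left ε 1]) measureReal_nonneg
    exact Bd.of_good hT (Bd.relabel hT.toIsGGArray e hB) fun T hTS =>
      ⟨fun a b hab => hTS.1 _ _ (e.injective.ne hab), fun a b => hTS.2 _ _⟩

/-- The structure theorem from the step. -/
theorem structure_of_step : StepStmt → StructureStmt := by
  intro hS ν ρ h D ε hε
  obtain ⟨δ, hδ, hall⟩ := shapes_all hS h D ε hε
  refine ⟨δ, hδ, fun ι hι τ => ?_⟩
  obtain ⟨κ, hκ1, hκ⟩ := hall ι hι τ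
  refine ⟨κ, hκ1, fun E hE => ?_⟩
  have hset : {ω : Arr | tmat (idRep D) ω ∈ E ∧
      ∀ a b : Fin D, a ≠ b → ι (rbar a b ω) = τ a b} =
      tmat (idRep D) ⁻¹' (E ∩ offShape ι τ) := rfl
  rw [hset]
  exact hκ _ (hE.inter (measurableSet_offShape hι.1 τ)) Set.inter_subset_right

end Vale.Agent.P168.Structure
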