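import Vale.Agent.P168.Statements

/-! A monotone partition of small mesh which is constant near given points. -/

open scoped BigOperators

noncomputable section

namespace Vale.Agent.P168.Structure

open Vale.Agent.P168

/-- A partition of mesh `(N + 1) h` constant near each of `N` given points. -/
theorem exists_merge {α : Type*} [Fintype α] (ρ : ℝ) {h r : ℝ} (hh : 0 < h) (hr : 2 * r < h)
    (c : α → ℝ) :
    ∃ ι : ℝ → ℤ, IsMesh ρ ((Fintype.card α + 1) * h) ι ∧
      ∀ p x y, |x - c p| ≤ r → |y - c p| ≤ r → ι x = ι y := by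
  classical
  set M : ℤ := ⌈|ρ| / h⌉ + 1 with hM
  set kept : Finset ℤ :=
    (Finset.Icc (-M) M).filter fun n : ℤ => ∀ p, r < |(n : ℝ) * h - c p| with hkept
  set f : ℝ → ℤ := fun x => ((kept.filter fun n : ℤ => (n : ℝ) * h ≤ x).card : ℤ) with hf
  have hmono : Monotone f := fun x y hxy => by
    refine Int.ofNat_le.2 (Finset.card_le_card fun n hn => ?_)
    rw [Finset.mem_filter] at hn ⊢
    exact ⟨hn.1, hn.2.trans hxy⟩
  refine ⟨f, ⟨hmono, fun x hx y hy hxy => ?_⟩, fun p x y hx hy => ?_⟩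
  · wlog hle : x ≤ y generalizing x y
    · rw [abs_sub_comm]; exact this y hy x hx hxy.symm (le_of_not_ge hle)
    by_contra hbig
    rw [not_le, abs_of_nonpos (by linarith), neg_sub] at hbig
    set n₀ : ℤ := ⌊x / h⌋ + 1 with hn₀
    have hn₀x : x < (n₀ : ℝ) * h := by
      rw [← div_lt_iff₀ hh, hn₀]; push_cast; exact Int.lt_floor_add_one _
    have hn₀x' : (n₀ : ℝ) * h ≤ x + h := by
      have := mul_le_mul_of_nonneg_right (Int.floor_le (x / h)) hh.le
      rw [div_mul_cancel₀ _ hh.ne'] at this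
      rw [hn₀]; push_cast; linarith
    have hin : ∀ i : Fin (Fintype.card α + 1), x < ((n₀ + i : ℤ) : ℝ) * h ∧
        ((n₀ + i : ℤ) : ℝ) * h ≤ y := by
      intro i
      have hi : ((i : ℕ) : ℝ) + 1 ≤ (Fintype.card α + 1 : ℕ) := by exact_mod_cast i.isLt
      push_cast at hi ⊢
      constructor
      · nlinarith [(i : ℕ).cast_nonneg (α := ℝ)]
      · nlinarith
    have hMh : |ρ| + h ≤ (M : ℝ) * h := by
      have := mul_le_mul_of_nonneg_right (Int.le_ceil (|ρ| / h)) hh.le
      rw [div_mul_cancel₀ _ hh.ne'] at this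
      rw [hM]; push_cast; linarith
    have hmem : ∀ i : Fin (Fintype.card α + 1), (n₀ + i : ℤ) ∈ Finset.Icc (-M) M := by
      intro i
      obtain ⟨h1, h2⟩ := hin i
      obtain ⟨hx1, -⟩ := hx
      obtain ⟨-, hy2⟩ := hy
      have hρ := le_abs_self ρ
      have hl : ((-M : ℤ) : ℝ) * h < ((n₀ + i : ℤ) : ℝ) * h := by
        have : ((-M : ℤ) : ℝ) * h = -((M : ℝ) * h) := by push_cast; ring
        linarith
      have hu : ((n₀ + i : ℤ) : ℝ) * h < (M : ℝ) * h := by linarith
      exact Finset.mem_Icc.2 ⟨Int.cast_le.1 (lt_of_mul_lt_mul_right hl hh.le).le,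
        Int.cast_le.1 (lt_of_mul_lt_mul_right hu hh.le).le⟩
    have hkill : ∀ i : Fin (Fintype.card α + 1), ∃ p, |((n₀ + i : ℤ) : ℝ) * h - c p| ≤ r := by
      intro i
      by_contra hk
      push Not at hk
      obtain ⟨h1, h2⟩ := hin i
      have hlt : f x < f y := by
        refine Int.ofNat_lt.2 (Finset.card_lt_card ⟨fun n hn => ?_, fun hsub => ?_⟩)
        · rw [Finset.mem_filter] at hn ⊢
          exact ⟨hn.1, hn.2.trans hle⟩
        · have := hsub (Finset.mem_filter.2
            ⟨Finset.mem_filter.2 ⟨hmem i, hk⟩, h2⟩ : (n₀ + i : ℤ) ∈ _)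
          exact absurd (Finset.mem_filter.1 this).2 (not_le.2 h1)
      exact hlt.ne hxy
    choose g hg using hkill
    obtain ⟨i, j, hij, heq⟩ :=
      Fintype.exists_ne_map_eq_of_card_lt g (by rw [Fintype.card_fin]; omega)
    have hgi := abs_le.1 (hg i)
    have hgj := abs_le.1 (hg j)
    rw [heq] at hgi
    push_cast at hgi hgj
    rcases lt_or_gt_of_ne hij with hlt | hgt
    · have : ((i : ℕ) : ℝ) + 1 ≤ (j : ℕ) := by exact_mod_cast hlt
      nlinarith
    · have : ((j : ℕ) : ℝ) + 1 ≤ (i : ℕ) := by exact_mod_cast hgt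
      nlinarith
  · wlog hle : x ≤ y generalizing x y
    · exact (this y x hy hx (le_of_not_ge hle)).symm
    refine congrArg (fun s : Finset ℤ => (s.card : ℤ)) (Finset.ext fun n => ?_)
    simp only [Finset.mem_filter]
    refine ⟨fun hn => ⟨hn.1, hn.2.trans hle⟩, fun hn => ⟨hn.1, ?_⟩⟩
    by_contra hlt
    have hk := (Finset.mem_filter.1 hn.1).2 p
    have h1 := abs_le.1 hx
    have h2 := abs_le.1 hy
    exact absurd (abs_le.2 ⟨by linarith [not_le.1 hlt], by linarith [hn.2]⟩) (not_le.2 hk)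

end Vale.Agent.P168.Structure
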