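import Vale.Agent.P168.Structure.BoxRatio
import Vale.Agent.P168.Structure.Merge

/-! The conditional mean of a small shape is almost constant. -/

open MeasureTheory ProbabilityTheory Filter
open scoped BigOperators NNReal ENNReal Topology

noncomputable section

namespace Vale.Agent.P168.Structure

open Vale.Agent.P168

variable {ν : Measure Arr} {ρ θ : ℝ}

theorem ae_abs_le_overlapLaw (h : IsTreeArray ν ρ) :
    ∀ᵐ q ∂overlapLaw ν, q ∈ Set.Icc (-ρ) ρ := by
  refine (ae_map_iff (measurable_rbar 0 1).aemeasurable measurableSet_Icc).2 ?_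
  filter_upwards [h.rbar_le 0 1] with ω hω using abs_le.1 hω

theorem finite_posPat (h : IsTreeArray ν ρ) {ι : ℝ → ℤ} (hι : Monotone ι) (n : ℕ) :
    {s : Pat n | PosPat ν ι s}.Finite := by
  have hfin : {s : Pat n | ∀ a, s a ∈ {f : Fin n → ℤ | ∀ b, f b ∈ Set.Icc (ι (-ρ)) (ι ρ)}}.Finite :=
    Set.Finite.pi' fun _ => Set.Finite.pi' fun _ => Set.finite_Icc _ _
  refine hfin.subset fun s hs a b => ?_
  obtain ⟨ω, hω, hg⟩ := exists_good_mem h hs
  have h1 := abs_le.1 (hg a b 0).2.2.1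
  rw [← hω a b]
  exact ⟨hι h1.1, hι h1.2⟩

/-- On the overlaps of a pattern the box mean is at least the probability of the pattern. -/
theorem box_lower (h : IsTreeArray ν ρ) {r : ℝ} {d : ℕ} {G : ℝ → ℤ} (hG : Monotone G)
    (s : Pat (2 + d)) (hs : PosPat ν G s) (c : Mat (2 + d))
    (hone : ∀ T ∈ patSet G s, box r c T = 1) (c₁ : ℝ → ℝ) (hc₁ : Continuous c₁)
    (h₁ : ∀ g : ℝ → ℝ, Measurable g → (∀ q, |g q| ≤ 1) →
      ∫ ω, g (rbar 0 1 ω) * box r c (tmat (idRep (2 + d)) ω) ∂ν =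
        ∫ q, g q * c₁ q ∂overlapLaw ν) :
    ∀ᵐ q ∂(overlapLaw ν).restrict (G ⁻¹' {pat01 s} ∩ Set.Icc (-ρ) ρ),
      ν.real (cell G (idRep (2 + d)) s) ≤ c₁ q := by
  haveI := h.prob
  haveI := overlapLaw_prob h
  set P := ν.real (cell G (idRep (2 + d)) s) with hP
  set B := G ⁻¹' {pat01 s} with hB
  set B' := B ∩ Set.Icc (-ρ) ρ with hB'
  have hBm : MeasurableSet B := hG.measurable (measurableSet_singleton _)
  have hB'm : MeasurableSet B' := hBm.inter measurableSet_Icc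
  obtain ⟨C, hC⟩ := isCompact_Icc.exists_bound_of_continuousOn (hc₁.continuousOn
    (s := Set.Icc (-ρ) ρ))
  have hint : Integrable c₁ ((overlapLaw ν).restrict B') :=
    Integrable.of_bound hc₁.aestronglyMeasurable C
      ((ae_restrict_mem hB'm).mono fun q hq => hC q hq.2)
  refine ae_le_of_forall_setIntegral_le (integrable_const _) hint fun J hJ _ => ?_
  rw [Measure.restrict_restrict hJ, setIntegral_const, smul_eq_mul]
  set K := J ∩ B' with hK
  have hKm : MeasurableSet K := hJ.inter hB'm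
  have hKB : K ⊆ B := fun q hq => hq.2.1
  have hgK := abs_indicator_one_le K
  have e1 := h₁ (K.indicator 1) (measurable_one.indicator hKm) hgK
  have e2 : ∫ q, K.indicator (1 : ℝ → ℝ) q * c₁ q ∂overlapLaw ν =
      ∫ q in K, c₁ q ∂overlapLaw ν := by
    rw [← integral_indicator hKm]
    exact integral_congr_ae (Eventually.of_forall fun q => by by_cases hq : q ∈ K <;> simp [hq])
  rw [e2] at e1
  rw [← e1]
  have hq := q_law h hG s hs (K.indicator 1) (measurable_one.indicator hKm) hgK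
  rw [setIntegral_indicator hKm, Set.inter_eq_right.2 hKB] at hq
  simp only [Pi.one_apply, setIntegral_const, smul_eq_mul, mul_one, ← hP] at hq
  have hKi : ∀ ω, 0 ≤ K.indicator (1 : ℝ → ℝ) (rbar 0 1 ω) := fun ω =>
    Set.indicator_nonneg (fun _ _ => zero_le_one) _
  have hcell : ∫ ω in cell G (idRep (2 + d)) s, K.indicator (1 : ℝ → ℝ) (rbar 0 1 ω) ∂ν ≤
      ∫ ω, K.indicator (1 : ℝ → ℝ) (rbar 0 1 ω) * box r c (tmat (idRep (2 + d)) ω) ∂ν := by
    have hi : Integrable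
        (fun ω => K.indicator (1 : ℝ → ℝ) (rbar 0 1 ω) * box r c (tmat (idRep (2 + d)) ω)) ν :=
      integrable_of_bdd (((measurable_one.indicator hKm).comp (measurable_rbar 0 1)).mul
        ((continuous_box r c).measurable.comp (measurable_tmat _))) (C := 1) fun ω => by
        rw [abs_mul]
        exact mul_le_one₀ (hgK _) (abs_nonneg _)
          (by rw [abs_of_nonneg (box_nonneg r c _)]; exact box_le_one r c _)
    refine le_trans (le_of_eq (setIntegral_congr_fun (measurableSet_cell hG _ _) fun ω hω => ?_))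
      (setIntegral_le_integral hi (Eventually.of_forall fun ω =>
        mul_nonneg (hKi ω) (box_nonneg r c _)))
    rw [show box r c (tmat (idRep (2 + d)) ω) = 1 from hone _ hω, mul_one]
  have hm1 : mass ν G (pat01 s) ≤ 1 := measureReal_le_one
  have h0 : 0 ≤ ∫ ω in cell G (idRep (2 + d)) s, K.indicator (1 : ℝ → ℝ) (rbar 0 1 ω) ∂ν :=
    setIntegral_nonneg (measurableSet_cell hG _ _) fun ω _ => hKi ω
  calc (overlapLaw ν).real K * P = P * (overlapLaw ν).real K := mul_comm _ _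
    _ = mass ν G (pat01 s) * ∫ ω in cell G (idRep (2 + d)) s,
          K.indicator (1 : ℝ → ℝ) (rbar 0 1 ω) ∂ν := hq.symm
    _ ≤ _ := (mul_le_of_le_one_left h0 hm1).trans hcell

/-- The conditional mean is almost constant on small shapes. -/
theorem mean_const (h : IsCoreArray ν ρ) (hθ : 0 < θ) {m d : ℕ}
    (π : Equiv.Perm (Fin (2 + d)))
    (hdbl : ∀ η > 0, ∃ δ > 0, DoublesBd ν ρ δ (θ / 2) η m) {η : ℝ} (hη : 0 < η) (hη1 : η ≤ 1) :
    ∃ δ > 0, ∀ ι : ℝ → ℤ, IsMesh ρ δ ι → ∀ τ : Pat (2 + d), StepGood m π τ →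
      0 < ν.real (shapeEv ι (ρ - θ) τ) →
      ∀ m₁ : ℝ → ℝ, IsShapeMean ν ι (ρ - θ) τ (fullOverlap d) m₁ →
        ∃ κ : ℝ, |κ| ≤ 1 ∧ ∀ᵐ q ∂(overlapLaw ν).restrict (pinSet ι (ρ - θ) τ),
          |m₁ q - κ| ≤ η * (1 + 72 * d) := by
  classical
  have hT : IsTreeArray ν ρ := h.toIsTreeArray
  haveI := hT.prob
  obtain ⟨δ₀, hδ₀, hD⟩ := hdbl (η ^ 4) (by positivity)
  set α := {p : Fin (2 + d) × Fin (2 + d) // p.1 ≠ p.2}
  set hstep := δ₀ / (Fintype.card α + 1) with hhstep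
  have hsp : 0 < hstep := by positivity
  set r := min (hstep / 3) (θ / 4) with hrdef
  have hr : 0 < r := lt_min (by positivity) (by positivity)
  have hr1 : 2 * r < hstep := by linarith [min_le_left (hstep / 3) (θ / 4)]
  have hr2 : r ≤ θ / 4 := min_le_right _ _
  set g := r / 4 with hgdef
  have hg : 0 < g := by positivity
  have hfl : Monotone fun x : ℝ => ⌊x / g⌋ := fun x y hxy => Int.floor_mono (by gcongr)
  set G := cutIota (fun x : ℝ => ⌊x / g⌋) (ρ - θ) with hGdef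
  have hGm : Monotone G := monotone_cutIota hfl _
  let Low : Set (Pat (2 + d)) :=
    {s | PosPat ν G s ∧ ∀ T ∈ patSet G s, ∀ a b, a ≠ b → T a b ≤ ρ - θ}
  haveI : Finite Low := ((finite_posPat hT hGm _).subset fun s hs => hs.1).to_subtype
  have hcentre : ∀ s : Low, ∃ ω, ω ∈ cell G (idRep (2 + d)) s.1 ∧ GoodPt ρ ω := fun s =>
    exists_good_mem hT s.2.1
  choose ωs hωs hgs using hcentre
  let cs : Low → Mat (2 + d) := fun s => tmat (idRep (2 + d)) (ωs s)
  have hcs : ∀ (s : Low) a b, a ≠ b → cs s a b ≤ ρ - θ := fun s a b hab =>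
    s.2.2 _ (hωs s) a b hab
  have hfun := fun s : Low => exists_box_functions h hr (cs s) fun a b hab => by
    linarith [hcs s a b hab]
  choose C₁ CR hC₁ hCR hC₁g hCRg using hfun
  set p : Low → ℝ := fun s => ν.real (cell G (idRep (2 + d)) s.1) with hpdef
  have hp : ∀ s, 0 < p s := fun s => s.2.1
  have hmod : ∀ᶠ δ' in 𝓝[>] (0 : ℝ), ∀ s : Low, ∀ x ∈ Set.Icc (-ρ) ρ, ∀ y ∈ Set.Icc (-ρ) ρ,
      |x - y| ≤ δ' → |C₁ s x - C₁ s y| ≤ η * p s / 4 ∧ |CR s x - CR s y| ≤ η * p s / 4 := by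
    refine eventually_all.2 fun s => ?_
    have he : 0 < η * p s / 4 := by have := hp s; positivity
    obtain ⟨d₁, hd₁, hu₁⟩ := Metric.uniformContinuousOn_iff.1
      (isCompact_Icc.uniformContinuousOn_of_continuous
        ((hC₁ s).continuousOn (s := Set.Icc (-ρ) ρ))) _ he
    obtain ⟨d₂, hd₂, hu₂⟩ := Metric.uniformContinuousOn_iff.1
      (isCompact_Icc.uniformContinuousOn_of_continuous
        ((hCR s).continuousOn (s := Set.Icc (-ρ) ρ))) _ he
    filter_upwards [Ioo_mem_nhdsGT (lt_min hd₁ hd₂)] with δ' hδ' x hx y hy hxy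
    have h1 : δ' < d₁ := hδ'.2.trans_le (min_le_left _ _)
    have h2 : δ' < d₂ := hδ'.2.trans_le (min_le_right _ _)
    exact ⟨(hu₁ x hx y hy (hxy.trans_lt h1)).le, (hu₂ x hx y hy (hxy.trans_lt h2)).le⟩
  obtain ⟨δ₁, hδ₁m, hδ₁⟩ := (hmod.and self_mem_nhdsWithin).exists
  refine ⟨min δ₁ g, lt_min hδ₁ hg, fun ι hι τ hgood hpos m₁ hm₁ => ?_⟩
  have hex : ∃ s : Pat (2 + d), 0 < ν.real (shapeEv ι (ρ - θ) τ ∩ cell G (idRep (2 + d)) s) := by
    by_contra hno
    push Not at hno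
    have hz : ∀ s, ν (shapeEv ι (ρ - θ) τ ∩ cell G (idRep (2 + d)) s) = 0 := fun s =>
      (measureReal_eq_zero_iff).1 (le_antisymm (hno s) measureReal_nonneg)
    have hsub : shapeEv ι (ρ - θ) τ ⊆
        ⋃ s : Pat (2 + d), shapeEv ι (ρ - θ) τ ∩ cell G (idRep (2 + d)) s := fun ω hω =>
      Set.mem_iUnion.2 ⟨fun a b => G (rbar (a : ℕ) (b : ℕ) ω), hω, fun a b => rfl⟩
    have : ν (shapeEv ι (ρ - θ) τ) = 0 := measure_mono_null hsub (measure_iUnion_null hz)
    simp [Measure.real, this] at hpos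
  obtain ⟨s, hs⟩ := hex
  obtain ⟨ω₀, ⟨hω₀I, hω₀c⟩, hg₀⟩ := exists_good_mem hT hs
  set T₀ := tmat (idRep (2 + d)) ω₀ with hT₀
  have hsLow : s ∈ Low := by
    refine ⟨hs.trans_le (measureReal_mono Set.inter_subset_right), fun T hT' a b hab => ?_⟩
    obtain ⟨-, e⟩ := cutIota_eq hfl ((hT' a b).trans (hω₀c a b).symm)
    exact not_lt.1 fun hlt => absurd (e.1 hlt) (not_lt.2 (hω₀I a b hab).2)
  set S : Low := ⟨s, hsLow⟩
  have hgrid : ∀ T ∈ patSet G s, ∀ a b, |T a b - cs S a b| ≤ g := by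
    intro T hT' a b
    obtain ⟨e, -⟩ := cutIota_eq hfl ((hT' a b).trans (hωs S a b).symm)
    have h4 := Int.abs_sub_lt_one_of_floor_eq_floor e
    rw [← sub_div, abs_div, abs_of_pos hg, div_lt_one hg] at h4
    exact h4.le
  have hIcc : ∀ {T : Mat (2 + d)}, (∀ a b, |T a b| ≤ ρ) → ∀ a b, T a b ∈ Set.Icc (-ρ) ρ :=
    fun hT' a b => abs_le.1 (hT' a b)
  have hb₀ : ∀ a b, |T₀ a b| ≤ ρ := fun a b => (hg₀ a b 0).2.2.1
  have hnear : ∀ T ∈ shapeSet ι (ρ - θ) τ, (∀ a b, |T a b| ≤ ρ) →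
      ∀ a b, a ≠ b → |T a b - cs S a b| ≤ r := by
    intro T hT' hTb a b hab
    have h1 := hι.2 _ (hIcc hTb a b) _ (hIcc hb₀ a b)
      ((hT' a b hab).1.trans (hω₀I a b hab).1.symm)
    have h2 := hgrid T₀ hω₀c a b
    have h3 := min_le_right δ₁ g
    calc |T a b - cs S a b| ≤ |T a b - T₀ a b| + |T₀ a b - cs S a b| := abs_sub_le _ _ _
      _ ≤ r := by linarith
  obtain ⟨ι₁, hι₁, hconst⟩ := exists_merge ρ hsp hr1 fun p : α => cs S p.1.1 p.1.2
  rw [show ((Fintype.card α : ℝ) + 1) * hstep = δ₀ by rw [hhstep]; field_simp] at hι₁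
  have hconst' : ∀ a b, a ≠ b → ∀ x, |x - cs S a b| ≤ r → ι₁ x = ι₁ (cs S a b) :=
    fun a b hab x hx => hconst ⟨(a, b), hab⟩ x _ hx (by simp [hr.le])
  have hcl : ClassesLE (fun a b => ι₁ (cs S a b)) m := by
    have hGood : GoodMat T₀ := ⟨fun a b => (hg₀ a b 0).1, fun a b c => (hg₀ a b c).2.2.2⟩
    have h0 := hgood.2 ι hι.1 T₀ hGood (fun a b hab => (hω₀I a b hab).1) ι₁ hι₁.1
    have he : ∀ a b, a ≠ b → ι₁ (cs S a b) = ι₁ (T₀ a b) := fun a b hab =>
      (hconst' a b hab _ ((hgrid T₀ hω₀c a b).trans (by linarith))).symm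
    intro l
    have hatt : attachLevel (fun a b => ι₁ (cs S a b)) l =
        attachLevel (fun a b => ι₁ (T₀ a b)) l := by
      have hne : ∀ i : Fin 2, Fin.castAdd d i ≠ Fin.natAdd 2 l := fun i hh => by
        have := congrArg Fin.val hh
        simp only [Fin.val_castAdd, Fin.val_natAdd] at this
        omega
      simp only [attachLevel, he _ _ (hne 0), he _ _ (hne 1)]
    refine le_trans (le_of_eq ?_) (h0 l)
    refine congrArg Finset.card (Finset.ext fun l' => ?_)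
    simp only [hangClass, hatt, Finset.mem_filter, Finset.mem_univ, true_and]
    by_cases hll : l' = l
    · simp [hll]
    · rw [he _ _ fun hh => hll (Fin.natAdd_injective _ _ hh).symm]
  have hrat := box_ratio hT hθ hη hη1 hD hι hι₁ τ hpos hr (by linarith) (cs S) (hcs S) hnear
    hconst' hcl m₁ hm₁ (C₁ S) (CR S) (hC₁ S) (hCR S) (hC₁g S) (hCRg S)
  have hone : ∀ T ∈ patSet G s, box r (cs S) T = 1 := fun T hT' =>
    box_eq_one hr fun a b _ => (hgrid T hT' a b).trans (by linarith)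
  have hlow := box_lower hT hGm s hsLow.1 (cs S) hone (C₁ S) (hC₁ S) (hC₁g S)
  set A := pinSet ι (ρ - θ) τ with hA
  have hAm : MeasurableSet A := measurableSet_pinSet hι.1 _ τ
  have hBm : MeasurableSet (G ⁻¹' {pat01 s}) := hGm.measurable (measurableSet_singleton _)
  obtain ⟨q₀, hq₀A, hq₀I, hq₀⟩ : ∃ q₀ ∈ A, q₀ ∈ Set.Icc (-ρ) ρ ∧ p S ≤ C₁ S q₀ := by
    by_contra hno
    push Not at hno
    have hz : ∀ᵐ q ∂overlapLaw ν, ¬ (q ∈ A ∧ q ∈ G ⁻¹' {pat01 s}) := by
      filter_upwards [ae_imp_of_ae_restrict hlow, ae_abs_le_overlapLaw hT] with q hq hqI hh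
      exact absurd (hq ⟨hh.2, hqI⟩) (not_le.2 (hno q hh.1 hqI))
    have hz' : overlapLaw ν (A ∩ G ⁻¹' {pat01 s}) = 0 := by
      rw [ae_iff] at hz
      simpa [Set.inter_def] using hz
    have : ν (shapeEv ι (ρ - θ) τ ∩ cell G (idRep (2 + d)) s) = 0 := by
      refine measure_mono_null (fun ω hω => ?_)
        (show ν (rbar 0 1 ⁻¹' (A ∩ G ⁻¹' {pat01 s})) = 0 by
          rwa [overlapLaw, Measure.map_apply (measurable_rbar 0 1) (hAm.inter hBm)] at hz')
      exact ⟨qval_mem_pinSet hω.1, hω.2 (Fin.castAdd d 0) (Fin.castAdd d 1)⟩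
    simp [Measure.real, this] at hs
  have hq₀p : 0 < C₁ S q₀ := (hp S).trans_le hq₀
  set k₀ := CR S q₀ / C₁ S q₀ with hk₀
  refine ⟨max (-1) (min 1 k₀), abs_le.2 ⟨le_max_left _ _, max_le (by norm_num) (min_le_left _ _)⟩, ?_⟩
  have hrat' := ae_imp_of_ae_restrict hrat
  refine ae_restrict_of_ae_restrict_of_subset (subset_refl A) ((ae_restrict_iff' hAm).2 ?_)
  filter_upwards [hrat', ae_abs_le_overlapLaw hT] with q hq hqI hqA
  have hb := hq ⟨hqA, hqI⟩
  have hclose : |q - q₀| ≤ δ₁ := (hι.2 q hqI q₀ hq₀I (hqA.1.trans hq₀A.1.symm)).trans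
    (min_le_left _ _)
  obtain ⟨hd1, hd2⟩ := hδ₁m S q hqI q₀ hq₀I hclose
  have hm := hm₁.2.1 q
  have hk : |m₁ q - k₀| ≤ η * (1 + 72 * d) := by
    have key : (m₁ q - k₀) * C₁ S q₀ =
        m₁ q * (C₁ S q₀ - C₁ S q) + (m₁ q * C₁ S q - CR S q) + (CR S q - CR S q₀) := by
      rw [hk₀, sub_mul, div_mul_cancel₀ _ hq₀p.ne']; ring
    have h1 : |m₁ q * (C₁ S q₀ - C₁ S q)| ≤ η * p S / 4 := by
      rw [abs_mul, abs_sub_comm]
      exact (mul_le_of_le_one_left (abs_nonneg _) hm).trans hd1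
    have h2 : |m₁ q * C₁ S q - CR S q| ≤ 36 * η * d * C₁ S q := by rw [abs_sub_comm]; exact hb
    have h3 : C₁ S q ≤ 2 * C₁ S q₀ := by
      have := (abs_le.1 hd1).2
      have : η * p S ≤ p S := mul_le_of_le_one_left (hp S).le hη1
      linarith [hp S]
    have h4 : η * p S ≤ η * C₁ S q₀ := mul_le_mul_of_nonneg_left hq₀ hη.le
    have h5 : 36 * η * d * C₁ S q ≤ 36 * η * d * (2 * C₁ S q₀) :=
      mul_le_mul_of_nonneg_left h3 (by positivity)
    have hall : |m₁ q - k₀| * C₁ S q₀ ≤ η * (1 + 72 * d) * C₁ S q₀ := by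
      rw [← abs_of_pos hq₀p, ← abs_mul, abs_of_pos hq₀p, key]
      refine ((abs_add_le _ _).trans (add_le_add ((abs_add_le _ _).trans (add_le_add h1 h2)) hd2)).trans ?_
      nlinarith [mul_nonneg hη.le hq₀p.le]
    exact le_of_mul_le_mul_right hall hq₀p
  refine le_trans ?_ hk
  obtain ⟨hm1, hm2⟩ := abs_le.1 hm
  rcases le_total k₀ (-1) with hc | hc
  · rw [min_eq_right (by linarith), max_eq_left hc, abs_of_nonneg (by linarith),
      abs_of_nonneg (by linarith)]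
    linarith
  rcases le_total 1 k₀ with hc' | hc'
  · rw [min_eq_left hc', max_eq_right (by norm_num), abs_of_nonpos (by linarith),
      abs_of_nonpos (by linarith)]
    linarith
  · rw [min_eq_right hc', max_eq_right hc]

end Vale.Agent.P168.Structure
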