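import Vale.Agent.P168.Structure.ShapeBounds

/-! Bounds on all cells of refining partitions give bounds on all events. -/

open MeasureTheory ProbabilityTheory Filter
open scoped BigOperators NNReal ENNReal Topology

noncomputable section

namespace Vale.Agent.P168.Structure

open Vale.Agent.P168

variable {ν : Measure Arr} {ρ : ℝ}

/-- The dyadic refinement number `k` of `ι` with a break at `cut`. -/
def fineIota (ι : ℝ → ℤ) (cut : ℝ) (k : ℕ) (x : ℝ) : ℤ :=
  ι x + ⌊x * 2 ^ k⌋ + if cut < x then 1 else 0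

theorem monotone_fineIota {ι : ℝ → ℤ} (hι : Monotone ι) (cut : ℝ) (k : ℕ) :
    Monotone (fineIota ι cut k) := by
  intro x y hxy
  have h1 := hι hxy
  have h2 : ⌊x * 2 ^ k⌋ ≤ ⌊y * 2 ^ k⌋ := Int.floor_mono (by gcongr)
  unfold fineIota
  split_ifs with a b <;> linarith

theorem fineIota_eq {ι : ℝ → ℤ} (hι : Monotone ι) {cut : ℝ} {k : ℕ} {x y : ℝ}
    (h : fineIota ι cut k x = fineIota ι cut k y) :
    ι x = ι y ∧ ⌊x * 2 ^ k⌋ = ⌊y * 2 ^ k⌋ ∧ (cut < x ↔ cut < y) := by
  wlog hxy : x ≤ y generalizing x y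
  · obtain ⟨a, b, c⟩ := this h.symm (le_of_not_ge hxy)
    exact ⟨a.symm, b.symm, c.symm⟩
  have h1 := hι hxy
  have h2 : ⌊x * 2 ^ k⌋ ≤ ⌊y * 2 ^ k⌋ := Int.floor_mono (by gcongr)
  unfold fineIota at h
  split_ifs at h with a b b
  · exact ⟨by linarith, by linarith, iff_of_true a b⟩
  · exact absurd (a.trans_le hxy) b
  · exfalso; linarith
  · exact ⟨by linarith, by linarith, iff_of_false a b⟩

theorem fineIota_refines {ι : ℝ → ℤ} (hι : Monotone ι) {cut : ℝ} {k : ℕ} {x y : ℝ}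
    (h : fineIota ι cut (k + 1) x = fineIota ι cut (k + 1) y) :
    fineIota ι cut k x = fineIota ι cut k y := by
  obtain ⟨h1, h2, h3⟩ := fineIota_eq hι h
  have e : ∀ z : ℝ, ⌊z * 2 ^ k⌋ = ⌊z * 2 ^ (k + 1)⌋ / 2 := fun z => by
    have : z * 2 ^ k = z * 2 ^ (k + 1) / (2 : ℕ) := by rw [pow_succ]; push_cast; ring
    rw [this, Int.floor_div_natCast]; norm_num
  unfold fineIota
  rw [h1, e x, e y, h2]
  by_cases hc : cut < x
  · rw [if_pos hc, if_pos (h3.1 hc)]
  · rw [if_neg hc, if_neg fun hy => hc (h3.2 hy)]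

theorem fineIota_close {ι : ℝ → ℤ} (hι : Monotone ι) {cut : ℝ} {k : ℕ} {x y : ℝ}
    (h : fineIota ι cut k x = fineIota ι cut k y) : |x - y| ≤ (1 / 2) ^ k := by
  obtain ⟨-, h2, -⟩ := fineIota_eq hι h
  have h4 := Int.abs_sub_lt_one_of_floor_eq_floor h2
  rw [← sub_mul, abs_mul, abs_of_pos (by positivity : (0 : ℝ) < 2 ^ k)] at h4
  rw [one_div, inv_pow, inv_eq_one_div, le_div_iff₀ (by positivity)]
  exact h4.le

theorem lintegral_ofReal_set {f : Arr → ℝ} (hf : Measurable f) (hf0 : ∀ ω, 0 ≤ f ω) {B : ℝ}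
    (hfB : ∀ ω, f ω ≤ B) [IsFiniteMeasure ν] (S : Set Arr) :
    ∫⁻ ω in S, ENNReal.ofReal (f ω) ∂ν = ENNReal.ofReal (∫ ω in S, f ω ∂ν) := by
  refine (ofReal_integral_eq_lintegral_ofReal ?_ (Eventually.of_forall hf0)).symm
  exact Integrable.of_bound hf.aestronglyMeasurable B (Eventually.of_forall fun ω => by
    rw [Real.norm_eq_abs, abs_of_nonneg (hf0 ω)]; exact hfB ω)

/-- Comparisons on cells of the refinements give comparisons of weighted integrals. -/
theorem bound_of_cells_weight (h : IsTreeArray ν ρ) {ι : ℝ → ℤ} (hι : Monotone ι) (cut : ℝ) {n : ℕ}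
    (G : Set (Mat n)) (hG : MeasurableSet G)
    (hdet : ∀ k, ∀ T T' : Mat n,
      (∀ a b, fineIota ι cut k (T a b) = fineIota ι cut k (T' a b)) → T ∈ G → T' ∈ G)
    (f g : Arr → ℝ) (hf : Measurable f) (hf0 : ∀ ω, 0 ≤ f ω) {B : ℝ} (hfB : ∀ ω, f ω ≤ B)
    (hg : Measurable g) (hg0 : ∀ ω, 0 ≤ g ω) (hgB : ∀ ω, g ω ≤ B)
    (hcell : ∀ k (s : Pat n), patSet (fineIota ι cut k) s ⊆ G →
      PosPat ν (fineIota ι cut k) s →
      ∫ ω in cell (fineIota ι cut k) (idRep n) s, f ω ∂ν ≤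
        ∫ ω in cell (fineIota ι cut k) (idRep n) s, g ω ∂ν)
    (w : Mat n → ℝ) (hw : Measurable w) (hw0 : ∀ T, 0 ≤ w T) {W : ℝ} (hwB : ∀ T, w T ≤ W)
    (hwG : ∀ T, T ∉ G → w T = 0) :
    ∫ ω, w (tmat (idRep n) ω) * f ω ∂ν ≤ ∫ ω, w (tmat (idRep n) ω) * g ω ∂ν := by
  classical
  haveI := h.prob
  set T := tmat (idRep n) with hT
  have hTm : Measurable T := measurable_tmat _
  have hfin : ∀ u : Arr → ℝ, Measurable u → (∀ ω, 0 ≤ u ω) → (∀ ω, u ω ≤ B) →
      IsFiniteMeasure (ν.withDensity fun ω => ENNReal.ofReal (u ω)) := fun u hu hu0 huB =>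
    isFiniteMeasure_withDensity (by
      rw [← setLIntegral_univ, lintegral_ofReal_set hu hu0 huB]; exact ENNReal.ofReal_ne_top)
  haveI := hfin f hf hf0 hfB
  haveI := hfin g hg hg0 hgB
  set μ₁ : Measure (Mat n) :=
    ((ν.withDensity fun ω => ENNReal.ofReal (f ω)).map T).restrict G with hμ₁
  set μ₂ : Measure (Mat n) :=
    ((ν.withDensity fun ω => ENNReal.ofReal (g ω)).map T).restrict G with hμ₂
  have hval : ∀ u : Arr → ℝ, Measurable u → (∀ ω, 0 ≤ u ω) → (∀ ω, u ω ≤ B) →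
      ∀ S : Set (Mat n), MeasurableSet S → S ⊆ G →
      ((ν.withDensity fun ω => ENNReal.ofReal (u ω)).map T).restrict G S =
        ENNReal.ofReal (∫ ω in T ⁻¹' S, u ω ∂ν) := fun u hu hu0 huB S hS hSG => by
    rw [Measure.restrict_apply hS, Set.inter_eq_left.2 hSG, Measure.map_apply hTm hS,
      withDensity_apply _ (hTm hS), lintegral_ofReal_set hu hu0 huB]
  have hcellsle : ∀ k (s : Pat n),
      μ₁ (patSet (fineIota ι cut k) s) ≤ μ₂ (patSet (fineIota ι cut k) s) := by
    intro k s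
    have hι' := monotone_fineIota hι cut k
    by_cases hsub : patSet (fineIota ι cut k) s ⊆ G
    · rw [hμ₁, hμ₂, hval f hf hf0 hfB _ (measurableSet_patSet hι' s) hsub,
        hval g hg hg0 hgB _ (measurableSet_patSet hι' s) hsub]
      refine ENNReal.ofReal_le_ofReal ?_
      rw [hT, tmat_preimage_patSet]
      by_cases hpos : PosPat ν (fineIota ι cut k) s
      · exact hcell k s hsub hpos
      · have hr : ν.real (cell (fineIota ι cut k) (idRep n) s) = 0 :=
          le_antisymm (not_lt.1 hpos) measureReal_nonneg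
        rw [setIntegral_measure_zero _ ((measureReal_eq_zero_iff).1 hr),
          setIntegral_measure_zero _ ((measureReal_eq_zero_iff).1 hr)]
    · have hdisj : patSet (fineIota ι cut k) s ∩ G = ∅ := by
        by_contra hne
        obtain ⟨T₀, hT₀, hT₀G⟩ := Set.nonempty_iff_ne_empty.2 hne
        exact hsub fun T' hT' => hdet k T₀ T' (fun a b => by rw [hT₀ a b, hT' a b]) hT₀G
      rw [hμ₁, Measure.restrict_apply (measurableSet_patSet hι' s), hdisj, measure_empty]
      exact zero_le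
  have hopen : ∀ U : Set (Mat n), IsOpen U → μ₁ U ≤ μ₂ U := by
    intro U hU
    let Uk : ℕ → Set (Mat n) := fun k =>
      ⋃ s : {s : Pat n // patSet (fineIota ι cut k) s ⊆ U}, patSet (fineIota ι cut k) s.1
    have hUle : ∀ k, μ₁ (Uk k) ≤ μ₂ (Uk k) := by
      intro k
      have hι' := monotone_fineIota hι cut k
      have hdis : Pairwise (Function.onFun Disjoint
          fun s : {s : Pat n // patSet (fineIota ι cut k) s ⊆ U} =>
            patSet (fineIota ι cut k) s.1) := by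
        intro s s' hss
        refine Set.disjoint_left.2 fun T' h1 h2 => hss (Subtype.ext ?_)
        funext a b
        rw [← h1 a b, h2 a b]
      simp only [Uk]
      rw [measure_iUnion hdis fun s => measurableSet_patSet hι' _,
        measure_iUnion hdis fun s => measurableSet_patSet hι' _]
      exact ENNReal.tsum_le_tsum fun s => hcellsle k _
    have hsub : ∀ k, Uk k ⊆ U := fun k => Set.iUnion_subset fun s => s.2
    have hcov : ∀ T' ∈ U, ∃ k, T' ∈ Uk k := by
      intro T' hT'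
      obtain ⟨ε, hε, hball⟩ := Metric.isOpen_iff.1 hU T' hT'
      obtain ⟨k, hk⟩ := exists_pow_lt_of_lt_one hε (show (1 / 2 : ℝ) < 1 by norm_num)
      refine ⟨k, Set.mem_iUnion.2 ⟨⟨fun a b => fineIota ι cut k (T' a b), fun S hS => hball ?_⟩,
        fun a b => rfl⟩⟩
      rw [Metric.mem_ball, dist_pi_lt_iff hε]
      refine fun a => (dist_pi_lt_iff hε).2 fun b => ?_
      rw [Real.dist_eq]
      exact (fineIota_close hι (hS a b)).trans_lt hk
    have hmono : Monotone Uk := monotone_nat_of_le_succ fun k T' hT' => by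
      obtain ⟨s, hs⟩ := Set.mem_iUnion.1 hT'
      refine Set.mem_iUnion.2 ⟨⟨fun a b => fineIota ι cut (k + 1) (T' a b), fun S hS => s.2 ?_⟩,
        fun a b => rfl⟩
      intro a b
      rw [← hs a b]
      exact fineIota_refines hι (hS a b)
    have hU' : U = ⋃ k, Uk k := Set.Subset.antisymm
      (fun T' hT' => Set.mem_iUnion.2 (hcov T' hT')) (Set.iUnion_subset hsub)
    rw [hU', hmono.measure_iUnion, hmono.measure_iUnion]
    exact iSup_mono hUle
  have hle : μ₁ ≤ μ₂ := by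
    refine Measure.le_iff.2 fun E _ => le_of_forall_gt_imp_ge_of_dense fun r hr => ?_
    obtain ⟨U, hEU, hU, hUr⟩ := Set.exists_isOpen_lt_of_lt E r hr
    exact (measure_mono hEU).trans ((hopen U hU).trans hUr.le)
  have hwm : Measurable fun S => ENNReal.ofReal (w S) := hw.ennreal_ofReal
  have hsupp : Function.support (fun S => ENNReal.ofReal (w S)) ⊆ G := fun S hS => by
    by_contra hSG
    exact hS (by simp [hwG S hSG])
  have hint : ∀ u : Arr → ℝ, Measurable u → (∀ ω, 0 ≤ u ω) → (∀ ω, u ω ≤ B) →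
      ∫⁻ S, ENNReal.ofReal (w S)
          ∂(((ν.withDensity fun ω => ENNReal.ofReal (u ω)).map T).restrict G) =
        ENNReal.ofReal (∫ ω, w (T ω) * u ω ∂ν) := fun u hu hu0 huB => by
    have hwd : ∫⁻ ω, ENNReal.ofReal (w (T ω)) ∂ν.withDensity (fun ω => ENNReal.ofReal (u ω)) =
        ∫⁻ ω, ENNReal.ofReal (u ω) * ENNReal.ofReal (w (T ω)) ∂ν :=
      lintegral_withDensity_eq_lintegral_mul ν hu.ennreal_ofReal (hwm.comp hTm)
    rw [setLIntegral_eq_of_support_subset hsupp, lintegral_map hwm hTm, hwd,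
      ofReal_integral_eq_lintegral_ofReal (f := fun ω => w (T ω) * u ω) (μ := ν)
        (Integrable.of_bound ((hw.comp hTm).mul hu).aestronglyMeasurable (W * B)
          (Eventually.of_forall fun ω => by
            rw [Real.norm_eq_abs, abs_of_nonneg (mul_nonneg (hw0 _) (hu0 ω))]
            exact mul_le_mul (hwB _) (huB ω) (hu0 ω) ((hw0 (T ω)).trans (hwB _))))
        (Eventually.of_forall fun ω => mul_nonneg (hw0 _) (hu0 ω))]
    refine lintegral_congr fun ω => ?_
    rw [mul_comm, ← ENNReal.ofReal_mul (hw0 _)]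
  have := lintegral_mono' hle (le_refl fun S => ENNReal.ofReal (w S))
  rw [hμ₁, hμ₂, hint f hf hf0 hfB, hint g hg hg0 hgB] at this
  exact (ENNReal.ofReal_le_ofReal_iff
    (integral_nonneg fun ω => mul_nonneg (hw0 _) (hg0 ω))).1 this

/-- Comparisons on cells of the refinements give comparisons on measurable events. -/
theorem bound_of_cells₂ (h : IsTreeArray ν ρ) {ι : ℝ → ℤ} (hι : Monotone ι) (cut : ℝ) {n : ℕ}
    (G : Set (Mat n)) (hG : MeasurableSet G)
    (hdet : ∀ k, ∀ T T' : Mat n,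
      (∀ a b, fineIota ι cut k (T a b) = fineIota ι cut k (T' a b)) → T ∈ G → T' ∈ G)
    (f g : Arr → ℝ) (hf : Measurable f) (hg : Measurable g) {B : ℝ}
    (hfB : ∀ ω, |f ω| ≤ B) (hgB : ∀ ω, |g ω| ≤ B)
    (hcell : ∀ k (s : Pat n), patSet (fineIota ι cut k) s ⊆ G →
      PosPat ν (fineIota ι cut k) s →
      ∫ ω in cell (fineIota ι cut k) (idRep n) s, f ω ∂ν ≤
        ∫ ω in cell (fineIota ι cut k) (idRep n) s, g ω ∂ν)
    (E : Set (Mat n)) (hE : MeasurableSet E) (hEG : E ⊆ G) :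
    ∫ ω in tmat (idRep n) ⁻¹' E, f ω ∂ν ≤ ∫ ω in tmat (idRep n) ⁻¹' E, g ω ∂ν := by
  classical
  haveI := h.prob
  have hi : ∀ u : Arr → ℝ, Measurable u → (∀ ω, |u ω| ≤ B) → ∀ S : Set Arr,
      ∫ ω in S, (u ω + B) ∂ν = ∫ ω in S, u ω ∂ν + B * ν.real S := fun u hu huB S => by
    rw [integral_add (Integrable.of_bound hu.aestronglyMeasurable B
      (Eventually.of_forall fun ω => huB ω)) (integrable_const B), setIntegral_const, smul_eq_mul,
      mul_comm]
  have := bound_of_cells_weight h hι cut G hG hdet (fun ω => f ω + B) (fun ω => g ω + B)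
    (hf.add_const B) (fun ω => by linarith [(abs_le.1 (hfB ω)).1]) (B := 2 * B)
    (fun ω => by linarith [(abs_le.1 (hfB ω)).2])
    (hg.add_const B) (fun ω => by linarith [(abs_le.1 (hgB ω)).1])
    (fun ω => by linarith [(abs_le.1 (hgB ω)).2])
    (fun k s h1 h2 => by rw [hi f hf hfB, hi g hg hgB]; linarith [hcell k s h1 h2])
    (E.indicator 1) (measurable_one.indicator hE) (W := 1)
    (fun T => Set.indicator_nonneg (fun _ _ => zero_le_one) T)
    (fun T => Set.indicator_le_self' (fun _ _ => zero_le_one) T)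
    (fun T hT => Set.indicator_of_notMem (fun hTE => hT (hEG hTE)) _)
  have hS : MeasurableSet (tmat (idRep n) ⁻¹' E) := measurable_tmat _ hE
  have he : ∀ u : Arr → ℝ, (fun ω => E.indicator (1 : Mat n → ℝ) (tmat (idRep n) ω) * u ω) =
      (tmat (idRep n) ⁻¹' E).indicator u := fun u => by
    funext ω
    by_cases hω : tmat (idRep n) ω ∈ E <;> simp [hω]
  rw [he, he, integral_indicator hS, integral_indicator hS, hi f hf hfB, hi g hg hgB] at this
  linarith

/-- Bounds on cells of the refinements give bounds on measurable events. -/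
theorem bound_of_cells (h : IsTreeArray ν ρ) {ι : ℝ → ℤ} (hι : Monotone ι) (cut : ℝ) {n : ℕ}
    (G : Set (Mat n)) (hG : MeasurableSet G)
    (hdet : ∀ k, ∀ T T' : Mat n,
      (∀ a b, fineIota ι cut k (T a b) = fineIota ι cut k (T' a b)) → T ∈ G → T' ∈ G)
    (f : Arr → ℝ) (hf : Measurable f) (hf0 : ∀ ω, 0 ≤ f ω) {B : ℝ} (hfB : ∀ ω, f ω ≤ B) {C : ℝ}
    (hC : 0 ≤ C)
    (hcell : ∀ k (s : Pat n), patSet (fineIota ι cut k) s ⊆ G →
      PosPat ν (fineIota ι cut k) s →
      ∫ ω in cell (fineIota ι cut k) (idRep n) s, f ω ∂ν ≤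
        C * ν.real (cell (fineIota ι cut k) (idRep n) s))
    (E : Set (Mat n)) (hE : MeasurableSet E) (hEG : E ⊆ G) :
    ∫ ω in tmat (idRep n) ⁻¹' E, f ω ∂ν ≤ C * ν.real (tmat (idRep n) ⁻¹' E) := by
  haveI := h.prob
  have hc : ∀ S : Set Arr, ∫ _ω in S, C ∂ν = C * ν.real S := fun S => by
    rw [setIntegral_const, smul_eq_mul, mul_comm]
  rw [← hc]
  refine bound_of_cells₂ h hι cut G hG hdet f (fun _ => C) hf measurable_const (B := max B C)
    (fun ω => by rw [abs_of_nonneg (hf0 ω)]; exact (hfB ω).trans (le_max_left _ _))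
    (fun _ => by rw [abs_of_nonneg hC]; exact le_max_right _ _)
    (fun k s h1 h2 => (hcell k s h1 h2).trans_eq (hc _).symm) E hE hEG

end Vale.Agent.P168.Structure
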