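import Vale.Agent.P168.Structure.SecondTools

/-! The second moment of a shape with an automorphism exchanging the pins. -/

open MeasureTheory ProbabilityTheory Filter
open scoped BigOperators NNReal ENNReal Topology

noncomputable section

namespace Vale.Agent.P168.Structure

open Vale.Agent.P168

variable {ν : Measure Arr} {ρ : ℝ} {d : ℕ}

theorem shape_det₂ {ι ι₂ : ℝ → ℤ} {cut : ℝ}
    (href : ∀ x y, ι₂ x = ι₂ y → ι x = ι y ∧ (cut < x ↔ cut < y)) {τ : Pat (2 + d)}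
    {T T' : Mat (2 + d)} (h : ∀ a b, ι₂ (T a b) = ι₂ (T' a b)) (hT : T ∈ shapeSet ι cut τ) :
    T' ∈ shapeSet ι cut τ := fun a b hab => by
  obtain ⟨e1, e2⟩ := href _ _ (h a b)
  exact ⟨e1.symm.trans (hT a b hab).1,
    not_lt.1 fun hlt => absurd (e2.2 hlt) (not_lt.2 (hT a b hab).2)⟩

/-- A pair of fine shapes inside the shape `I` with the same cell of the pins. -/
def PairOK (ν : Measure Arr) (ι : ℝ → ℤ) (I : Set (Mat (2 + d))) (s₁ s₂ : Pat (2 + d)) : Prop :=
  PosPat ν ι s₁ ∧ PosPat ν ι s₂ ∧ patSet ι s₁ ⊆ I ∧ patSet ι s₂ ⊆ I ∧ pat01 s₁ = pat01 s₂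

/-- The kernel of the master overlaps of `d` replicas given the overlap of the pins. -/
def pinKernel (ν : Measure Arr) [IsFiniteMeasure ν] (d : ℕ) : Kernel ℝ (Mat (2 + d)) :=
  (ν.map fun ω => (rbar 0 1 ω, tmat (idRep (2 + d)) ω)).condKernel

instance [IsFiniteMeasure ν] (d : ℕ) : IsMarkovKernel (pinKernel ν d) :=
  inferInstanceAs (IsMarkovKernel (Measure.condKernel _))

theorem pinKernel_law [IsFiniteMeasure ν] (d : ℕ) :
    ν.map (fun ω => (rbar 0 1 ω, tmat (idRep (2 + d)) ω)) = overlapLaw ν ⊗ₘ pinKernel ν d := by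
  have h : (ν.map fun ω => (rbar 0 1 ω, tmat (idRep (2 + d)) ω)).fst = overlapLaw ν :=
    Measure.fst_map_prodMk (measurable_tmat _)
  rw [pinKernel, ← h]
  exact (Measure.disintegrate _ _).symm

/-- The kernel gives the shape the constant mass `shapeDen` on the possible overlaps of its pins. -/
theorem pinKernel_shape (h : IsTreeArray ν ρ) [IsProbabilityMeasure ν] {ι : ℝ → ℤ}
    (hι : Monotone ι) {cut : ℝ} {τ : Pat (2 + d)} (hpos : 0 < ν.real (shapeEv ι cut τ)) :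
    ∀ᵐ q ∂overlapLaw ν, q ∈ pinSet ι cut τ →
      (pinKernel ν d q).real (shapeSet ι cut τ) = shapeDen ν ι cut τ := by
  haveI := overlapLaw_prob h
  set A := pinSet ι cut τ
  have hA : MeasurableSet A := measurableSet_pinSet hι cut τ
  set I := shapeSet ι cut τ
  have hI : MeasurableSet I := measurableSet_shapeSet hι cut τ
  have hm : Measurable fun q => (pinKernel ν d q).real I :=
    ((pinKernel ν d).measurable_coe hI).ennreal_toReal
  have hi : Integrable (fun q => (pinKernel ν d q).real I) ((overlapLaw ν).restrict A) :=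
    Integrable.of_bound hm.aestronglyMeasurable 1 (Eventually.of_forall fun q => by
      rw [Real.norm_eq_abs, abs_of_nonneg measureReal_nonneg]; exact measureReal_le_one)
  have hae : (fun q => (pinKernel ν d q).real I) =ᵐ[(overlapLaw ν).restrict A]
      fun _ => shapeDen ν ι cut τ := by
    refine hi.ae_eq_of_forall_setIntegral_eq _ _ (integrable_const _) fun J₀ hJ₀ _ => ?_
    rw [Measure.restrict_restrict hJ₀, setIntegral_const, smul_eq_mul]
    have hJ : MeasurableSet (J₀ ∩ A) := hJ₀.inter hA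
    have e : ν.real (shapeEv ι cut τ ∩ rbar 0 1 ⁻¹' (J₀ ∩ A)) =
        ∫ q in J₀ ∩ A, (pinKernel ν d q).real I ∂overlapLaw ν := by
      have h1 := Measure.compProd_apply_prod (μ := overlapLaw ν) (κ := pinKernel ν d) hJ hI
      rw [← pinKernel_law, Measure.map_apply ((measurable_rbar 0 1).prodMk (measurable_tmat _))
        (hJ.prod hI)] at h1
      rw [Set.inter_comm, Measure.real, show rbar 0 1 ⁻¹' (J₀ ∩ A) ∩ shapeEv ι cut τ =
        (fun ω => (rbar 0 1 ω, tmat (idRep (2 + d)) ω)) ⁻¹' ((J₀ ∩ A) ×ˢ I) from rfl, h1]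
      refine (integral_toReal ((pinKernel ν d).measurable_coe hI).aemeasurable.restrict
        (Eventually.of_forall fun q => measure_lt_top _ _)).symm
    rw [← e, shape_law h hι hpos hJ Set.inter_subset_right, mul_comm]
  exact ae_imp_of_ae_restrict hae

/-- The function of two configurations given by a family of pair means. -/
def pairFun (ι : ℝ → ℤ) (wf : Pat (2 + d) → Pat (2 + d) → ℝ → ℝ)
    (S T : Mat (2 + d)) : ℝ :=
  wf (code ι S) (code ι T) (qval S)

theorem measurable_pairFun {ι : ℝ → ℤ} (hι : Monotone ι)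
    {wf : Pat (2 + d) → Pat (2 + d) → ℝ → ℝ}
    (hwfm : ∀ s₁ s₂, Measurable (wf s₁ s₂) ∧ ∀ q, |wf s₁ s₂ q| ≤ 1) :
    Measurable (Function.uncurry (pairFun ι wf)) := by
  have h1 : Measurable fun z : (Pat (2 + d) × Pat (2 + d)) × ℝ => wf z.1.1 z.1.2 z.2 :=
    measurable_from_prod_countable_right fun p => (hwfm p.1 p.2).1
  exact h1.comp ((((measurable_code hι _).comp measurable_fst).prodMk
    ((measurable_code hι _).comp measurable_snd)).prodMk
    ((measurable_qval d).comp measurable_fst))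

/-- Products of two fine shapes differ from their pair mean by little. -/
theorem pair_error
    (hT : IsTreeArray ν ρ) [IsProbabilityMeasure ν] {θ : ℝ} (hθ : 0 < θ) {m : ℕ}
    {ι : ℝ → ℤ} {τ : Pat (2 + d)} {ι₂ : ℝ → ℤ}
    (href : ∀ x y, ι₂ x = ι₂ y → ι x = ι y ∧ (ρ - θ < x ↔ ρ - θ < y))
    {wf : Pat (2 + d) → Pat (2 + d) → ℝ → ℝ}
    (hwf : ∀ s₁ s₂, PairOK ν ι₂ (shapeSet ι (ρ - θ) τ) s₁ s₂ → IsPairMean ν ι₂ s₁ s₂ (wf s₁ s₂))
    (hwfm : ∀ s₁ s₂, Measurable (wf s₁ s₂) ∧ ∀ q, |wf s₁ s₂ q| ≤ 1)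
    {η₂ δ₂ : ℝ} (hη₂ : 0 < η₂) (hη₂1 : η₂ ≤ 1) (hι : Monotone ι) (hmesh₂ : IsMesh ρ δ₂ ι₂)
    (hD₂ : DoublesBd ν ρ δ₂ (θ / 2) (η₂ ^ 4) m)
    (hclass : ∀ (u : Fin (2 + d) → ℕ) (ω : Arr), GoodPt ρ ω →
      tmat u ω ∈ shapeSet ι (ρ - θ) τ →
      ∀ ι' : ℝ → ℤ, Monotone ι' → ClassesLE (code ι' (tmat u ω)) m)
    (u u' : Fin (2 + d) → ℕ) (hu : Function.Injective u) (hu' : Function.Injective u')
    (hub : ∀ i, u i < 2 + 2 * d ∧ u' i < 2 + 2 * d)
    (hpins : ∀ i, i.val < 2 → u i = i.val ∧ u' i = i.val)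
    (E : Set (Mat (2 + 2 * d))) (hE : MeasurableSet E) :
    |∫ ω in {ω | tmat (idRep (2 + 2 * d)) ω ∈ E ∧ tmat u ω ∈ shapeSet ι (ρ - θ) τ ∧
        tmat u' ω ∈ shapeSet ι (ρ - θ) τ},
        (rset (List.ofFn u) ω * rset (List.ofFn u') ω -
          pairFun ι₂ wf (tmat u ω) (tmat u' ω)) ∂ν| ≤
      72 * η₂ * d * ν.real {ω | tmat (idRep (2 + 2 * d)) ω ∈ E} := by
  have hι₂ : Monotone ι₂ := hmesh₂.1
  set cut := ρ - θ with hcut
  set I := shapeSet ι cut τ with hIdef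
  set W : Mat (2 + d) → Mat (2 + d) → ℝ := pairFun ι₂ wf with hW
  have hWm : Measurable (Function.uncurry W) := measurable_pairFun hι₂ hwfm
  have hWb : ∀ S T, |W S T| ≤ 1 := fun S T => (hwfm _ _).2 _
  have hI : MeasurableSet I := measurableSet_shapeSet hι cut τ
  set uF : Fin (2 + d) → Fin (2 + 2 * d) := fun i => ⟨u i, (hub i).1⟩ with huFdef
  set vF : Fin (2 + d) → Fin (2 + 2 * d) := fun i => ⟨u' i, (hub i).2⟩ with hvFdef
  have huF : Function.Injective uF := fun a b e => hu (Fin.mk.inj e)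
  have hvF : Function.Injective vF := fun a b e => hu' (Fin.mk.inj e)
  have hup : ∀ p : Fin 2, uF (Fin.castAdd d p) = Fin.castAdd (2 * d) p := fun p =>
    Fin.ext (hpins (Fin.castAdd d p) p.isLt).1
  have hvp : ∀ p : Fin 2, vF (Fin.castAdd d p) = Fin.castAdd (2 * d) p := fun p =>
    Fin.ext (hpins (Fin.castAdd d p) p.isLt).2
  set G : Set (Mat (2 + 2 * d)) := (fun T a b => T (uF a) (uF b)) ⁻¹' I ∩
    (fun T a b => T (vF a) (vF b)) ⁻¹' I
  have hG : MeasurableSet G :=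
    ((by fun_prop : Measurable fun (T : Mat (2 + 2 * d)) a b => T (uF a) (uF b)) hI).inter
      ((by fun_prop : Measurable fun (T : Mat (2 + 2 * d)) a b => T (vF a) (vF b)) hI)
  have hdetG : ∀ k', ∀ T T' : Mat (2 + 2 * d),
      (∀ a b, fineIota ι₂ cut k' (T a b) = fineIota ι₂ cut k' (T' a b)) → T ∈ G → T' ∈ G :=
    fun k' T T' hTT hT' =>
      ⟨shape_det₂ href (fun a b => (fineIota_eq hι₂ (hTT _ _)).1) hT'.1,
        shape_det₂ href (fun a b => (fineIota_eq hι₂ (hTT _ _)).1) hT'.2⟩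
  set f : Arr → ℝ := fun ω =>
    rset (List.ofFn u) ω * rset (List.ofFn u') ω - W (tmat u ω) (tmat u' ω) with hfdef
  have hfm : Measurable f := ((measurable_rset _).mul (measurable_rset _)).sub
    (hWm.comp ((measurable_tmat u).prodMk (measurable_tmat u')))
  have hfb : ∀ ω, |f ω| ≤ 2 := fun ω => (abs_sub _ _).trans (by
    rw [abs_mul]
    linarith [mul_le_one₀ (abs_rset_le (List.ofFn u) ω) (abs_nonneg _)
      (abs_rset_le (List.ofFn u') ω), hWb (tmat u ω) (tmat u' ω)])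
  have hset : {ω | tmat (idRep (2 + 2 * d)) ω ∈ E ∧ tmat u ω ∈ I ∧ tmat u' ω ∈ I} =
      tmat (idRep (2 + 2 * d)) ⁻¹' (E ∩ G) := rfl
  have hσb : ∀ σ : ℝ, |σ| ≤ 1 → σ * ∫ ω in tmat (idRep (2 + 2 * d)) ⁻¹' (E ∩ G), f ω ∂ν ≤
      72 * η₂ * d * ν.real (tmat (idRep (2 + 2 * d)) ⁻¹' (E ∩ G)) := by
    intro σ hσ
    have hε : 0 ≤ 72 * η₂ * (d : ℝ) := by positivity
    have hmain := bound_of_cells₂ hT hι₂ cut G hG hdetG (fun ω => σ * f ω)
      (fun _ => 72 * η₂ * d) (hfm.const_mul σ) measurable_const (B := max 2 (72 * η₂ * d))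
      (fun ω => by
        rw [abs_mul]
        exact le_trans (mul_le_of_le_one_left (abs_nonneg _) hσ)
          ((hfb ω).trans (le_max_left _ _)))
      (fun ω => by rw [abs_of_nonneg hε]; exact le_max_right _ _)
      (fun k' s hsG hs => ?_) (E ∩ G) (hE.inter hG) Set.inter_subset_right
    · rw [integral_const_mul, setIntegral_const, smul_eq_mul] at hmain
      linarith
    set ιf := fineIota ι₂ cut k' with hιf'
    have hιf : Monotone ιf := monotone_fineIota hι₂ cut k'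
    obtain ⟨ω₀, hω₀, hg₀⟩ := exists_good_mem hT hs
    set s₁ := code ι₂ (tmat u ω₀) with hs₁def
    set s₂ := code ι₂ (tmat u' ω₀) with hs₂def
    have hsu : ∀ T ∈ patSet ιf s, (fun a b => T (uF a) (uF b)) ∈ patSet ι₂ s₁ := fun T hT' a b =>
      (fineIota_eq hι₂ ((hT' (uF a) (uF b)).trans (hω₀ (uF a) (uF b)).symm)).1
    have hsv : ∀ T ∈ patSet ιf s, (fun a b => T (vF a) (vF b)) ∈ patSet ι₂ s₂ := fun T hT' a b =>
      (fineIota_eq hι₂ ((hT' (vF a) (vF b)).trans (hω₀ (vF a) (vF b)).symm)).1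
    obtain ⟨hI₁, hI₂⟩ : tmat u ω₀ ∈ I ∧ tmat u' ω₀ ∈ I :=
      hsG (show tmat (idRep (2 + 2 * d)) ω₀ ∈ patSet ιf s from hω₀)
    have hsub₁ : patSet ι₂ s₁ ⊆ I := fun T hT' =>
      shape_det₂ href (fun a b => (hT' a b).symm) hI₁
    have hsub₂ : patSet ι₂ s₂ ⊆ I := fun T hT' =>
      shape_det₂ href (fun a b => (hT' a b).symm) hI₂
    have hposw : ∀ (w : Fin (2 + d) → Fin (2 + 2 * d)), Function.Injective w → ∀ t : Pat (2 + d),
        (∀ T ∈ patSet ιf s, (fun a b => T (w a) (w b)) ∈ patSet ι₂ t) → PosPat ν ι₂ t := by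
      intro w hw t ht
      have h1 := integral_cell_reindex hT.toIsGGArray hι₂ w hw t (fun _ => (1 : ℝ))
      rw [setIntegral_const, setIntegral_const, smul_eq_mul, smul_eq_mul, mul_one, mul_one] at h1
      exact lt_of_lt_of_le hs
        ((measureReal_mono fun ω hω => ht (tmat (idRep (2 + 2 * d)) ω) hω).trans_eq h1)
    have hpin : pat01 s₁ = pat01 s₂ := by
      simp only [hs₁def, hs₂def, pat01, code, tmat, (hpins (Fin.castAdd d 0) (by simp)).1,
        (hpins (Fin.castAdd d 1) (by simp)).1, (hpins (Fin.castAdd d 0) (by simp)).2,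
        (hpins (Fin.castAdd d 1) (by simp)).2]
    have hok : PairOK ν ι₂ I s₁ s₂ :=
      ⟨hposw uF huF s₁ hsu, hposw vF hvF s₂ hsv, hsub₁, hsub₂, hpin⟩
    have hlow : ∀ t, patSet ι₂ t ⊆ I → patSet ι₂ t ⊆ shapeSet ι₂ (ρ - θ / 2) t :=
      fun t ht T hT' a b hab => ⟨hT' a b, le_trans (ht hT' a b hab).2 (by rw [hcut]; linarith)⟩
    have hpc := pair_cell hT (ι := ι₂) (θ := θ / 2) hη₂ hη₂1 hD₂ hmesh₂
      (hclass u ω₀ hg₀ hI₁ ι₂ hι₂) (hclass u' ω₀ hg₀ hI₂ ι₂ hι₂) (hlow s₁ hsub₁) (hlow s₂ hsub₂)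
      (hwf s₁ s₂ hok) hσ hιf (fun x y e => (fineIota_eq hι₂ e).1) uF vF huF hvF hup hvp s hs
      hsu hsv
    have hCm : MeasurableSet (cell ιf (idRep (2 + 2 * d)) s) := measurableSet_cell hιf _ _
    have hWeq : ∀ ω ∈ cell ιf (idRep (2 + 2 * d)) s,
        σ * f ω = σ * (rset (repList uF) ω * rset (repList vF) ω) -
          σ * wf s₁ s₂ (rbar 0 1 ω) := by
      intro ω hω
      have e1 : code ι₂ (tmat u ω) = s₁ := by
        funext a b
        exact hsu (tmat (idRep (2 + 2 * d)) ω) hω a b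
      have e2 : code ι₂ (tmat u' ω) = s₂ := by
        funext a b
        exact hsv (tmat (idRep (2 + 2 * d)) ω) hω a b
      have e3 : qval (tmat u ω) = rbar 0 1 ω := by
        simp only [qval, tmat, (hpins (Fin.castAdd d 0) (by simp)).1,
          (hpins (Fin.castAdd d 1) (by simp)).1]
        rfl
      simp only [hfdef, hW, pairFun, e1, e2, e3]
      show _ = σ * (rset (List.ofFn u) ω * rset (List.ofFn u') ω) - _
      ring
    have hwm := (hwfm s₁ s₂).1
    have hwb := (hwfm s₁ s₂).2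
    have i1 : IntegrableOn (fun ω => σ * (rset (repList uF) ω * rset (repList vF) ω))
        (cell ιf (idRep (2 + 2 * d)) s) ν :=
      (integrable_of_bdd (f := fun ω => σ * (rset (repList uF) ω * rset (repList vF) ω))
        (((measurable_rset _).mul (measurable_rset _)).const_mul σ) (C := 1)
        fun ω => by
          rw [abs_mul, abs_mul]
          exact mul_le_one₀ hσ (by positivity)
            (mul_le_one₀ (abs_rset_le _ _) (abs_nonneg _) (abs_rset_le _ _))).integrableOn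
    have i2 : IntegrableOn (fun ω => σ * wf s₁ s₂ (rbar 0 1 ω))
        (cell ιf (idRep (2 + 2 * d)) s) ν :=
      (integrable_of_bdd ((hwm.comp (measurable_rbar 0 1)).const_mul σ) (C := 1)
        fun ω => by
          rw [abs_mul]
          exact mul_le_one₀ hσ (abs_nonneg _) (hwb _)).integrableOn
    rw [integral_add i2 (integrable_const _)] at hpc
    rw [setIntegral_congr_fun hCm hWeq, integral_sub i1 i2]
    linarith
  have h1 := hσb 1 (by norm_num)
  have h2 := hσb (-1) (by norm_num)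
  have h3 : ν.real (tmat (idRep (2 + 2 * d)) ⁻¹' (E ∩ G)) ≤
      ν.real {ω | tmat (idRep (2 + 2 * d)) ω ∈ E} := measureReal_mono fun ω hω => hω.1
  have h4 := mul_le_mul_of_nonneg_left h3 (show 0 ≤ 72 * η₂ * (d : ℝ) by positivity)
  rw [hset, abs_le]
  constructor <;> linarith

/-- The kernel mean of the pair function is at least the second moment. -/
theorem kernel_lower
    (hT : IsTreeArray ν ρ) [IsProbabilityMeasure ν] {θ : ℝ} (hθ : 0 < θ) {m : ℕ}
    {ι : ℝ → ℤ} {τ : Pat (2 + d)} {ι₂ : ℝ → ℤ}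
    (href : ∀ x y, ι₂ x = ι₂ y → ι x = ι y ∧ (ρ - θ < x ↔ ρ - θ < y))
    {wf : Pat (2 + d) → Pat (2 + d) → ℝ → ℝ}
    (hwf : ∀ s₁ s₂, PairOK ν ι₂ (shapeSet ι (ρ - θ) τ) s₁ s₂ → IsPairMean ν ι₂ s₁ s₂ (wf s₁ s₂))
    (hwfm : ∀ s₁ s₂, Measurable (wf s₁ s₂) ∧ ∀ q, |wf s₁ s₂ q| ≤ 1)
    {η δ : ℝ} (hη : 0 < η) (hη1 : η ≤ 1) (hD : DoublesBd ν ρ δ (θ / 2) (η ^ 4) m)
    (hι : IsMesh ρ δ ι) (hι₂ : Monotone ι₂) (hcl : ClassesLE τ m)
    (hpos : 0 < ν.real (shapeEv ι (ρ - θ) τ)) {m₂ : ℝ → ℝ}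
    (hm₂ : IsShapeMean ν ι (ρ - θ) τ (fun ω => fullOverlap d ω ^ 2) m₂) :
    ∀ᵐ q ∂overlapLaw ν, q ∈ pinSet ι (ρ - θ) τ →
      shapeDen ν ι (ρ - θ) τ ^ 2 * (m₂ q - 72 * η * d) ≤
        ∫ S in shapeSet ι (ρ - θ) τ, ∫ T in shapeSet ι (ρ - θ) τ, pairFun ι₂ wf S T
          ∂pinKernel ν d q ∂pinKernel ν d q := by
  haveI := overlapLaw_prob hT
  set cut := ρ - θ with hcut
  set I := shapeSet ι cut τ with hIdef
  set W : Mat (2 + d) → Mat (2 + d) → ℝ := pairFun ι₂ wf with hW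
  have hWm : Measurable (Function.uncurry W) := measurable_pairFun hι₂ hwfm
  have hWb : ∀ S T, |W S T| ≤ 1 := fun S T => (hwfm _ _).2 _
  have hI : MeasurableSet I := measurableSet_shapeSet hι.1 cut τ
  set A := pinSet ι cut τ with hAdef
  set b₀ := shapeDen ν ι cut τ with hb₀def
  have hinner : ∀ q S, |∫ T in I, W S T ∂pinKernel ν d q| ≤ 1 := fun q S => by
    refine (norm_setIntegral_le_of_norm_le_const (f := fun T => W S T) (C := 1)
      (measure_lt_top _ _) fun T _ => hWb S T).trans ?_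
    rw [one_mul]
    exact measureReal_le_one
  have hpair : ∀ᵐ q ∂overlapLaw ν, ∀ s₁ s₂, PairOK ν ι₂ I s₁ s₂ →
      q ∈ ι₂ ⁻¹' {pat01 s₁} ∩ A → m₂ q - 72 * η * d ≤ wf s₁ s₂ q := by
    simp only [ae_all_iff]
    intro s₁ s₂ hok
    exact ae_imp_of_ae_restrict (pair_lower hT hθ hη hη1 hD hι hcl hpos hm₂ hι₂
      href hok.2.2.1 hok.2.2.2.1 (hwf s₁ s₂ hok))
  have hcarry : ∀ᵐ q ∂overlapLaw ν, ∀ᵐ S ∂pinKernel ν d q,
      qval S = q ∧ PosPat ν ι₂ (code ι₂ S) := by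
    refine Measure.ae_ae_of_ae_compProd
      (p := fun z : ℝ × Mat (2 + d) => qval z.2 = z.1 ∧ PosPat ν ι₂ (code ι₂ z.2)) ?_
    have hms : MeasurableSet
        {z : ℝ × Mat (2 + d) | qval z.2 = z.1 ∧ PosPat ν ι₂ (code ι₂ z.2)} :=
      (measurableSet_eq_fun ((measurable_qval d).comp measurable_snd) measurable_fst).inter
        (((measurable_code hι₂ _).comp measurable_snd)
          (MeasurableSet.of_discrete (s := {s : Pat (2 + d) | PosPat ν ι₂ s})))
    rw [← pinKernel_law, ae_map_iff ((measurable_rbar 0 1).prodMk (measurable_tmat _)).aemeasurable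
      hms]
    have hnull : ∀ᵐ ω ∂ν, ∀ s : Pat (2 + d), ω ∈ cell ι₂ (idRep (2 + d)) s → PosPat ν ι₂ s := by
      rw [ae_all_iff]
      intro s
      by_cases hs : PosPat ν ι₂ s
      · exact Eventually.of_forall fun _ _ => hs
      · have h0 : ν (cell ι₂ (idRep (2 + d)) s) = 0 :=
          (measureReal_eq_zero_iff).1 (le_antisymm (not_lt.1 hs) measureReal_nonneg)
        filter_upwards [measure_eq_zero_iff_ae_notMem.1 h0] with ω hω h' using absurd h' hω
    filter_upwards [hnull] with ω hω using ⟨rfl, hω _ fun a b => rfl⟩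
  filter_upwards [hpair, hcarry, pinKernel_shape hT hι.1 hpos] with q hqp hqc hqb hqA
  set κq := pinKernel ν d q with hκq
  have hκI : κq.real I = b₀ := hqb hqA
  have hWlow : ∀ᵐ S ∂κq.restrict I, ∀ᵐ T ∂κq.restrict I,
      m₂ q - 72 * η * d ≤ W S T := by
    filter_upwards [ae_restrict_of_ae hqc, ae_restrict_mem hI] with S hS hSI
    filter_upwards [ae_restrict_of_ae hqc, ae_restrict_mem hI] with T hT' hTI
    have hok : PairOK ν ι₂ I (code ι₂ S) (code ι₂ T) :=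
      ⟨hS.2, hT'.2, fun T'' h'' => shape_det₂ href (fun a b => (h'' a b).symm) hSI,
        fun T'' h'' => shape_det₂ href (fun a b => (h'' a b).symm) hTI,
        (congrArg ι₂ (hS.1.trans hT'.1.symm) : _)⟩
    have := hqp _ _ hok ⟨(congrArg ι₂ hS.1.symm : _), hqA⟩
    show _ ≤ wf _ _ (qval S)
    rw [hS.1]
    exact this
  have hout : ∀ᵐ S ∂κq.restrict I, b₀ * (m₂ q - 72 * η * d) ≤ ∫ T in I, W S T ∂κq := by
    filter_upwards [hWlow] with S hS
    have h1 := integral_mono_ae (integrable_const _) (Integrable.of_bound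
      (hWm.comp (measurable_const.prodMk measurable_id)).aestronglyMeasurable 1
      (Eventually.of_forall fun T => hWb S T)) hS
    rw [setIntegral_const, smul_eq_mul, hκI] at h1
    exact h1
  have h2 := integral_mono_ae (integrable_const _) (Integrable.of_bound
    (hWm.stronglyMeasurable.integral_prod_right (ν := κq.restrict I)).measurable.aestronglyMeasurable
    1 (Eventually.of_forall fun S => hinner q S)) hout
  rw [setIntegral_const, smul_eq_mul, hκI] at h2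
  rw [sq, mul_assoc]
  exact h2

/-- The variance identity for one shape, with one fine partition. -/
theorem second_key (hc : IsCoreArray ν ρ) {θ : ℝ} (hθ : 0 < θ) {m : ℕ}
    (π : Equiv.Perm (Fin (2 + d))) (hπ1 : ∀ i, (π i).val < 2 ↔ i.val < 2)
    (hπ2 : ∀ i : Fin (2 + d), i.val < 2 → π i ≠ i) {η δ : ℝ} (hη : 0 < η) (hη1 : η ≤ 1)
    (hD : DoublesBd ν ρ δ (θ / 2) (η ^ 4) m) {ι : ℝ → ℤ} (hι : IsMesh ρ δ ι) {τ : Pat (2 + d)}
    (hgood : StepGood m π τ) (hpos : 0 < ν.real (shapeEv ι (ρ - θ) τ)) {m₁ m₂ : ℝ → ℝ}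
    (hm₁ : IsShapeMean ν ι (ρ - θ) τ (fullOverlap d) m₁)
    (hm₂ : IsShapeMean ν ι (ρ - θ) τ (fun ω => fullOverlap d ω ^ 2) m₂) :
    ∃ C : ℝ, ∀ η₂ δ₂ : ℝ, 0 < η₂ → η₂ ≤ 1 → 0 < δ₂ → DoublesBd ν ρ δ₂ (θ / 2) (η₂ ^ 4) m →
      ∀ J, MeasurableSet J → J ⊆ pinSet ι (ρ - θ) τ →
        shapeDen ν ι (ρ - θ) τ ^ 2 *
            (∫ q in J, (m₂ q - 72 * η * d) ∂overlapLaw ν - ∫ q in J, m₁ q ^ 2 ∂overlapLaw ν) ≤
          C * (72 * η₂ * d) := by
  classical
  have hT : IsTreeArray ν ρ := hc.toIsTreeArray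
  haveI := hT.prob
  haveI := overlapLaw_prob hT
  obtain ⟨C, hC⟩ := hc.var_id d
  refine ⟨C, fun η₂ δ₂ hη₂ hη₂1 hδ₂ hD₂ J hJ hJA => ?_⟩
  set cut := ρ - θ with hcut
  set A := pinSet ι cut τ with hAdef
  have hA : MeasurableSet A := measurableSet_pinSet hι.1 cut τ
  set I := shapeSet ι cut τ with hIdef
  have hI : MeasurableSet I := measurableSet_shapeSet hι.1 cut τ
  set b₀ := shapeDen ν ι cut τ with hb₀def
  have hb₀ : 0 < b₀ := shapeDen_pos hT hι.1 hpos
  have hb₀1 : b₀ ≤ 1 := by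
    rw [hb₀def, shapeDen, div_le_one (pinSet_mass_pos hT hι.1 hpos), overlapLaw,
      map_measureReal_apply (measurable_rbar 0 1) hA]
    exact measureReal_mono fun ω hω => qval_mem_pinSet hω
  have hclass : ∀ (u : Fin (2 + d) → ℕ) (ω : Arr), GoodPt ρ ω → tmat u ω ∈ I →
      ∀ ι' : ℝ → ℤ, Monotone ι' → ClassesLE (code ι' (tmat u ω)) m := fun u ω hg hω =>
    hgood.2 ι hι.1 (tmat u ω)
      ⟨fun a b => (hg (u a) (u b) 0).1, fun a b c => (hg (u a) (u b) (u c)).2.2.2⟩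
      (fun a b hab => (hω a b hab).1)
  obtain ⟨ω₁, hω₁, hg₁⟩ := exists_good_mem hT hpos
  have hcl : ClassesLE τ m :=
    classesLE_congr (fun a b hab => ((hω₁ a b hab).1).symm) (hclass _ ω₁ hg₁ hω₁ ι hι.1)
  obtain ⟨k, hk⟩ := exists_pow_lt_of_lt_one hδ₂ (show (1 / 2 : ℝ) < 1 by norm_num)
  set ι₂ := fineIota ι cut k with hι₂def
  have hι₂ : Monotone ι₂ := monotone_fineIota hι.1 cut k
  have hmesh₂ : IsMesh ρ δ₂ ι₂ :=
    ⟨hι₂, fun x _ y _ e => (fineIota_close hι.1 e).trans hk.le⟩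
  have href : ∀ x y, ι₂ x = ι₂ y → ι x = ι y ∧ (cut < x ↔ cut < y) := fun x y e =>
    ⟨(fineIota_eq hι.1 e).1, (fineIota_eq hι.1 e).2.2⟩
  let wf : Pat (2 + d) → Pat (2 + d) → ℝ → ℝ := fun s₁ s₂ =>
    if h : PairOK ν ι₂ I s₁ s₂ then
      (exists_pairMean hT hι₂ s₁ s₂ h.1 h.2.1 h.2.2.2.2).choose
    else fun _ => 0
  have hwf : ∀ s₁ s₂, PairOK ν ι₂ I s₁ s₂ → IsPairMean ν ι₂ s₁ s₂ (wf s₁ s₂) := fun s₁ s₂ h => by
    simp only [wf, dif_pos h]
    exact (exists_pairMean hT hι₂ s₁ s₂ h.1 h.2.1 h.2.2.2.2).choose_spec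
  have hwfm : ∀ s₁ s₂, Measurable (wf s₁ s₂) ∧ ∀ q, |wf s₁ s₂ q| ≤ 1 := fun s₁ s₂ => by
    by_cases h : PairOK ν ι₂ I s₁ s₂
    · exact ⟨(hwf _ _ h).1, (hwf _ _ h).2.1⟩
    · simp only [wf, dif_neg h]
      exact ⟨measurable_const, fun q => by simp⟩
  set W : Mat (2 + d) → Mat (2 + d) → ℝ := pairFun ι₂ wf with hW
  have hWm : Measurable (Function.uncurry W) := measurable_pairFun hι₂ hwfm
  have hWb : ∀ S T, |W S T| ≤ 1 := fun S T => (hwfm _ _).2 _
  have hWε : ∀ u u' : Fin (2 + d) → ℕ, Function.Injective u → Function.Injective u' →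
      (∀ i, u i < 2 + 2 * d ∧ u' i < 2 + 2 * d) →
      (∀ i, i.val < 2 → u i = i.val ∧ u' i = i.val) →
      ∀ E : Set (Mat (2 + 2 * d)), MeasurableSet E →
        |∫ ω in {ω | tmat (idRep (2 + 2 * d)) ω ∈ E ∧ tmat u ω ∈ I ∧ tmat u' ω ∈ I},
            (rset (List.ofFn u) ω * rset (List.ofFn u') ω - W (tmat u ω) (tmat u' ω)) ∂ν| ≤
          72 * η₂ * d * ν.real {ω | tmat (idRep (2 + 2 * d)) ω ∈ E} :=
    fun u u' hu hu' hub hpins E hE =>
      pair_error hT hθ href hwf hwfm hη₂ hη₂1 hι.1 hmesh₂ hD₂ hclass u u' hu hu' hub hpins E hE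
  obtain ⟨hm₁m, hm₁b, hm₁i⟩ := hm₁
  obtain ⟨hm₂m, hm₂b, hm₂i⟩ := hm₂
  set c : ℝ → ℝ := A.indicator fun q => b₀ * m₁ q with hcdef
  have hcm : Measurable c := (hm₁m.const_mul b₀).indicator hA
  have hmb₀ : ∀ q, |b₀ * m₁ q| ≤ 1 := fun q => by
    rw [abs_mul, abs_of_pos hb₀]
    exact mul_le_one₀ hb₀1 (abs_nonneg _) (hm₁b q)
  have hcb : ∀ q, |c q| ≤ 1 := fun q => by
    by_cases hq : q ∈ A
    · simpa [hcdef, hq] using hmb₀ q
    · simp [hcdef, hq]
  have hcI : ∀ g : ℝ → ℝ, Measurable g → (∀ q, |g q| ≤ 1) →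
      ∫ ω, g (rbar 0 1 ω) * (I.indicator 1 (tmat (idRep (2 + d)) ω) *
          rset (List.ofFn (idRep (2 + d))) ω) ∂ν =
        ∫ ω, g (rbar 0 1 ω) * c (rbar 0 1 ω) ∂ν := by
    intro g hg hgb
    have e := law_ext hT (measurableSet_shapeEv hι.1 cut τ) hA (fun ω hω => qval_mem_pinSet hω)
      (measurable_fullOverlap d) (abs_fullOverlap_le d) (hm₁m.const_mul b₀) hmb₀
      (fun J' hJ' hJ'A => by rw [integral_const_mul]; exact hm₁i J' hJ' hJ'A) hg hgb
    have e2 : ∫ q, g q * c q ∂overlapLaw ν = ∫ ω, g (rbar 0 1 ω) * c (rbar 0 1 ω) ∂ν :=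
      integral_map (measurable_rbar 0 1).aemeasurable (hg.mul hcm).aestronglyMeasurable
    rw [← e2, ← e]
    refine integral_congr_ae (Eventually.of_forall fun ω => ?_)
    show g _ * _ = g _ * _
    congr 1
    by_cases hω : tmat (idRep (2 + d)) ω ∈ I
    · rw [Set.indicator_of_mem hω, Set.indicator_of_mem (show ω ∈ shapeEv ι cut τ from hω)]
      simp [fullOverlap]
    · rw [Set.indicator_of_notMem hω, Set.indicator_of_notMem (show ω ∉ shapeEv ι cut τ from hω)]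
      simp
  have hIρ : ∀ T ∈ I, ∀ i j, i ≠ j → T i j < ρ := fun T hT' i j hij =>
    lt_of_le_of_lt (hT' i j hij).2 (by rw [hcut]; linarith)
  have hinv : ∀ T : Mat (2 + d), T ∈ I ↔ (fun a b => T (π a) (π b)) ∈ I := by
    intro T
    constructor
    · intro hT' a b hab
      obtain ⟨e1, e2⟩ := hT' (π a) (π b) fun e => hab (π.injective e)
      exact ⟨e1.trans (hgood.1 a b hab), e2⟩
    · intro hT' a b hab
      have hne : π.symm a ≠ π.symm b := fun e => hab (π.symm.injective e)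
      obtain ⟨e1, e2⟩ := hT' (π.symm a) (π.symm b) hne
      simp only [Equiv.apply_symm_apply] at e1 e2
      have := hgood.1 (π.symm a) (π.symm b) hne
      simp only [Equiv.apply_symm_apply] at this
      exact ⟨e1.trans this.symm, e2⟩
  have hvar := hC I π hI hIρ hπ1 hπ2 hinv (pinKernel ν d) inferInstance (pinKernel_law d) c hcm hcb
    hcI W (72 * η₂ * d) hWm hWb hWε (J.indicator 1) (measurable_one.indicator hJ)
    (abs_indicator_one_le J)
  set K : ℝ → ℝ := fun q => ∫ S in I, ∫ T in I, W S T ∂pinKernel ν d q ∂pinKernel ν d q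
    with hKdef
  have hKm : Measurable K := by
    have e : ∀ q, K q = ∫ z, (I ×ˢ I).indicator (Function.uncurry W) z
        ∂(pinKernel ν d ×ₖ pinKernel ν d) q := by
      intro q
      rw [Kernel.prod_apply, integral_indicator (hI.prod hI), ← Measure.prod_restrict, integral_prod]
      · rfl
      · exact Integrable.of_bound hWm.aestronglyMeasurable 1
          (Eventually.of_forall fun z => hWb _ _)
    rw [show K = fun q => ∫ z, (I ×ˢ I).indicator (Function.uncurry W) z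
        ∂(pinKernel ν d ×ₖ pinKernel ν d) q from funext e]
    exact ((hWm.indicator (hI.prod hI)).stronglyMeasurable.comp_measurable measurable_snd
      |>.integral_kernel_prod_right (κ := pinKernel ν d ×ₖ pinKernel ν d) (f := fun _ z =>
        (I ×ˢ I).indicator (Function.uncurry W) z)).measurable
  have hinner : ∀ q S, |∫ T in I, W S T ∂pinKernel ν d q| ≤ 1 := fun q S => by
    refine (norm_setIntegral_le_of_norm_le_const (f := fun T => W S T) (C := 1)
      (measure_lt_top _ _) fun T _ => hWb S T).trans ?_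
    rw [one_mul]
    exact measureReal_le_one
  have hKb : ∀ q, |K q| ≤ 1 := fun q => by
    refine (norm_setIntegral_le_of_norm_le_const
      (f := fun S => ∫ T in I, W S T ∂pinKernel ν d q) (C := 1) (measure_lt_top _ _)
      fun S _ => hinner q S).trans ?_
    rw [one_mul]
    exact measureReal_le_one
  have hlower := kernel_lower hT hθ href hwf hwfm hη hη1 hD hι hι₂ hcl hpos
    ⟨hm₂m, hm₂b, hm₂i⟩
  have hle : b₀ ^ 2 * ∫ q in J, (m₂ q - 72 * η * d) ∂overlapLaw ν ≤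
      ∫ q in J, K q ∂overlapLaw ν := by
    rw [← integral_const_mul]
    refine integral_mono_ae ?_
      (Integrable.of_bound hKm.aestronglyMeasurable 1 (Eventually.of_forall hKb)) ?_
    · refine ((Integrable.of_bound hm₂m.aestronglyMeasurable 1
        (Eventually.of_forall hm₂b)).sub (integrable_const _)).const_mul _
    · filter_upwards [ae_restrict_of_ae hlower, ae_restrict_mem hJ] with q hq hqJ using
        hq (hJA hqJ)
  have hpush : ∀ u : ℝ → ℝ, Measurable u →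
      ∫ ω, J.indicator (1 : ℝ → ℝ) (rbar 0 1 ω) * u (rbar 0 1 ω) ∂ν =
        ∫ q in J, u q ∂overlapLaw ν := by
    intro u hu
    rw [← integral_indicator hJ, overlapLaw,
      integral_map (measurable_rbar 0 1).aemeasurable (hu.indicator hJ).aestronglyMeasurable]
    refine integral_congr_ae (Eventually.of_forall fun ω => ?_)
    by_cases hω : rbar 0 1 ω ∈ J <;> simp [hω]
  rw [hpush (fun q => c q ^ 2) (hcm.pow_const 2), hpush K hKm] at hvar
  have hcJ : ∫ q in J, c q ^ 2 ∂overlapLaw ν = b₀ ^ 2 * ∫ q in J, m₁ q ^ 2 ∂overlapLaw ν := by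
    rw [← integral_const_mul]
    refine setIntegral_congr_fun hJ fun q hq => ?_
    show c q ^ 2 = _
    rw [hcdef, Set.indicator_of_mem (hJA hq), mul_pow]
  rw [hcJ] at hvar
  rw [mul_sub]
  linarith [(abs_le.1 hvar).1]

/-- Module 9, the second moment. -/
theorem second_moment : SecondMomentStmt := by
  intro ν ρ h θ hθ m d π hπ1 hπ2 hdbl η δ hη hη1 hD ι hι τ hgood hpos m₁ m₂ hm₁ hm₂
  have hT : IsTreeArray ν ρ := h.toIsTreeArray
  haveI := hT.prob
  haveI := overlapLaw_prob hT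
  obtain ⟨C, hC⟩ := second_key h hθ π hπ1 hπ2 hη hη1 hD hι hgood hpos hm₁ hm₂
  set A := pinSet ι (ρ - θ) τ
  have hA : MeasurableSet A := measurableSet_pinSet hι.1 _ τ
  have hb₀ := shapeDen_pos hT hι.1 hpos
  have hi₁ : ∀ μ : Measure ℝ, IsFiniteMeasure μ → Integrable (fun q => m₁ q ^ 2) μ := fun μ _ =>
    Integrable.of_bound (hm₁.1.pow_const 2).aestronglyMeasurable 1
      (Eventually.of_forall fun q => by
        rw [Real.norm_eq_abs, abs_pow]; exact pow_le_one₀ (abs_nonneg _) (hm₁.2.1 q))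
  have hi₂ : ∀ μ : Measure ℝ, IsFiniteMeasure μ → Integrable m₂ μ := fun μ _ =>
    Integrable.of_bound hm₂.1.aestronglyMeasurable 1 (Eventually.of_forall hm₂.2.1)
  have hle : (fun q => m₂ q - 72 * η * d) ≤ᵐ[(overlapLaw ν).restrict A] fun q => m₁ q ^ 2 := by
    refine ae_le_of_forall_setIntegral_le ((hi₂ _ inferInstance).sub (integrable_const _))
      (hi₁ _ inferInstance) fun J₀ hJ₀ _ => ?_
    rw [Measure.restrict_restrict hJ₀]
    set D := ∫ q in J₀ ∩ A, (m₂ q - 72 * η * d) ∂overlapLaw ν -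
      ∫ q in J₀ ∩ A, m₁ q ^ 2 ∂overlapLaw ν
    have hbound : ∀ n : ℕ, shapeDen ν ι (ρ - θ) τ ^ 2 * D ≤ C * (72 * (1 / ((n : ℝ) + 1)) * d) := by
      intro n
      have hpos' : (0 : ℝ) < 1 / ((n : ℝ) + 1) := by positivity
      have hle1 : 1 / ((n : ℝ) + 1) ≤ 1 := by
        rw [div_le_one (by positivity)]; linarith [(Nat.cast_nonneg n : (0 : ℝ) ≤ n)]
      obtain ⟨δ₂, hδ₂, hD₂⟩ := hdbl ((1 / ((n : ℝ) + 1)) ^ 4) (by positivity)
      exact hC _ δ₂ hpos' hle1 hδ₂ hD₂ _ (hJ₀.inter hA) Set.inter_subset_right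
    have hlim : Tendsto (fun n : ℕ => C * (72 * (1 / ((n : ℝ) + 1)) * d)) atTop (𝓝 0) := by
      simpa using
        (((tendsto_one_div_add_atTop_nhds_zero_nat (𝕜 := ℝ)).const_mul 72).mul_const
          (d : ℝ)).const_mul C
    have hDle : shapeDen ν ι (ρ - θ) τ ^ 2 * D ≤ 0 := ge_of_tendsto' hlim hbound
    have : D ≤ 0 := by
      by_contra hD0
      exact absurd hDle (not_le.2 (mul_pos (pow_pos hb₀ 2) (not_le.1 hD0)))
    exact sub_nonpos.1 this
  filter_upwards [hle] with q hq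
  linarith

end Vale.Agent.P168.Structure
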