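import Vale.Agent.P168.Structure.Step

/-! Tools for the second moment: means over a pair of fine shapes sharing their pins. -/

open MeasureTheory ProbabilityTheory Filter
open scoped BigOperators NNReal ENNReal

noncomputable section

namespace Vale.Agent.P168.Structure

open Vale.Agent.P168

variable {ν : Measure Arr} {ρ : ℝ} {ι : ℝ → ℤ} {d : ℕ}

/-- The code of a matrix. -/
def code (ι : ℝ → ℤ) {n : ℕ} (T : Mat n) : Pat n := fun a b => ι (T a b)

theorem measurable_code (hι : Monotone ι) (n : ℕ) : Measurable (code ι (n := n)) :=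
  measurable_pi_lambda _ fun a => measurable_pi_lambda _ fun b =>
    hι.measurable.comp (show Measurable fun T : Mat n => T a b by fun_prop)

/-- Set identities below `A` give identities of integrals against functions of the pins. -/
theorem law_ext (h : IsTreeArray ν ρ) {S : Set Arr} (hS : MeasurableSet S) {A : Set ℝ}
    (hA : MeasurableSet A) (hSA : S ⊆ rbar 0 1 ⁻¹' A) {X : Arr → ℝ} (hX : Measurable X)
    (hXb : ∀ ω, |X ω| ≤ 1) {c : ℝ → ℝ} (hc : Measurable c) {C : ℝ} (hcb : ∀ q, |c q| ≤ C)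
    (hset : ∀ J, MeasurableSet J → J ⊆ A →
      ∫ ω in S ∩ rbar 0 1 ⁻¹' J, X ω ∂ν = ∫ q in J, c q ∂overlapLaw ν)
    {g : ℝ → ℝ} (hg : Measurable g) (hgb : ∀ q, |g q| ≤ 1) :
    ∫ ω, g (rbar 0 1 ω) * S.indicator X ω ∂ν =
      ∫ q, g q * A.indicator c q ∂overlapLaw ν := by
  haveI := h.prob
  haveI := overlapLaw_prob h
  obtain ⟨a, ham, hab, hag⟩ := exists_dens h (S.indicator X) (hX.indicator hS) (B := 1) fun ω => by
    by_cases hω : ω ∈ S <;> simp [hω, hXb]
  rw [hag g hg hgb]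
  have hai : Integrable a (overlapLaw ν) :=
    Integrable.of_bound ham.aestronglyMeasurable 1 (Eventually.of_forall hab)
  have hci : Integrable (A.indicator c) (overlapLaw ν) :=
    (Integrable.of_bound hc.aestronglyMeasurable C (Eventually.of_forall hcb)).indicator hA
  have hae : a =ᵐ[overlapLaw ν] A.indicator c := by
    refine hai.ae_eq_of_forall_setIntegral_eq _ _ hci fun J hJ _ => ?_
    have e1 := hag (J.indicator 1) (measurable_one.indicator hJ) (abs_indicator_one_le J)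
    have e2 : (fun ω => J.indicator (1 : ℝ → ℝ) (rbar 0 1 ω) * S.indicator X ω) =
        (S ∩ rbar 0 1 ⁻¹' (J ∩ A)).indicator X := by
      funext ω
      by_cases h1 : ω ∈ S
      · have h3 : rbar 0 1 ω ∈ A := hSA h1
        by_cases h2 : rbar 0 1 ω ∈ J <;> simp [h1, h2, h3]
      · simp [h1]
    have e3 : (fun q => J.indicator (1 : ℝ → ℝ) q * a q) = J.indicator a := by
      funext q; by_cases h2 : q ∈ J <;> simp [h2]
    rw [e2, e3, integral_indicator (hS.inter (measurable_rbar 0 1 (hJ.inter hA))),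
      integral_indicator hJ, hset _ (hJ.inter hA) Set.inter_subset_right] at e1
    rw [setIntegral_indicator hA, e1]
  refine integral_congr_ae ?_
  filter_upwards [hae] with q hq
  rw [hq]

/-- The replicas of the first shape of a pair. -/
def pairU (d : ℕ) (x : Fin (2 + d)) : Fin (2 + (d + d)) := ⟨x.val, by omega⟩

/-- The replicas of the second shape of a pair. -/
def pairV (d : ℕ) (x : Fin (2 + d)) : Fin (2 + (d + d)) :=
  ⟨if x.val < 2 then x.val else x.val + d, by split_ifs <;> omega⟩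

theorem pairU_injective (d : ℕ) : Function.Injective (pairU d) := fun x y h =>
  Fin.ext (Fin.mk.inj h)

theorem pairV_injective (d : ℕ) : Function.Injective (pairV d) := fun x y h => by
  have h' := Fin.mk.inj h
  refine Fin.ext ?_
  split_ifs at h' <;> omega

theorem pairU_pins (d : ℕ) (p : Fin 2) : pairU d (Fin.castAdd d p) = Fin.castAdd (d + d) p :=
  Fin.ext rfl

theorem pairV_pins (d : ℕ) (p : Fin 2) : pairV d (Fin.castAdd d p) = Fin.castAdd (d + d) p :=
  Fin.ext (if_pos p.isLt)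

/-- Matrices of a pair of shapes sharing only the pins. -/
def pairSet (ι : ℝ → ℤ) (s₁ s₂ : Pat (2 + d)) : Set (Mat (2 + (d + d))) :=
  (fun T a b => T (pairU d a) (pairU d b)) ⁻¹' patSet ι s₁ ∩
    (fun T a b => T (pairV d a) (pairV d b)) ⁻¹' patSet ι s₂

theorem measurableSet_pairSet (hι : Monotone ι) (s₁ s₂ : Pat (2 + d)) :
    MeasurableSet (pairSet ι s₁ s₂) :=
  ((by fun_prop : Measurable fun (T : Mat (2 + (d + d))) a b => T (pairU d a) (pairU d b))
    (measurableSet_patSet hι s₁)).inter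
  ((by fun_prop : Measurable fun (T : Mat (2 + (d + d))) a b => T (pairV d a) (pairV d b))
    (measurableSet_patSet hι s₂))

theorem pairSet_det {s₁ s₂ : Pat (2 + d)} (T T' : Mat (2 + (d + d)))
    (h : ∀ a b, ι (T a b) = ι (T' a b)) (hT : T ∈ pairSet ι s₁ s₂) : T' ∈ pairSet ι s₁ s₂ :=
  ⟨fun a b => (h _ _).symm.trans (hT.1 a b), fun a b => (h _ _).symm.trans (hT.2 a b)⟩

theorem qval_pairSet {s₁ s₂ : Pat (2 + d)} {T : Mat (2 + (d + d))} (hT : T ∈ pairSet ι s₁ s₂) :
    ι (qval T) = pat01 s₁ := by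
  have := hT.1 (Fin.castAdd d 0) (Fin.castAdd d 1)
  simp only [pairU_pins] at this
  exact this

/-- The event of a pair of shapes. -/
def pairEv (ι : ℝ → ℤ) (s₁ s₂ : Pat (2 + d)) : Set Arr :=
  tmat (idRep (2 + (d + d))) ⁻¹' pairSet ι s₁ s₂

/-- The product of the multi-overlaps of the two shapes of a pair. -/
def pairProd (d : ℕ) (ω : Arr) : ℝ := rset (repList (pairU d)) ω * rset (repList (pairV d)) ω

theorem abs_pairProd_le (d : ℕ) (ω : Arr) : |pairProd d ω| ≤ 1 := by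
  rw [pairProd, abs_mul]
  exact mul_le_one₀ (abs_rset_le _ _) (abs_nonneg _) (abs_rset_le _ _)

theorem measurable_pairProd (d : ℕ) : Measurable (pairProd d) :=
  (measurable_rset _).mul (measurable_rset _)

/-- `w` is the mean of the product over a pair of shapes given the overlap of the pins. -/
def IsPairMean (ν : Measure Arr) (ι : ℝ → ℤ) (s₁ s₂ : Pat (2 + d)) (w : ℝ → ℝ) : Prop :=
  Measurable w ∧ (∀ q, |w q| ≤ 1) ∧ ∃ b : ℝ, 0 < b ∧ ∀ J, MeasurableSet J →
    J ⊆ ι ⁻¹' {pat01 s₁} →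
      ν.real (pairEv ι s₁ s₂ ∩ rbar 0 1 ⁻¹' J) = b * (overlapLaw ν).real J ∧
      ∫ ω in pairEv ι s₁ s₂ ∩ rbar 0 1 ⁻¹' J, pairProd d ω ∂ν =
        b * ∫ q in J, w q ∂overlapLaw ν

theorem exists_pairMean (h : IsTreeArray ν ρ) (hι : Monotone ι) (s₁ s₂ : Pat (2 + d))
    (h₁ : PosPat ν ι s₁) (h₂ : PosPat ν ι s₂) (hpin : pat01 s₁ = pat01 s₂) :
    ∃ w, IsPairMean ν ι s₁ s₂ w := by
  haveI := h.prob
  have hu₁ := h₁.isUltra h hι
  have hu₂ := h₂.isUltra h hι
  have hagree : patMap (Fin.castAdd d) s₂ = patMap (Fin.castAdd d : Fin 2 → Fin (2 + d)) s₁ := by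
    funext a b
    simp only [patMap]
    fin_cases a <;> fin_cases b
    · exact (hu₂.diag _).trans (hu₁.diag _).symm
    · exact hpin.symm
    · exact (hu₂.symm _ _).trans ((hpin.symm : _).trans (hu₁.symm _ _).symm).symm.symm
    · exact (hu₂.diag _).trans (hu₁.diag _).symm
  obtain ⟨s, hs, hold, hnew, -⟩ :=
    amalgam h hι (by norm_num : 1 ≤ 2) (Fin.castAdd d) s₁ h₁ d s₂ h₂ hagree
  have hsub : cell ι (idRep (2 + d + d)) s ⊆ pairEv ι s₁ s₂ := by
    intro ω hω
    refine ⟨fun a b => (hω (Fin.castAdd d a) (Fin.castAdd d b)).trans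
      (congrFun (congrFun hold a) b), fun a b => ?_⟩
    have hval : ∀ x : Fin (2 + d),
        (amalgMap (Fin.castAdd d : Fin 2 → Fin (2 + d)) d x).val = (pairV d x).val := by
      intro x
      induction x using Fin.addCases with
      | left p => simp [amalgMap, pairV, p.isLt]
      | right i =>
        simp only [amalgMap, pairV, Fin.addCases_right, Fin.val_natAdd]
        split_ifs <;> omega
    have h' := (hω (amalgMap (Fin.castAdd d) d a) (amalgMap (Fin.castAdd d) d b)).trans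
      (congrFun (congrFun hnew a) b)
    show ι (rbar (pairV d a).val (pairV d b).val ω) = s₂ a b
    rw [← hval a, ← hval b]
    exact h'
  have hpos : 0 < ν.real (pairEv ι s₁ s₂) := lt_of_lt_of_le hs (measureReal_mono hsub)
  have hmass : 0 < mass ν ι (pat01 s₁) :=
    h₁.mass_pos h hι fun hh => absurd (Fin.castAdd_injective _ _ hh) (by decide)
  have hev : MeasurableSet (pairEv ι s₁ s₂) :=
    measurable_tmat _ (measurableSet_pairSet hι s₁ s₂)
  have hlaw : ∀ J, MeasurableSet J → J ⊆ ι ⁻¹' {pat01 s₁} →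
      ν.real (pairEv ι s₁ s₂ ∩ rbar 0 1 ⁻¹' J) =
        ν.real (pairEv ι s₁ s₂) / mass ν ι (pat01 s₁) * (overlapLaw ν).real J := by
    intro J hJ hJa
    have := cells_law h hι (pairSet ι s₁ s₂) pairSet_det (fun T hT => qval_pairSet hT) hJ hJa
    rw [div_mul_eq_mul_div, eq_div_iff hmass.ne']
    exact (mul_comm _ _).trans this
  obtain ⟨w, hwm, hwb, hw⟩ := exists_mean h _ hev (pairProd d) (measurable_pairProd d) zero_le_one
    (abs_pairProd_le d) _ (hι.measurable (measurableSet_singleton _)) (div_pos hpos hmass) hlaw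
  exact ⟨w, hwm, hwb, _, div_pos hpos hmass, fun J hJ hJa => ⟨hlaw J hJ hJa, hw J hJ hJa⟩⟩

/-- Clipping to `[-1,1]`. -/
def clip1 (x : ℝ) : ℝ := max (-1) (min 1 x)

theorem measurable_clip1 : Measurable clip1 :=
  measurable_const.max (measurable_const.min measurable_id)

theorem abs_clip1_le (x : ℝ) : |clip1 x| ≤ 1 :=
  abs_le.2 ⟨le_max_left _ _, max_le (by norm_num) (min_le_left _ _)⟩

theorem clip1_eq {x : ℝ} (hx : |x| ≤ 1) : clip1 x = x := by
  obtain ⟨h1, h2⟩ := abs_le.1 hx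
  rw [clip1, min_eq_right h2, max_eq_right h1]

/-- The signed product of two variables. -/
def sprod (σ : ℝ) (x : Fin 2 → ℝ) : ℝ := σ * (clip1 (x 0) * clip1 (x 1))

theorem measurable_sprod (σ : ℝ) : Measurable (sprod σ) :=
  ((measurable_clip1.comp (measurable_pi_apply 0)).mul
    (measurable_clip1.comp (measurable_pi_apply 1))).const_mul σ

theorem abs_sprod_le {σ : ℝ} (hσ : |σ| ≤ 1) (x : Fin 2 → ℝ) : |sprod σ x| ≤ 1 := by
  rw [sprod, abs_mul, abs_mul]
  exact mul_le_one₀ hσ (by positivity)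
    (mul_le_one₀ (abs_clip1_le _) (abs_nonneg _) (abs_clip1_le _))

theorem sprod_lip {σ : ℝ} (hσ : |σ| ≤ 1) (x y : Fin 2 → ℝ) (hx : ∀ i, |x i| ≤ 1)
    (hy : ∀ i, |y i| ≤ 1) : |sprod σ x - sprod σ y| ≤ 1 * ∑ i, |x i - y i| := by
  rw [sprod, sprod, ← mul_sub, abs_mul, one_mul, Fin.sum_univ_two, clip1_eq (hx 0),
    clip1_eq (hx 1), clip1_eq (hy 0), clip1_eq (hy 1)]
  refine (mul_le_of_le_one_left (abs_nonneg _) hσ).trans ?_
  rw [show x 0 * x 1 - y 0 * y 1 = (x 0 - y 0) * x 1 + y 0 * (x 1 - y 1) by ring]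
  refine (abs_add_le _ _).trans (add_le_add ?_ ?_) <;> rw [abs_mul]
  · exact mul_le_of_le_one_right (abs_nonneg _) (hx 1)
  · exact mul_le_of_le_one_left (abs_nonneg _) (hy 0)

/-- The signed product of two pairs on a cell compatible with the pair of shapes is bounded by
the pair mean. -/
theorem pair_cell (h : IsTreeArray ν ρ) {θ η δ : ℝ} {m e : ℕ} (hη : 0 < η) (hη1 : η ≤ 1)
    (hD : DoublesBd ν ρ δ θ (η ^ 4) m) (hι : IsMesh ρ δ ι) {s₁ s₂ : Pat (2 + d)}
    (hc₁ : ClassesLE s₁ m) (hc₂ : ClassesLE s₂ m)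
    (hlow₁ : patSet ι s₁ ⊆ shapeSet ι (ρ - θ) s₁) (hlow₂ : patSet ι s₂ ⊆ shapeSet ι (ρ - θ) s₂)
    {w : ℝ → ℝ} (hw : IsPairMean ν ι s₁ s₂ w) {σ : ℝ} (hσ : |σ| ≤ 1)
    {ιf : ℝ → ℤ} (hιf : Monotone ιf) (href : ∀ x y, ιf x = ιf y → ι x = ι y)
    (u v : Fin (2 + d) → Fin (2 + e)) (hu : Function.Injective u) (hv : Function.Injective v)
    (hup : ∀ p, u (Fin.castAdd d p) = Fin.castAdd e p)
    (hvp : ∀ p, v (Fin.castAdd d p) = Fin.castAdd e p)
    (s : Pat (2 + e)) (hs : PosPat ν ιf s)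
    (hsu : ∀ T ∈ patSet ιf s, (fun a b => T (u a) (u b)) ∈ patSet ι s₁)
    (hsv : ∀ T ∈ patSet ιf s, (fun a b => T (v a) (v b)) ∈ patSet ι s₂) :
    ∫ ω in cell ιf (idRep (2 + e)) s, σ * (rset (repList u) ω * rset (repList v) ω) ∂ν ≤
      ∫ ω in cell ιf (idRep (2 + e)) s, (σ * w (rbar 0 1 ω) + 72 * η * d) ∂ν := by
  obtain ⟨hwm, hwb, b, hb, hw'⟩ := hw
  set A := ι ⁻¹' {pat01 s₁}
  set S : Set (Mat (2 + e)) := (fun T a b => T (u a) (u b)) ⁻¹' patSet ι s₁ ∩
    (fun T a b => T (v a) (v b)) ⁻¹' patSet ι s₂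
  have hSA : ∀ T ∈ S, qval T ∈ A := fun T hT => by
    have := hT.1 (Fin.castAdd d 0) (Fin.castAdd d 1)
    simp only [hup] at this
    exact this
  have hSdet : ∀ T T' : Mat (2 + e), (∀ a b, ι (T a b) = ι (T' a b)) → T ∈ S → T' ∈ S :=
    fun T T' hTT hT => ⟨fun a b => (hTT _ _).symm.trans (hT.1 a b),
      fun a b => (hTT _ _).symm.trans (hT.2 a b)⟩
  refine mean_cell h hιf href (S := S) hSdet (A := A) hSA
    (fun ω => σ * (rset (repList u) ω * rset (repList v) ω))
    (I := pairSet ι s₁ s₂) pairSet_det hb (fun J hJ hJA => (hw' J hJ hJA).1)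
    (fun ω => σ * pairProd d ω) ((measurable_pairProd d).const_mul σ)
    (fun ω => by rw [abs_mul]; exact mul_le_one₀ hσ (abs_nonneg _) (abs_pairProd_le d ω))
    (fun q => σ * w q) (hwm.const_mul σ)
    (fun q => by rw [abs_mul]; exact mul_le_one₀ hσ (abs_nonneg _) (hwb q))
    (fun J hJ hJA => by
      rw [integral_const_mul, integral_const_mul]
      exact (congrArg (σ * ·) (hw' J hJ hJA).2).trans (mul_left_comm _ _ _))
    s (fun T hT => ⟨hsu T hT, hsv T hT⟩) hs fun s₀ hs₀ hp₀ hpin => ?_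
  have hcmp := compare h (ι := ι) (δ := δ) (θ := θ) hη hη1 hD hι hιf ![s₁, s₂]
    (fun i => by fin_cases i <;> assumption) s hs s₀ hp₀ hpin ![u, v] ![pairU d, pairV d]
    (fun i => by fin_cases i <;> assumption)
    (fun i => by fin_cases i; exacts [pairU_injective d, pairV_injective d])
    (fun i p => by fin_cases i; exacts [hup p, hvp p])
    (fun i p => by fin_cases i; exacts [pairU_pins d p, pairV_pins d p])
    (fun i T hT => by
      fin_cases i
      · exact hlow₁ (hsu T hT)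
      · exact hlow₂ (hsv T hT))
    (fun i T hT => by
      fin_cases i
      · exact hlow₁ (hs₀ hT).1
      · exact hlow₂ (hs₀ hT).2)
    (sprod σ) (measurable_sprod σ) (abs_sprod_le hσ) zero_le_one (sprod_lip hσ)
  simp only [sprod, Matrix.cons_val_zero, Matrix.cons_val_one, clip1_eq (abs_rset_le _ _),
    Nat.cast_succ, Nat.cast_zero] at hcmp
  simp only [pairProd]
  linarith [hcmp]

/-- A shape compared with itself: the pair mean is at least the second moment of the shape. -/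
theorem pair_lower (h : IsTreeArray ν ρ) {θ η δ : ℝ} {m : ℕ} (hθ : 0 < θ) (hη : 0 < η)
    (hη1 : η ≤ 1) (hD : DoublesBd ν ρ δ (θ / 2) (η ^ 4) m) (hι : IsMesh ρ δ ι)
    {τ : Pat (2 + d)} (hcl : ClassesLE τ m) (hpos : 0 < ν.real (shapeEv ι (ρ - θ) τ))
    {m₂ : ℝ → ℝ} (hm₂ : IsShapeMean ν ι (ρ - θ) τ (fun ω => fullOverlap d ω ^ 2) m₂)
    {ι₂ : ℝ → ℤ} (hι₂ : Monotone ι₂)
    (href : ∀ x y, ι₂ x = ι₂ y → ι x = ι y ∧ (ρ - θ < x ↔ ρ - θ < y))
    {s₁ s₂ : Pat (2 + d)} (hI₁ : patSet ι₂ s₁ ⊆ shapeSet ι (ρ - θ) τ)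
    (hI₂ : patSet ι₂ s₂ ⊆ shapeSet ι (ρ - θ) τ) {w : ℝ → ℝ} (hw : IsPairMean ν ι₂ s₁ s₂ w) :
    ∀ᵐ q ∂(overlapLaw ν).restrict (ι₂ ⁻¹' {pat01 s₁} ∩ pinSet ι (ρ - θ) τ),
      m₂ q - 72 * η * d ≤ w q := by
  haveI := h.prob
  haveI := overlapLaw_prob h
  obtain ⟨hwm, hwb, b, hb, hw'⟩ := hw
  obtain ⟨hmm, hmb, hm'⟩ := hm₂
  have hbin : MeasurableSet (ι₂ ⁻¹' {pat01 s₁}) := hι₂.measurable (measurableSet_singleton _)
  have hA := measurableSet_pinSet hι.1 (ρ - θ) τ
  set A₂ := ι₂ ⁻¹' {pat01 s₁} ∩ pinSet ι (ρ - θ) τ with hA₂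
  have hIdet : ∀ T T' : Mat (2 + d), (∀ a b, ι₂ (T a b) = ι₂ (T' a b)) →
      T ∈ shapeSet ι (ρ - θ) τ → T' ∈ shapeSet ι (ρ - θ) τ := fun T T' hTT hT a a' hab => by
    obtain ⟨e1, e2⟩ := href _ _ (hTT a a')
    exact ⟨e1.symm.trans (hT a a' hab).1,
      not_lt.1 fun hlt => absurd (e2.2 hlt) (not_lt.2 (hT a a' hab).2)⟩
  set G := pairSet ι₂ s₁ s₂
  have hGA : ∀ T ∈ G, qval T ∈ pinSet ι (ρ - θ) τ := fun T hT => by
    have h1 := qval_mem_pinSet (hI₁ hT.1)
    simp only [qval, pairU_pins] at h1 ⊢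
    exact h1
  have hi : Integrable w ((overlapLaw ν).restrict A₂) :=
    Integrable.of_bound hwm.aestronglyMeasurable 1 (Eventually.of_forall hwb)
  have hi2 : Integrable m₂ ((overlapLaw ν).restrict A₂) :=
    Integrable.of_bound hmm.aestronglyMeasurable 1 (Eventually.of_forall hmb)
  refine ae_le_of_forall_setIntegral_le (hi2.sub (integrable_const _)) hi fun J₀ hJ₀ _ => ?_
  rw [Measure.restrict_restrict hJ₀]
  set J := J₀ ∩ A₂
  have hJ : MeasurableSet J := hJ₀.inter (hbin.inter hA)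
  have hJb : J ⊆ ι₂ ⁻¹' {pat01 s₁} := fun q hq => hq.2.1
  obtain ⟨hlawJ, hmeanJ⟩ := hw' J hJ hJb
  set E : Set (Mat (2 + (d + d))) := G ∩ qval ⁻¹' J
  have hEm : MeasurableSet E := (measurableSet_pairSet hι₂ s₁ s₂).inter (measurable_qval _ hJ)
  have hev : tmat (idRep (2 + (d + d))) ⁻¹' E = pairEv ι₂ s₁ s₂ ∩ rbar 0 1 ⁻¹' J := rfl
  have hb1 : ∀ ω, |-m₂ (rbar 0 1 ω) + 72 * η * d| ≤ 1 + 72 * η * d := fun ω =>
    (abs_add_le _ _).trans (add_le_add (by rw [abs_neg]; exact hmb _)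
      (le_of_eq (abs_of_nonneg (by positivity))))
  have hmain := bound_of_cells₂ h hι₂ (ρ - θ) G (measurableSet_pairSet hι₂ s₁ s₂)
    (fun k T T' hTT hT => pairSet_det T T' (fun a b => (fineIota_eq hι₂ (hTT a b)).1) hT)
    (fun ω => -pairProd d ω) (fun ω => -m₂ (rbar 0 1 ω) + 72 * η * d)
    (measurable_pairProd d).neg ((hmm.comp (measurable_rbar 0 1)).neg.add_const _)
    (B := 1 + 72 * η * d)
    (fun ω => by
      rw [abs_neg]
      exact (abs_pairProd_le d ω).trans (le_add_of_nonneg_right (by positivity)))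
    hb1 (fun k s hsG hs => ?_) E hEm Set.inter_subset_left
  · rw [hev] at hmain
    have hS : MeasurableSet (pairEv ι₂ s₁ s₂) :=
      measurable_tmat _ (measurableSet_pairSet hι₂ s₁ s₂)
    have hm2J : ∫ ω in pairEv ι₂ s₁ s₂ ∩ rbar 0 1 ⁻¹' J, m₂ (rbar 0 1 ω) ∂ν =
        b * ∫ q in J, m₂ q ∂overlapLaw ν := by
      have e := law_ext h hS hbin (fun ω hω => qval_pairSet hω) (X := fun _ => 1)
        measurable_const (fun _ => by simp) (c := fun _ => b) measurable_const (C := |b|)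
        (fun _ => le_rfl) (fun J' hJ' hJ'b => by
          rw [setIntegral_const, setIntegral_const, smul_eq_mul, smul_eq_mul, mul_one,
            (hw' J' hJ' hJ'b).1, mul_comm])
        (g := J.indicator m₂) (hmm.indicator hJ)
        (fun q => by by_cases hq : q ∈ J <;> simp [hq, hmb])
      rw [← integral_indicator (hS.inter (measurable_rbar 0 1 hJ)), ← integral_indicator hJ,
        ← integral_const_mul]
      calc ∫ ω, (pairEv ι₂ s₁ s₂ ∩ rbar 0 1 ⁻¹' J).indicator
            (fun ω => m₂ (rbar 0 1 ω)) ω ∂ν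
          = ∫ ω, J.indicator m₂ (rbar 0 1 ω) *
              (pairEv ι₂ s₁ s₂).indicator (fun _ => (1 : ℝ)) ω ∂ν := by
            refine integral_congr_ae (Eventually.of_forall fun ω => ?_)
            by_cases h1 : ω ∈ pairEv ι₂ s₁ s₂ <;> by_cases h2 : rbar 0 1 ω ∈ J <;> simp [h1, h2]
        _ = ∫ q, J.indicator m₂ q * (ι₂ ⁻¹' {pat01 s₁}).indicator (fun _ => b) q
              ∂overlapLaw ν := e
        _ = ∫ q, b * J.indicator m₂ q ∂overlapLaw ν := by
            refine integral_congr_ae (Eventually.of_forall fun q => ?_)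
            by_cases h2 : q ∈ J
            · simp only [Set.indicator_of_mem h2, Set.indicator_of_mem (hJb h2)]; ring
            · simp [h2]
    rw [integral_neg, hmeanJ, integral_add
      (integrable_of_bdd (f := fun ω => -m₂ (rbar 0 1 ω))
        (hmm.comp (measurable_rbar 0 1)).neg (C := 1)
        fun ω => by show |-m₂ _| ≤ 1; rw [abs_neg]; exact hmb _).integrableOn
      (integrable_const _), integral_neg, hm2J, setIntegral_const, smul_eq_mul, hlawJ] at hmain
    have hi2' : IntegrableOn m₂ J (overlapLaw ν) :=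
      (Integrable.of_bound hmm.aestronglyMeasurable 1 (Eventually.of_forall hmb)).integrableOn
    rw [integral_sub hi2' (integrable_const _), setIntegral_const, smul_eq_mul]
    nlinarith
  · set ιf := fineIota ι₂ (ρ - θ) k
    have hιf : Monotone ιf := monotone_fineIota hι₂ _ k
    have hcut : ∀ T ∈ shapeSet ι (ρ - θ) τ, T ∈ shapeSet ι (ρ - θ / 2) τ := fun T hT a a' hab =>
      ⟨(hT a a' hab).1, le_trans (hT a a' hab).2 (by linarith)⟩
    refine le_trans (le_of_eq ?_) (mean_cell h hιf (fun x y e => (fineIota_eq hι₂ e).1)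
      (S := G) pairSet_det (A := pinSet ι (ρ - θ) τ) hGA (fun ω => -pairProd d ω)
      (I := shapeSet ι (ρ - θ) τ) hIdet (shapeDen_pos h hι.1 hpos)
      (fun J' hJ' hJ'A => shape_law h hι.1 hpos hJ' hJ'A)
      (fun ω => -(fullOverlap d ω ^ 2)) ((measurable_fullOverlap d).pow_const 2).neg
      (fun ω => by
        rw [abs_neg, abs_pow]
        exact pow_le_one₀ (abs_nonneg _) (abs_fullOverlap_le d ω))
      (fun q => -m₂ q) hmm.neg (fun q => by rw [abs_neg]; exact hmb q)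
      (fun J' hJ' hJ'A => by
        rw [integral_neg, integral_neg]
        exact (congrArg (fun x => -x) (hm' J' hJ' hJ'A)).trans (mul_neg _ _).symm)
      (ε := 72 * η * d) s hsG hs fun s₀ hs₀ hp₀ hpin => ?_)
    · rfl
    have hcmp := compare h (ι := ι) (δ := δ) (θ := θ / 2) hη hη1 hD hι hιf ![τ, τ]
      (fun i => by fin_cases i <;> exact hcl) s hs s₀ hp₀ hpin ![pairU d, pairV d] ![id, id]
      (fun i => by fin_cases i; exacts [pairU_injective d, pairV_injective d])
      (fun i => by fin_cases i <;> exact Function.injective_id)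
      (fun i p => by fin_cases i; exacts [pairU_pins d p, pairV_pins d p])
      (fun i p => by fin_cases i <;> rfl)
      (fun i T hT => by
        fin_cases i
        · exact hcut _ (hI₁ (hsG hT).1)
        · exact hcut _ (hI₂ (hsG hT).2))
      (fun i T hT => by fin_cases i <;> exact hcut _ (hs₀ hT))
      (sprod (-1)) (measurable_sprod _) (abs_sprod_le (by norm_num)) zero_le_one
      (sprod_lip (by norm_num))
    simp only [sprod, Matrix.cons_val_zero, Matrix.cons_val_one, clip1_eq (abs_rset_le _ _),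
      Nat.cast_succ, Nat.cast_zero, neg_one_mul] at hcmp
    simp only [pairProd, fullOverlap_eq, sq]
    linarith [hcmp]

end Vale.Agent.P168.Structure
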