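import Vale.Agent.P168.Structure.Bessel
import Vale.Agent.P168.Structure.Copies

/-! Bounds on shapes, and their transfer to patterns of more replicas. -/

open MeasureTheory ProbabilityTheory Filter
open scoped BigOperators NNReal ENNReal

noncomputable section

namespace Vale.Agent.P168.Structure

open Vale.Agent.P168

variable {ν : Measure Arr} {ρ : ℝ} {ι : ℝ → ℤ}

/-- The multi-overlap as a function of data. -/
def rsetData {n : ℕ} (L : List (Fin n)) (z : RepData n) : ℝ :=
  limsup (fun k : ℕ =>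
    (∑ i ∈ Finset.range (4 ^ k), (L.map fun l => spin (z.1 l i)).prod) / (4 : ℝ) ^ k) atTop

theorem measurable_rsetData {n : ℕ} (L : List (Fin n)) : Measurable (rsetData L) := by
  unfold rsetData
  refine Measurable.limsup fun k => (Finset.measurable_sum _ fun i _ => ?_).div_const _
  induction L with
  | nil => exact measurable_const
  | cons a L ih =>
    show Measurable fun z : RepData n => spin (z.1 a i) * (L.map fun l => spin (z.1 l i)).prod
    exact ((measurable_of_countable spin).comp (by fun_prop)).mul ih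

theorem rsetData_repMap {n : ℕ} (u : Fin n → ℕ) (L : List (Fin n)) (ω : Arr) :
    rsetData L (repMap u ω) = rset (L.map u) ω := by
  simp [rsetData, rset, spinProd, repMap, List.map_map, Function.comp_def]

/-- `rsetData` clipped to `[-1,1]`, to be bounded everywhere. -/
def rsetClip {n : ℕ} (L : List (Fin n)) (z : RepData n) : ℝ :=
  max (-1) (min 1 (rsetData L z))

theorem measurable_rsetClip {n : ℕ} (L : List (Fin n)) : Measurable (rsetClip L) :=
  measurable_const.max (measurable_const.min (measurable_rsetData L))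

theorem abs_rsetClip_le {n : ℕ} (L : List (Fin n)) (z : RepData n) : |rsetClip L z| ≤ 1 :=
  abs_le.2 ⟨le_max_left _ _, max_le (by norm_num) (min_le_left _ _)⟩

theorem rsetClip_repMap {n : ℕ} (u : Fin n → ℕ) (L : List (Fin n)) (ω : Arr) :
    rsetClip L (repMap u ω) = rset (L.map u) ω := by
  rw [rsetClip, rsetData_repMap]
  obtain ⟨h1, h2⟩ := abs_le.1 (abs_rset_le (L.map u) ω)
  rw [min_eq_right h2, max_eq_right h1]

/-- Overlap matrices of shape `τ` with all off-diagonal entries at most `cut`. -/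
def shapeSet (ι : ℝ → ℤ) (cut : ℝ) {D : ℕ} (τ : Pat D) : Set (Mat D) :=
  {T | ∀ a b, a ≠ b → ι (T a b) = τ a b ∧ T a b ≤ cut}

/-- On shapes satisfying `good`, the multi-overlap of all replicas is almost constant. -/
def ShapeBd (ν : Measure Arr) (ρ δ θ η : ℝ) (D : ℕ) (good : Pat D → Prop) : Prop :=
  ∀ ι : ℝ → ℤ, IsMesh ρ δ ι → ∀ τ : Pat D, good τ → ∃ κ : ℝ, |κ| ≤ 1 ∧
    ∀ E : Set (Mat D), MeasurableSet E → E ⊆ shapeSet ι (ρ - θ) τ →
      ∫ ω in tmat (idRep D) ⁻¹' E, |rset (List.ofFn (idRep D)) ω - κ| ∂ν ≤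
        η * ν.real (tmat (idRep D) ⁻¹' E)

/-- Two isomorphic halves with one cross cell, strictly below the inner cells. -/
def IsDouble (j : ℕ) (τ : Pat (j + j)) : Prop :=
  ∃ a, (∀ i i', τ (Fin.castAdd j i) (Fin.natAdd j i') = a ∧
      τ (Fin.natAdd j i') (Fin.castAdd j i) = a) ∧
    ∀ i i', i ≠ i' → τ (Fin.natAdd j i) (Fin.natAdd j i') =
      τ (Fin.castAdd j i) (Fin.castAdd j i') ∧ a < τ (Fin.castAdd j i) (Fin.castAdd j i')

/-- The bound for all doubles with halves of size at most `m`. -/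
def DoublesBd (ν : Measure Arr) (ρ δ θ η : ℝ) (m : ℕ) : Prop :=
  ∀ j, 1 ≤ j → j ≤ m → ShapeBd ν ρ δ θ η (j + j) (IsDouble j)

/-- The matrices of a pattern. -/
def patSet (ι : ℝ → ℤ) {D : ℕ} (s : Pat D) : Set (Mat D) := {T | ∀ a b, ι (T a b) = s a b}

theorem measurableSet_patSet (hι : Monotone ι) {D : ℕ} (s : Pat D) :
    MeasurableSet (patSet ι s) := by
  simp only [patSet, Set.setOf_forall]
  exact MeasurableSet.iInter fun a => MeasurableSet.iInter fun b =>
    (hι.measurable.comp (by fun_prop : Measurable fun T : Mat D => T a b))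
      (measurableSet_singleton _)

theorem tmat_preimage_patSet (ι : ℝ → ℤ) {D : ℕ} (u : Fin D → ℕ) (s : Pat D) :
    tmat u ⁻¹' patSet ι s = cell ι u s := rfl

theorem exists_perm_extend {D N : ℕ} (u : Fin D → Fin N) (hu : Function.Injective u) :
    ∃ π : Equiv.Perm ℕ, ∀ i : Fin D, π (i : ℕ) = u i := by
  classical
  have hDN : D ≤ N := by simpa using Fintype.card_le_of_injective u hu
  let c : Fin D → Fin N := Fin.castLE hDN
  let e0 : {x // x ∈ Set.range c} ≃ {x // x ∈ Set.range u} :=
    (Equiv.ofInjective c (Fin.castLE_injective hDN)).symm.trans (Equiv.ofInjective u hu)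
  refine ⟨(Equiv.Perm.viaFintypeEmbedding e0.extendSubtype Fin.valEmbedding), fun i => ?_⟩
  have he : e0.extendSubtype (c i) = u i := by
    rw [Equiv.extendSubtype_apply_of_mem e0 _ ⟨i, rfl⟩]
    simp [e0, Equiv.ofInjective_symm_apply]
  rw [← he]
  exact Equiv.Perm.viaFintypeEmbedding_apply_image e0.extendSubtype Fin.valEmbedding (c i)

/-- A function of the replicas `u` integrates over their cell as it does over the first ones. -/
theorem integral_cell_reindex (h : IsGGArray ν) (hι : Monotone ι) {D N : ℕ} (u : Fin D → Fin N)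
    (hu : Function.Injective u) (s : Pat D) (F : RepData D → ℝ) :
    ∫ ω in cell ι (fun i => (u i : ℕ)) s, F (repMap (fun i => (u i : ℕ)) ω) ∂ν =
      ∫ ω in cell ι (idRep D) s, F (repData D ω) ∂ν := by
  obtain ⟨π, hπ⟩ := exists_perm_extend u hu
  rw [← integral_cell_perm h hι π (idRep D) s fun ω => F (repData D ω)]
  have h1 : (fun i : Fin D => π (idRep D i)) = fun i => (u i : ℕ) := funext hπ
  rw [h1]
  refine setIntegral_congr_fun (measurableSet_cell hι _ _) fun ω _ => ?_
  congr 1
  ext <;> simp [repData, permRep, repMap, hπ]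

/-- Integrals over a pattern are determined by the sub-pattern of the replicas read. -/
theorem cell_scale (h : IsTreeArray ν ρ) (hι : Monotone ι) {D N : ℕ} (hD : 1 ≤ D)
    (u : Fin D → Fin N) (hu : Function.Injective u) (s : Pat N) :
    ∃ K, 0 ≤ K ∧ (∀ F : RepData D → ℝ, Measurable F → (∀ z, |F z| ≤ 1) →
      ∫ ω in cell ι (idRep N) s, F (repMap (fun i => (u i : ℕ)) ω) ∂ν =
        K * ∫ ω in cell ι (idRep D) (patMap u s), F (repData D ω) ∂ν) ∧
      ν.real (cell ι (idRep N) s) = K * ν.real (cell ι (idRep D) (patMap u s)) := by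
  haveI := h.prob
  obtain ⟨K, hK0, hK⟩ := cell_sub h hι hD u hu s
  refine ⟨K, hK0, fun F hF hFb => ?_, ?_⟩
  · rw [hK F hF hFb, integral_cell_reindex h.toIsGGArray hι u hu]
  · have := hK (fun _ => 1) measurable_const (by simp)
    rw [integral_cell_reindex h.toIsGGArray hι u hu _ fun _ => (1 : ℝ), integral_cell_mem hι,
      integral_cell_mem hι] at this
    exact this

/-- An upper bound on a sub-pattern passes to the pattern. -/
theorem bound_up (h : IsTreeArray ν ρ) (hι : Monotone ι) {D N : ℕ} (hD : 1 ≤ D)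
    (u : Fin D → Fin N) (hu : Function.Injective u) (s : Pat N) (F : RepData D → ℝ)
    (hF : Measurable F) {C : ℝ} (hC : 0 < C) (hFb : ∀ z, |F z| ≤ C) {η : ℝ}
    (hb : ∫ ω in cell ι (idRep D) (patMap u s), F (repData D ω) ∂ν ≤
      η * ν.real (cell ι (idRep D) (patMap u s))) :
    ∫ ω in cell ι (idRep N) s, F (repMap (fun i => (u i : ℕ)) ω) ∂ν ≤
      η * ν.real (cell ι (idRep N) s) := by
  obtain ⟨K, hK0, hK, hP⟩ := cell_scale h hι hD u hu s
  have hG := hK (fun z => F z / C) (hF.div_const C) fun z => by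
    rw [abs_div, abs_of_pos hC, div_le_one hC]; exact hFb z
  rw [integral_div, integral_div, div_eq_iff hC.ne', mul_assoc, div_mul_cancel₀ _ hC.ne'] at hG
  rw [hG, hP, mul_left_comm]
  exact mul_le_mul_of_nonneg_left hb hK0

/-- An upper bound on a pattern passes to a sub-pattern. -/
theorem bound_down (h : IsTreeArray ν ρ) (hι : Monotone ι) {D N : ℕ} (hD : 1 ≤ D)
    (u : Fin D → Fin N) (hu : Function.Injective u) (s : Pat N) (hs : PosPat ν ι s)
    (F : RepData D → ℝ) (hF : Measurable F) {C : ℝ} (hC : 0 < C) (hFb : ∀ z, |F z| ≤ C) {η : ℝ}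
    (hb : ∫ ω in cell ι (idRep N) s, F (repMap (fun i => (u i : ℕ)) ω) ∂ν ≤
      η * ν.real (cell ι (idRep N) s)) :
    ∫ ω in cell ι (idRep D) (patMap u s), F (repData D ω) ∂ν ≤
      η * ν.real (cell ι (idRep D) (patMap u s)) := by
  obtain ⟨K, hK0, hK, hP⟩ := cell_scale h hι hD u hu s
  have hG := hK (fun z => F z / C) (hF.div_const C) fun z => by
    rw [abs_div, abs_of_pos hC, div_le_one hC]; exact hFb z
  rw [integral_div, integral_div, div_eq_iff hC.ne', mul_assoc, div_mul_cancel₀ _ hC.ne'] at hG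
  rw [hG, hP, mul_left_comm] at hb
  refine le_of_mul_le_mul_left hb (lt_of_le_of_ne hK0 fun hK' => ?_)
  rw [PosPat, hP, ← hK', zero_mul] at hs
  exact lt_irrefl _ hs

theorem PosPat.restrict (h : IsTreeArray ν ρ) (hι : Monotone ι) {D N : ℕ} (hD : 1 ≤ D)
    {u : Fin D → Fin N} (hu : Function.Injective u) {s : Pat N} (hs : PosPat ν ι s) :
    PosPat ν ι (patMap u s) := by
  obtain ⟨K, hK0, -, hP⟩ := cell_scale h hι hD u hu s
  rw [PosPat, hP] at hs
  exact pos_of_mul_pos_right hs hK0

end Vale.Agent.P168.Structure
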