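import Vale.Agent.P168.Structure.MeanConst

/-! The step of the structure theorem from the second moment bound. -/

open MeasureTheory ProbabilityTheory Filter
open scoped BigOperators NNReal ENNReal

noncomputable section

namespace Vale.Agent.P168.Structure

open Vale.Agent.P168

variable {ν : Measure Arr} {ρ θ : ℝ}

theorem classesLE_congr {d m : ℕ} {τ τ' : Pat (2 + d)} (he : ∀ a b, a ≠ b → τ a b = τ' a b)
    (h : ClassesLE τ' m) : ClassesLE τ m := by
  intro l
  have hne : ∀ i : Fin 2, Fin.castAdd d i ≠ Fin.natAdd 2 l := fun i hh => by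
    have := congrArg Fin.val hh
    simp only [Fin.val_castAdd, Fin.val_natAdd] at this
    omega
  have hatt : attachLevel τ l = attachLevel τ' l := by
    simp only [attachLevel, he _ _ (hne 0), he _ _ (hne 1)]
  refine le_trans (le_of_eq (congrArg Finset.card (Finset.ext fun l' => ?_))) (h l)
  simp only [hangClass, hatt, Finset.mem_filter, Finset.mem_univ, true_and]
  by_cases hll : l' = l
  · simp [hll]
  · rw [he _ _ fun hh => hll (Fin.natAdd_injective _ _ hh).symm]

/-- A shape mean bounds the average of a function of the multi-overlap on all its cells. -/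
theorem mean_cell_shape (h : IsTreeArray ν ρ) {η δ : ℝ} {m d : ℕ} (hθ : 0 < θ) (hη : 0 < η)
    (hη1 : η ≤ 1) (hD : DoublesBd ν ρ δ (θ / 2) (η ^ 4) m) {ι : ℝ → ℤ} (hι : IsMesh ρ δ ι)
    (τ : Pat (2 + d)) (hcl : ClassesLE τ m) (hpos : 0 < ν.real (shapeEv ι (ρ - θ) τ))
    (G : ℝ → ℝ) (hG : Measurable G) (hGb : ∀ x, |G x| ≤ 1) {L : ℝ} (hL : 0 ≤ L)
    (hGL : ∀ x y : ℝ, |x| ≤ 1 → |y| ≤ 1 → |G x - G y| ≤ L * |x - y|)
    (mG : ℝ → ℝ) (hm : IsShapeMean ν ι (ρ - θ) τ (fun ω => G (fullOverlap d ω)) mG)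
    (k : ℕ) (s : Pat (2 + d))
    (hsS : patSet (fineIota (cutIota ι (ρ - θ)) (ρ - θ) k) s ⊆ shapeSet ι (ρ - θ) τ)
    (hs : PosPat ν (fineIota (cutIota ι (ρ - θ)) (ρ - θ) k) s) :
    ∫ ω in cell (fineIota (cutIota ι (ρ - θ)) (ρ - θ) k) (idRep (2 + d)) s,
        G (fullOverlap d ω) ∂ν ≤
      ∫ ω in cell (fineIota (cutIota ι (ρ - θ)) (ρ - θ) k) (idRep (2 + d)) s,
        (mG (rbar 0 1 ω) + L * (36 * η * d)) ∂ν := by
  have hb := monotone_cutIota hι.1 (ρ - θ)
  have hιf := monotone_fineIota hb (ρ - θ) k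
  refine mean_cell h hιf (fun x y e => (fineIota_eq hb e).1)
    (S := shapeSet ι (ρ - θ) τ) (fun T T' hTT hT => shapeSet_det hι.1 T T' hTT hT)
    (A := pinSet ι (ρ - θ) τ) (fun T hT => qval_mem_pinSet hT) _
    (I := shapeSet ι (ρ - θ) τ) (fun T T' hTT hT => shapeSet_det hι.1 T T' hTT hT)
    (shapeDen_pos h hι.1 hpos) (fun J hJ hJA => shape_law h hι.1 hpos hJ hJA)
    (fun ω => G (fullOverlap d ω)) (hG.comp (measurable_fullOverlap d)) (fun ω => hGb _)
    mG hm.1 hm.2.1 hm.2.2 s hsS hs fun s₀ hs₀ hp₀ hpin => ?_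
  have hmono : ∀ T : Mat (2 + d), T ∈ shapeSet ι (ρ - θ) τ →
      T ∈ subShape ι (ρ - θ / 2) id τ := fun T hT a b hab =>
    ⟨(hT a b hab).1, le_trans (hT a b hab).2 (by linarith)⟩
  have hcmp := compare h (ι := ι) (δ := δ) (θ := θ / 2) hη hη1 hD hι hιf
    (fun _ : Fin 1 => τ) (fun _ => hcl) s hs s₀ hp₀ hpin (fun _ => id) (fun _ => id)
    (fun _ => Function.injective_id) (fun _ => Function.injective_id)
    (fun _ _ => rfl) (fun _ _ => rfl) (fun _ T hT => hmono T (hsS hT))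
    (fun _ T hT => hmono T (hs₀ hT)) (fun x => G (x 0)) (hG.comp (measurable_pi_apply 0))
    (fun x => hGb _) hL (fun x y hx hy => by
      rw [Fin.sum_univ_one]; exact hGL _ _ (hx 0) (hy 0))
  simpa [← fullOverlap_eq] using hcmp

/-- The step. -/
theorem step_of_second_moment (hsm : SecondMomentStmt) : StepStmt := by
  intro ν ρ h θ hθ m d π hπ1 hπ2 hdbl η hη
  have hT : IsTreeArray ν ρ := h.toIsTreeArray
  haveI := hT.prob
  set K : ℝ := (1 + 72 * d) ^ 2 + 216 * d with hK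
  have hKpos : 0 < K := by positivity
  set η₁ := min 1 (η ^ 2 / K) with hη₁def
  have hη₁ : 0 < η₁ := lt_min one_pos (by positivity)
  have hη₁1 : η₁ ≤ 1 := min_le_left _ _
  have hKη : K * η₁ ≤ η ^ 2 := by
    rw [← le_div_iff₀' hKpos]; exact min_le_right _ _
  obtain ⟨δA, hδA, hA⟩ := mean_const h hθ π hdbl hη₁ hη₁1
  obtain ⟨δB, hδB, hB⟩ := hdbl (η₁ ^ 4) (by positivity)
  refine ⟨min δA δB, lt_min hδA hδB, fun ι hι τ hgood => ?_⟩
  have hιA : IsMesh ρ δA ι :=
    ⟨hι.1, fun x hx y hy e => (hι.2 x hx y hy e).trans (min_le_left _ _)⟩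
  have hιB : IsMesh ρ δB ι :=
    ⟨hι.1, fun x hx y hy e => (hι.2 x hx y hy e).trans (min_le_right _ _)⟩
  by_cases hpos : 0 < ν.real (shapeEv ι (ρ - θ) τ)
  swap
  · refine ⟨0, by norm_num, fun E _ hES => ?_⟩
    have hz : ν (shapeEv ι (ρ - θ) τ) = 0 :=
      (measureReal_eq_zero_iff).1 (le_antisymm (not_lt.1 hpos) measureReal_nonneg)
    have hEz : ν (tmat (idRep (2 + d)) ⁻¹' E) = 0 :=
      measure_mono_null (Set.preimage_mono hES) hz
    rw [setIntegral_measure_zero _ hEz]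
    positivity
  obtain ⟨ω₀, hω₀, hg₀⟩ := exists_good_mem hT hpos
  have hcl : ClassesLE τ m := classesLE_congr (fun a b hab => ((hω₀ a b hab).1).symm)
    (hgood.2 ι hι.1 (tmat (idRep (2 + d)) ω₀)
      ⟨fun a b => (hg₀ a b 0).1, fun a b c => (hg₀ a b c).2.2.2⟩
      (fun a b hab => (hω₀ a b hab).1) ι hι.1)
  have hRb := abs_fullOverlap_le d
  obtain ⟨m₁, hm₁⟩ := exists_shapeMean hT hι.1 hpos (fullOverlap d) (measurable_fullOverlap d) hRb
  obtain ⟨m₂, hm₂⟩ := exists_shapeMean hT hι.1 hpos (fun ω => fullOverlap d ω ^ 2)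
    ((measurable_fullOverlap d).pow_const 2)
    (fun ω => by rw [abs_pow]; exact pow_le_one₀ (abs_nonneg _) (hRb ω))
  obtain ⟨κ, hκ, hmean⟩ := hA ι hιA τ hgood hpos m₁ hm₁
  have hsecond := hsm ν ρ h θ hθ m d π hπ1 hπ2 hdbl η₁ δB hη₁ hη₁1 hB ι hιB τ hgood hpos m₁ m₂
    hm₁ hm₂
  refine ⟨κ, hκ, fun E hE hES => ?_⟩
  have hb := monotone_cutIota hι.1 (ρ - θ)
  refine bound_of_cells hT hb (ρ - θ) (shapeSet ι (ρ - θ) τ)
    (measurableSet_shapeSet hι.1 _ τ)
    (fun k T T' hTT hT' => shapeSet_det hι.1 T T' (fun a b => (fineIota_eq hb (hTT a b)).1) hT')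
    (fun ω => |fullOverlap d ω - κ|) ((measurable_fullOverlap d).sub_const κ).norm
    (fun ω => abs_nonneg _) (B := 2)
    (fun ω => (abs_sub _ _).trans (by linarith [hRb ω])) hη.le (fun k s hsS hs => ?_) E hE hES
  set ιf := fineIota (cutIota ι (ρ - θ)) (ρ - θ) k with hιf'
  have hιf : Monotone ιf := monotone_fineIota hb (ρ - θ) k
  set C := cell ιf (idRep (2 + d)) s with hC
  set cl : ℝ → ℝ := fun x => max (-1) (min 1 x) with hcldef
  have hclm : Measurable cl := by simp only [hcldef]; fun_prop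
  have hclb : ∀ x, |cl x| ≤ 1 := fun x =>
    abs_le.2 ⟨le_max_left _ _, max_le (by norm_num) (min_le_left _ _)⟩
  have hcle : ∀ x : ℝ, |x| ≤ 1 → cl x = x := fun x hx => by
    obtain ⟨h1, h2⟩ := abs_le.1 hx
    simp only [hcldef, min_eq_right h2, max_eq_right h1]
  have hsq := mean_cell_shape hT hθ hη₁ hη₁1 hB hιB τ hcl hpos (fun x => cl x ^ 2)
    (hclm.pow_const 2) (fun x => by rw [abs_pow]; exact pow_le_one₀ (abs_nonneg _) (hclb x))
    (L := 2) (by norm_num) (fun x y hx hy => by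
      simp only [hcle x hx, hcle y hy]
      rw [sq_sub_sq, abs_mul]
      exact mul_le_mul_of_nonneg_right ((abs_add_le _ _).trans (by linarith)) (abs_nonneg _))
    m₂ (by simpa only [hcle _ (hRb _)] using hm₂) k s hsS hs
  have hlin := mean_cell_shape hT hθ hη₁ hη₁1 hB hιB τ hcl hpos (fun x => -κ * cl x)
    (hclm.const_mul _) (fun x => by
      rw [abs_mul, abs_neg]; exact mul_le_one₀ hκ (abs_nonneg _) (hclb x))
    (L := 1) zero_le_one (fun x y hx hy => by
      simp only [hcle x hx, hcle y hy]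
      rw [← mul_sub, abs_mul, abs_neg, one_mul]
      exact mul_le_of_le_one_left (abs_nonneg _) hκ)
    (fun q => -κ * m₁ q)
    ⟨hm₁.1.const_mul _, fun q => by
      rw [abs_mul, abs_neg]; exact mul_le_one₀ hκ (abs_nonneg _) (hm₁.2.1 q),
      fun J hJ hJA => by
        simp only [hcle _ (hRb _), integral_const_mul, hm₁.2.2 J hJ hJA]
        ring⟩ k s hsS hs
  simp only [hcle _ (hRb _)] at hsq hlin
  have hA' := measurableSet_pinSet hι.1 (ρ - θ) τ
  have hgood' : ∀ᵐ ω ∂ν.restrict C,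
      m₂ (rbar 0 1 ω) + 2 * (36 * η₁ * d) + 2 * (-κ * m₁ (rbar 0 1 ω) + 1 * (36 * η₁ * d)) +
        κ ^ 2 ≤ η ^ 2 := by
    refine (ae_restrict_iff' (measurableSet_cell hιf _ _)).2 ?_
    have h1 := ae_of_ae_map (measurable_rbar 0 1).aemeasurable
      ((ae_imp_of_ae_restrict hmean).and (ae_imp_of_ae_restrict hsecond))
    filter_upwards [h1] with ω hω hωC
    have hq : rbar 0 1 ω ∈ pinSet ι (ρ - θ) τ :=
      qval_mem_pinSet (hsS (show tmat (idRep (2 + d)) ω ∈ patSet ιf s from hωC))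
    have e1 := hω.1 hq
    have e2 := hω.2 hq
    have e3 : (m₁ (rbar 0 1 ω) - κ) ^ 2 ≤ η₁ * (1 + 72 * d) ^ 2 := by
      rw [← sq_abs]
      refine (pow_le_pow_left₀ (abs_nonneg _) e1 2).trans ?_
      rw [mul_pow]
      exact mul_le_mul_of_nonneg_right (pow_le_of_le_one hη₁.le hη₁1 (by norm_num)) (by positivity)
    have : 0 ≤ η₁ * (d : ℝ) := by positivity
    have hKe : K * η₁ = η₁ * (1 + 72 * d) ^ 2 + 216 * (η₁ * d) := by rw [hK]; ring
    nlinarith
  have hi : ∀ f : Arr → ℝ, Measurable f → ∀ B, (∀ ω, |f ω| ≤ B) → IntegrableOn f C ν :=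
    fun f hf B hB' => (integrable_of_bdd hf hB').integrableOn
  have i2 := hi (fun ω => fullOverlap d ω ^ 2) ((measurable_fullOverlap d).pow_const 2) 1
    fun ω => by rw [abs_pow]; exact pow_le_one₀ (abs_nonneg _) (hRb ω)
  have i1 := hi (fun ω => -κ * fullOverlap d ω) ((measurable_fullOverlap d).const_mul _) 1
    fun ω => by rw [abs_mul, abs_neg]; exact mul_le_one₀ hκ (abs_nonneg _) (hRb ω)
  have j2 := hi (fun ω => m₂ (rbar 0 1 ω) + 2 * (36 * η₁ * d))
    ((hm₂.1.comp (measurable_rbar 0 1)).add_const _) (1 + 2 * (36 * η₁ * d))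
    fun ω => (abs_add_le _ _).trans
      (add_le_add (hm₂.2.1 _) (le_of_eq (abs_of_nonneg (by positivity))))
  have j1 := hi (fun ω => -κ * m₁ (rbar 0 1 ω) + 1 * (36 * η₁ * d))
    (((hm₁.1.comp (measurable_rbar 0 1)).const_mul _).add_const _) (1 + 1 * (36 * η₁ * d))
    fun ω => (abs_add_le _ _).trans (add_le_add
      (by rw [abs_mul, abs_neg]; exact mul_le_one₀ hκ (abs_nonneg _) (hm₁.2.1 _))
      (le_of_eq (abs_of_nonneg (by positivity))))
  have hsum : ∫ ω in C, (fullOverlap d ω - κ) ^ 2 ∂ν ≤ η ^ 2 * ν.real C := by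
    have e : ∫ ω in C, (fullOverlap d ω - κ) ^ 2 ∂ν =
        (∫ ω in C, fullOverlap d ω ^ 2 ∂ν) + 2 * (∫ ω in C, -κ * fullOverlap d ω ∂ν) +
          κ ^ 2 * ν.real C := by
      have e' : (fun ω => (fullOverlap d ω - κ) ^ 2) =
          fun ω => (fullOverlap d ω ^ 2 + 2 * (-κ * fullOverlap d ω)) + κ ^ 2 := by
        funext ω; ring
      rw [e', integral_add, integral_add i2 (i1.const_mul 2), integral_const_mul, setIntegral_const,
        smul_eq_mul]
      · ring
      · exact i2.add (i1.const_mul 2)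
      · exact integrable_const _
    rw [e]
    have e2 : ∫ ω in C, (m₂ (rbar 0 1 ω) + 2 * (36 * η₁ * d) +
        2 * (-κ * m₁ (rbar 0 1 ω) + 1 * (36 * η₁ * d)) + κ ^ 2) ∂ν ≤ η ^ 2 * ν.real C := by
      refine (integral_mono_ae ?_ (integrable_const _) hgood').trans_eq ?_
      · exact (j2.add (j1.const_mul 2)).add (integrable_const _)
      · rw [setIntegral_const, smul_eq_mul, mul_comm]
    rw [integral_add, integral_add j2 (j1.const_mul 2), integral_const_mul, setIntegral_const,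
      smul_eq_mul] at e2
    · linarith [hsq, hlin]
    · exact j2.add (j1.const_mul 2)
    · exact integrable_const _
  have isq := hi (fun ω => (fullOverlap d ω - κ) ^ 2)
    (((measurable_fullOverlap d).sub_const κ).pow_const 2) 4 fun ω => by
      rw [abs_pow]
      refine (pow_le_pow_left₀ (abs_nonneg _) ((abs_sub _ _).trans
        (add_le_add (hRb ω) hκ)) 2).trans ?_
      norm_num
  calc ∫ ω in C, |fullOverlap d ω - κ| ∂ν
      ≤ ∫ ω in C, ((fullOverlap d ω - κ) ^ 2 * (1 / (2 * η)) + η / 2) ∂ν := by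
        refine integral_mono
          (hi _ ((measurable_fullOverlap d).sub_const κ).norm 2 fun ω => by
            rw [abs_abs]; exact (abs_sub _ _).trans (by linarith [hRb ω]))
          ((isq.mul_const _).add (integrable_const _)) fun ω => ?_
        have h0 := sq_nonneg (|fullOverlap d ω - κ| - η)
        have hsa := sq_abs (fullOverlap d ω - κ)
        show |fullOverlap d ω - κ| ≤ _
        rw [mul_one_div, div_add_div _ _ (by positivity) two_ne_zero, le_div_iff₀ (by positivity)]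
        nlinarith
    _ = (∫ ω in C, (fullOverlap d ω - κ) ^ 2 ∂ν) * (1 / (2 * η)) + η / 2 * ν.real C := by
        rw [integral_add (isq.mul_const _) (integrable_const _),
          integral_mul_const, setIntegral_const, smul_eq_mul]
        ring
    _ ≤ η ^ 2 * ν.real C * (1 / (2 * η)) + η / 2 * ν.real C := by
        have : 0 ≤ 1 / (2 * η) := by positivity
        nlinarith
    _ = η * ν.real C := by field_simp; ring

end Vale.Agent.P168.Structure
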