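import Vale.Agent.P168.Structure.Compare

/-! The conditional means of one shape. -/

open MeasureTheory ProbabilityTheory Filter
open scoped BigOperators NNReal ENNReal

noncomputable section

namespace Vale.Agent.P168.Structure

open Vale.Agent.P168

variable {ν : Measure Arr} {ρ θ : ℝ} {ι : ℝ → ℤ} {d : ℕ} {τ : Pat (2 + d)}

/-- A partition with a further break at `cut`. -/
def cutIota (ι : ℝ → ℤ) (cut : ℝ) (x : ℝ) : ℤ := ι x + if cut < x then 1 else 0

theorem monotone_cutIota (hι : Monotone ι) (cut : ℝ) : Monotone (cutIota ι cut) := by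
  intro x y hxy
  have h1 := hι hxy
  unfold cutIota
  split_ifs with a b <;> linarith

theorem cutIota_eq (hι : Monotone ι) {cut x y : ℝ} (h : cutIota ι cut x = cutIota ι cut y) :
    ι x = ι y ∧ (cut < x ↔ cut < y) := by
  wlog hxy : x ≤ y generalizing x y
  · obtain ⟨a, b⟩ := this h.symm (le_of_not_ge hxy)
    exact ⟨a.symm, b.symm⟩
  have h1 := hι hxy
  unfold cutIota at h
  split_ifs at h with a b b
  · exact ⟨by linarith, iff_of_true a b⟩
  · exact absurd (a.trans_le hxy) b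
  · exfalso; linarith
  · exact ⟨by linarith, iff_of_false a b⟩

/-- The possible overlaps of the pins in a shape. -/
def pinSet (ι : ℝ → ℤ) (cut : ℝ) {d : ℕ} (τ : Pat (2 + d)) : Set ℝ :=
  {x | ι x = pat01 τ ∧ x ≤ cut}

/-- The event of a shape. -/
def shapeEv (ι : ℝ → ℤ) (cut : ℝ) {d : ℕ} (τ : Pat (2 + d)) : Set Arr :=
  tmat (idRep (2 + d)) ⁻¹' shapeSet ι cut τ

/-- The density of a shape in the overlap of its pins. -/
def shapeDen (ν : Measure Arr) (ι : ℝ → ℤ) (cut : ℝ) {d : ℕ} (τ : Pat (2 + d)) : ℝ :=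
  ν.real (shapeEv ι cut τ) / (overlapLaw ν).real (pinSet ι cut τ)

/-- The multi-overlap of all replicas of a shape. -/
def fullOverlap (d : ℕ) (ω : Arr) : ℝ := rset (List.ofFn (idRep (2 + d))) ω

theorem fullOverlap_eq (d : ℕ) (ω : Arr) :
    fullOverlap d ω = rset (repList (id : Fin (2 + d) → Fin (2 + d))) ω := rfl

theorem measurable_fullOverlap (d : ℕ) : Measurable (fullOverlap d) := measurable_rset _

theorem abs_fullOverlap_le (d : ℕ) (ω : Arr) : |fullOverlap d ω| ≤ 1 := abs_rset_le _ _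

/-- `m` is the mean of `X` on the shape given the overlap of the pins. -/
def IsShapeMean (ν : Measure Arr) (ι : ℝ → ℤ) (cut : ℝ) {d : ℕ} (τ : Pat (2 + d)) (X : Arr → ℝ)
    (m : ℝ → ℝ) : Prop :=
  Measurable m ∧ (∀ q, |m q| ≤ 1) ∧ ∀ J, MeasurableSet J → J ⊆ pinSet ι cut τ →
    ∫ ω in shapeEv ι cut τ ∩ rbar 0 1 ⁻¹' J, X ω ∂ν =
      shapeDen ν ι cut τ * ∫ q in J, m q ∂overlapLaw ν

theorem shapeSet_det (hι : Monotone ι) {cut : ℝ} {D : ℕ} {τ : Pat D} (T T' : Mat D)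
    (h : ∀ a b, cutIota ι cut (T a b) = cutIota ι cut (T' a b)) (hT : T ∈ shapeSet ι cut τ) :
    T' ∈ shapeSet ι cut τ := fun a b hab => by
  obtain ⟨e1, e2⟩ := cutIota_eq hι (h a b)
  exact ⟨e1.symm.trans (hT a b hab).1,
    not_lt.1 fun hlt => absurd (e2.2 hlt) (not_lt.2 (hT a b hab).2)⟩

theorem qval_mem_pinSet {cut : ℝ} {T : Mat (2 + d)} (hT : T ∈ shapeSet ι cut τ) :
    qval T ∈ pinSet ι cut τ :=
  hT _ _ fun hh => absurd (Fin.castAdd_injective _ _ hh) (by decide)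

theorem measurableSet_pinSet (hι : Monotone ι) (cut : ℝ) (τ : Pat (2 + d)) :
    MeasurableSet (pinSet ι cut τ) :=
  (hι.measurable (measurableSet_singleton _)).inter measurableSet_Iic

theorem measurableSet_shapeEv (hι : Monotone ι) (cut : ℝ) (τ : Pat (2 + d)) :
    MeasurableSet (shapeEv ι cut τ) :=
  measurable_tmat _ (measurableSet_shapeSet hι cut τ)

theorem pinSet_mass_pos (h : IsTreeArray ν ρ) (hι : Monotone ι) {cut : ℝ}
    (hpos : 0 < ν.real (shapeEv ι cut τ)) : 0 < (overlapLaw ν).real (pinSet ι cut τ) := by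
  haveI := h.prob
  rw [overlapLaw, map_measureReal_apply (measurable_rbar 0 1) (measurableSet_pinSet hι cut τ)]
  exact hpos.trans_le (measureReal_mono fun ω hω => qval_mem_pinSet hω)

theorem shapeDen_pos (h : IsTreeArray ν ρ) (hι : Monotone ι) {cut : ℝ}
    (hpos : 0 < ν.real (shapeEv ι cut τ)) : 0 < shapeDen ν ι cut τ :=
  div_pos hpos (pinSet_mass_pos h hι hpos)

theorem shape_law (h : IsTreeArray ν ρ) (hι : Monotone ι) {cut : ℝ}
    (hpos : 0 < ν.real (shapeEv ι cut τ)) {J : Set ℝ} (hJ : MeasurableSet J)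
    (hJA : J ⊆ pinSet ι cut τ) :
    ν.real (shapeEv ι cut τ ∩ rbar 0 1 ⁻¹' J) =
      shapeDen ν ι cut τ * (overlapLaw ν).real J := by
  haveI := h.prob
  obtain ⟨ω, hω, -⟩ := exists_good_mem h hpos
  obtain ⟨hx1, hx2⟩ := qval_mem_pinSet (hω : tmat (idRep (2 + d)) ω ∈ shapeSet ι cut τ)
  have hcode : ∀ x ∈ pinSet ι cut τ, cutIota ι cut x = pat01 τ := fun x hx => by
    rw [cutIota, if_neg (not_lt.2 hx.2), add_zero, hx.1]
  have heq : cutIota ι cut ⁻¹' {pat01 τ} = pinSet ι cut τ := by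
    refine Set.Subset.antisymm (fun x hx => ?_) fun x hx => hcode x hx
    obtain ⟨e1, e2⟩ := cutIota_eq hι
      ((hx : cutIota ι cut x = pat01 τ).trans (hcode _ ⟨hx1, hx2⟩).symm)
    exact ⟨e1.trans hx1, not_lt.1 fun hlt => absurd (e2.1 hlt) (not_lt.2 hx2)⟩
  have hlaw := cells_law h (monotone_cutIota hι cut) (shapeSet ι cut τ)
    (fun T T' hTT hT => shapeSet_det hι T T' hTT hT) (a := pat01 τ)
    (fun T hT => hcode _ (qval_mem_pinSet hT)) hJ (heq.symm ▸ hJA)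
  have hm : mass ν (cutIota ι cut) (pat01 τ) = (overlapLaw ν).real (pinSet ι cut τ) := by
    rw [mass, heq]
  rw [hm] at hlaw
  have hA := pinSet_mass_pos h hι hpos
  rw [shapeDen, div_mul_eq_mul_div, eq_div_iff hA.ne']
  exact (mul_comm _ _).trans hlaw

theorem exists_shapeMean (h : IsTreeArray ν ρ) (hι : Monotone ι) {cut : ℝ}
    (hpos : 0 < ν.real (shapeEv ι cut τ)) (X : Arr → ℝ) (hX : Measurable X)
    (hXb : ∀ ω, |X ω| ≤ 1) : ∃ m, IsShapeMean ν ι cut τ X m :=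
  exists_mean h _ (measurableSet_shapeEv hι cut τ) X hX zero_le_one hXb _
    (measurableSet_pinSet hι cut τ) (shapeDen_pos h hι hpos) fun _ hJ hJA =>
    shape_law h hι hpos hJ hJA

/-- On a shape with an automorphism exchanging the pins the second moment is almost the square of
the mean. -/
def SecondMomentStmt : Prop :=
  ∀ (ν : Measure Arr) (ρ : ℝ), IsCoreArray ν ρ → ∀ θ : ℝ, 0 < θ → ∀ (m d : ℕ)
    (π : Equiv.Perm (Fin (2 + d))), (∀ i, (π i).val < 2 ↔ i.val < 2) →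
    (∀ i : Fin (2 + d), i.val < 2 → π i ≠ i) →
    (∀ η > 0, ∃ δ > 0, DoublesBd ν ρ δ (θ / 2) η m) →
    ∀ η δ : ℝ, 0 < η → η ≤ 1 → DoublesBd ν ρ δ (θ / 2) (η ^ 4) m →
    ∀ ι : ℝ → ℤ, IsMesh ρ δ ι → ∀ τ : Pat (2 + d), StepGood m π τ →
    0 < ν.real (shapeEv ι (ρ - θ) τ) →
    ∀ m₁ m₂ : ℝ → ℝ, IsShapeMean ν ι (ρ - θ) τ (fullOverlap d) m₁ →
      IsShapeMean ν ι (ρ - θ) τ (fun ω => fullOverlap d ω ^ 2) m₂ →
      ∀ᵐ q ∂(overlapLaw ν).restrict (pinSet ι (ρ - θ) τ), m₂ q ≤ m₁ q ^ 2 + 72 * η * d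

end Vale.Agent.P168.Structure
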