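import Vale.Agent.P168.Structure.Switch

/-! The induction step of the structure theorem, as a proposition. -/

open MeasureTheory ProbabilityTheory Filter
open scoped BigOperators NNReal ENNReal

noncomputable section

namespace Vale.Agent.P168.Structure

open Vale.Agent.P168

/-- Symmetric ultrametric matrices. -/
def GoodMat {D : ℕ} (T : Mat D) : Prop :=
  (∀ a b, T a b = T b a) ∧ ∀ a b c, min (T a b) (T b c) ≤ T a c

/-- A shape invariant under `π` whose hanging classes have size at most `m` in every monotone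
coarsening or refinement of every matrix of that shape. -/
def StepGood {d : ℕ} (m : ℕ) (π : Equiv.Perm (Fin (2 + d))) (τ : Pat (2 + d)) : Prop :=
  (∀ a b, a ≠ b → τ (π a) (π b) = τ a b) ∧
  ∀ ι : ℝ → ℤ, Monotone ι → ∀ T : Mat (2 + d), GoodMat T →
    (∀ a b, a ≠ b → ι (T a b) = τ a b) →
    ∀ ι' : ℝ → ℤ, Monotone ι' → ClassesLE (fun a b => ι' (T a b)) m

/-- The step: the doubles of size at most `m` give the shapes with classes of size at most `m`
which have an automorphism exchanging the pins. -/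
def StepStmt : Prop :=
  ∀ (ν : Measure Arr) (ρ : ℝ), IsCoreArray ν ρ → ∀ θ : ℝ, 0 < θ → ∀ (m d : ℕ)
    (π : Equiv.Perm (Fin (2 + d))), (∀ i, (π i).val < 2 ↔ i.val < 2) →
    (∀ i : Fin (2 + d), i.val < 2 → π i ≠ i) →
    (∀ η > 0, ∃ δ > 0, DoublesBd ν ρ δ (θ / 2) η m) →
    ∀ η > 0, ∃ δ > 0, ShapeBd ν ρ δ θ η (2 + d) (StepGood m π)

end Vale.Agent.P168.Structure
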