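import Vale.Agent.P168.Structure.StepDefs

/-! Conditional means given the overlap of the pins, and their comparison across shapes. -/

open MeasureTheory ProbabilityTheory Filter
open scoped BigOperators NNReal ENNReal

noncomputable section

namespace Vale.Agent.P168.Structure

open Vale.Agent.P168

variable {ν : Measure Arr} {ρ : ℝ} {ι : ℝ → ℤ}

/-- The code of the pins in a pattern. -/
def pat01 {e : ℕ} (s : Pat (2 + e)) : ℤ := s (Fin.castAdd e 0) (Fin.castAdd e 1)

/-- The overlap of the pins in a matrix. -/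
def qval {e : ℕ} (T : Mat (2 + e)) : ℝ := T (Fin.castAdd e 0) (Fin.castAdd e 1)

theorem qval_tmat (e : ℕ) (ω : Arr) : qval (tmat (idRep (2 + e)) ω) = rbar 0 1 ω := rfl

theorem measurable_qval (e : ℕ) : Measurable (qval (e := e)) := by
  unfold qval; fun_prop

theorem rsetClip_repData {D n : ℕ} (u : Fin D → Fin n) (ω : Arr) :
    rsetClip (List.ofFn u) (repData n ω) = rset (repList u) ω := by
  simp [repData_eq_repMap, rsetClip_repMap, List.map_ofFn, Function.comp_def, repList, idRep]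

theorem rsetClip_repMap' {D n N : ℕ} (u : Fin D → Fin n) (w : Fin n → Fin N) (ω : Arr) :
    rsetClip (List.ofFn u) (repMap (fun i => (w i : ℕ)) ω) = rset (repList fun a => w (u a)) ω := by
  simp [rsetClip_repMap, List.map_ofFn, Function.comp_def, repList]

/-- Given the code of the pins, the law of their overlap is the same in every pattern. -/
theorem q_law (h : IsTreeArray ν ρ) (hι : Monotone ι) {e : ℕ} (s : Pat (2 + e))
    (hs : PosPat ν ι s) (g : ℝ → ℝ) (hg : Measurable g) (hgb : ∀ q, |g q| ≤ 1) :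
    mass ν ι (pat01 s) * ∫ ω in cell ι (idRep (2 + e)) s, g (rbar 0 1 ω) ∂ν =
      ν.real (cell ι (idRep (2 + e)) s) * ∫ q in ι ⁻¹' {pat01 s}, g q ∂overlapLaw ν := by
  haveI := h.prob
  obtain ⟨K, -, hK, hP⟩ := cell_scale h hι (by norm_num : 1 ≤ 2) (Fin.castAdd e)
    (Fin.castAdd_injective 2 e) s
  have hK' := hK (fun z => g (rbarData z 0 1)) (hg.comp (measurable_rbarData 0 1)) fun z => hgb _
  have hae : cell ι (idRep 2) (patMap (Fin.castAdd e) s) =ᵐ[ν]
      rbar 0 1 ⁻¹' (ι ⁻¹' {pat01 s}) := by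
    obtain ⟨ω₀, hω₀, hg₀⟩ := exists_good_mem h hs
    filter_upwards [ae_goodPt h] with ω hgω
    refine eq_iff_iff.2 ⟨fun hω => hω 0 1, fun hω a b => ?_⟩
    have e₀ := hω₀ (Fin.castAdd e a) (Fin.castAdd e b)
    have e1 : ι (rbar 0 1 ω) = pat01 s := hω
    have e2 : ι (rbar 0 1 ω₀) = pat01 s := hω₀ (Fin.castAdd e 0) (Fin.castAdd e 1)
    show ι (rbar (a : ℕ) (b : ℕ) ω) = s (Fin.castAdd e a) (Fin.castAdd e b)
    refine Eq.trans ?_ e₀
    show ι (rbar (a : ℕ) (b : ℕ) ω) = ι (rbar (a : ℕ) (b : ℕ) ω₀)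
    fin_cases a <;> fin_cases b <;>
      simp [(hgω 0 0 0).2.1, (hg₀ 0 0 0).2.1, (hgω 1 1 1).2.1, (hg₀ 1 1 1).2.1, e1, e2,
        (hgω 1 0 0).1, (hg₀ 1 0 0).1]
  have hB : MeasurableSet (ι ⁻¹' {pat01 s}) := hι.measurable (measurableSet_singleton _)
  have h2 : ∫ ω in cell ι (idRep 2) (patMap (Fin.castAdd e) s),
      g (rbarData (repData 2 ω) 0 1) ∂ν = ∫ q in ι ⁻¹' {pat01 s}, g q ∂overlapLaw ν := by
    rw [setIntegral_congr_set hae, overlapLaw,
      setIntegral_map hB hg.aestronglyMeasurable (measurable_rbar 0 1).aemeasurable]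
    rfl
  have h3 : ν.real (cell ι (idRep 2) (patMap (Fin.castAdd e) s)) = mass ν ι (pat01 s) := by
    rw [mass, overlapLaw, map_measureReal_apply (measurable_rbar 0 1) hB]
    exact measureReal_congr hae
  rw [h2] at hK'
  rw [h3] at hP
  have hK'' : ∫ ω in cell ι (idRep (2 + e)) s, g (rbar 0 1 ω) ∂ν =
      K * ∫ q in ι ⁻¹' {pat01 s}, g q ∂overlapLaw ν := hK'
  rw [hK'', hP]
  ring

theorem eq_iUnion_patSet {n : ℕ} (S : Set (Mat n))
    (hdet : ∀ T T', (∀ a b, ι (T a b) = ι (T' a b)) → T ∈ S → T' ∈ S) :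
    S = ⋃ s : {s : Pat n // patSet ι s ⊆ S}, patSet ι s.1 :=
  Set.Subset.antisymm (fun T hT => Set.mem_iUnion.2 ⟨⟨fun a b => ι (T a b),
    fun T' hT' => hdet T T' (fun a b => (hT' a b).symm) hT⟩, fun _ _ => rfl⟩)
    (Set.iUnion_subset fun s => s.2)

theorem measurableSet_of_det (hι : Monotone ι) {n : ℕ} (S : Set (Mat n))
    (hdet : ∀ T T', (∀ a b, ι (T a b) = ι (T' a b)) → T ∈ S → T' ∈ S) : MeasurableSet S := by
  rw [eq_iUnion_patSet S hdet]
  exact MeasurableSet.iUnion fun s => measurableSet_patSet hι _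

/-- An event made of cells whose pins share one code gives the law of their overlap. -/
theorem cells_law (h : IsTreeArray ν ρ) (hι : Monotone ι) {e : ℕ} (S : Set (Mat (2 + e)))
    (hdet : ∀ T T', (∀ a b, ι (T a b) = ι (T' a b)) → T ∈ S → T' ∈ S) {a : ℤ}
    (hbin : ∀ T ∈ S, ι (qval T) = a) {J : Set ℝ} (hJ : MeasurableSet J) (hJa : J ⊆ ι ⁻¹' {a}) :
    mass ν ι a * ν.real (tmat (idRep (2 + e)) ⁻¹' S ∩ rbar 0 1 ⁻¹' J) =
      ν.real (tmat (idRep (2 + e)) ⁻¹' S) * (overlapLaw ν).real J := by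
  classical
  haveI := h.prob
  set I := {s : Pat (2 + e) // patSet ι s ⊆ S}
  have hsum : ∀ Q : Set Arr, MeasurableSet Q →
      ν.real (tmat (idRep (2 + e)) ⁻¹' S ∩ Q) =
        ∑' s : I, ν.real (cell ι (idRep (2 + e)) s.1 ∩ Q) := by
    intro Q hQ
    have hu : tmat (idRep (2 + e)) ⁻¹' S ∩ Q = ⋃ s : I, cell ι (idRep (2 + e)) s.1 ∩ Q := by
      conv_lhs => rw [eq_iUnion_patSet S hdet, Set.preimage_iUnion, Set.iUnion_inter]
      rfl
    have hd : Pairwise (Function.onFun Disjoint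
        fun s : I => cell ι (idRep (2 + e)) s.1 ∩ Q) := by
      intro s s' hne
      refine Set.disjoint_left.2 fun ω h1 h2 => hne (Subtype.ext ?_)
      funext x y
      rw [← h1.1 x y, h2.1 x y]
    rw [Measure.real, hu, measure_iUnion hd fun s => (measurableSet_cell hι _ _).inter hQ,
      ENNReal.tsum_toReal_eq fun s => measure_ne_top _ _]
    rfl
  have hS := hsum Set.univ MeasurableSet.univ
  simp only [Set.inter_univ] at hS
  rw [hsum _ (measurable_rbar 0 1 hJ), hS, ← tsum_mul_left, ← tsum_mul_right]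
  refine tsum_congr fun s => ?_
  by_cases hpos : PosPat ν ι s.1
  · obtain ⟨ω, hω, -⟩ := exists_good_mem h hpos
    have ha : pat01 s.1 = a := (hω _ _).symm.trans (hbin _ (s.2 hω))
    have hq := q_law h hι s.1 hpos (J.indicator 1) (measurable_one.indicator hJ)
      (abs_indicator_one_le J)
    rw [ha] at hq
    have e1 : ∫ ω in cell ι (idRep (2 + e)) s.1, J.indicator (1 : ℝ → ℝ) (rbar 0 1 ω) ∂ν =
        ν.real (cell ι (idRep (2 + e)) s.1 ∩ rbar 0 1 ⁻¹' J) := by
      have : (fun ω => J.indicator (1 : ℝ → ℝ) (rbar 0 1 ω)) =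
          (rbar 0 1 ⁻¹' J).indicator 1 := rfl
      rw [this, integral_indicator_one (measurable_rbar 0 1 hJ),
        measureReal_restrict_apply (measurable_rbar 0 1 hJ), Set.inter_comm]
    rw [e1, setIntegral_indicator hJ, Set.inter_eq_right.2 hJa] at hq
    simpa using hq
  · have h0 : ν.real (cell ι (idRep (2 + e)) s.1) = 0 :=
      le_antisymm (not_lt.1 hpos) measureReal_nonneg
    have h1 : ν.real (cell ι (idRep (2 + e)) s.1 ∩ rbar 0 1 ⁻¹' J) = 0 :=
      le_antisymm ((measureReal_mono Set.inter_subset_left).trans h0.le) measureReal_nonneg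
    rw [h0, h1]; ring

/-- Densities of bounded functions in the overlap of the pins. -/
theorem exists_dens (h : IsTreeArray ν ρ) (X : Arr → ℝ) (hX : Measurable X) {B : ℝ}
    (hXb : ∀ ω, |X ω| ≤ B) :
    ∃ a : ℝ → ℝ, Measurable a ∧ (∀ q, |a q| ≤ B) ∧ ∀ g : ℝ → ℝ, Measurable g →
      (∀ q, |g q| ≤ 1) → ∫ ω, g (rbar 0 1 ω) * X ω ∂ν = ∫ q, g q * a q ∂overlapLaw ν := by
  haveI := h.prob
  have hB : 0 ≤ B := (abs_nonneg _).trans (hXb (fun _ _ => true, fun _ _ _ => 0))
  set M := ν.map fun ω => (rbar 0 1 ω, X ω) with hM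
  have hm : Measurable fun ω => (rbar 0 1 ω, X ω) := (measurable_rbar 0 1).prodMk hX
  haveI : IsProbabilityMeasure M := Measure.isProbabilityMeasure_map hm.aemeasurable
  have hfst : M.fst = overlapLaw ν := Measure.fst_map_prodMk hX
  set cl : ℝ → ℝ := fun x => max (-B) (min B x) with hcl
  have hclm : Measurable cl := measurable_const.max (measurable_const.min measurable_id)
  have hclb : ∀ x, |cl x| ≤ B := fun x =>
    abs_le.2 ⟨le_max_left _ _, max_le (by linarith) (min_le_left _ _)⟩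
  refine ⟨fun q => ∫ x, cl x ∂M.condKernel q,
    (hclm.stronglyMeasurable.integral_kernel).measurable, fun q => ?_, fun g hg hgb => ?_⟩
  · have := norm_integral_le_of_norm_le_const (μ := M.condKernel q) (f := cl) (C := B)
      (Eventually.of_forall fun x => hclb x)
    simpa using this
  · have hgi : Measurable fun p : ℝ × ℝ => g p.1 * cl p.2 :=
      (hg.comp measurable_fst).mul (hclm.comp measurable_snd)
    have hb : ∀ p : ℝ × ℝ, ‖g p.1 * cl p.2‖ ≤ B := fun p => by
      rw [Real.norm_eq_abs, abs_mul]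
      exact le_trans (mul_le_mul (hgb _) (hclb _) (abs_nonneg _) zero_le_one) (one_mul B).le
    calc ∫ ω, g (rbar 0 1 ω) * X ω ∂ν = ∫ p, g p.1 * cl p.2 ∂M := by
          rw [hM, integral_map hm.aemeasurable hgi.aestronglyMeasurable]
          refine integral_congr_ae (Eventually.of_forall fun ω => ?_)
          have := abs_le.1 (hXb ω)
          simp only [hcl]
          rw [min_eq_right this.2, max_eq_right this.1]
      _ = ∫ p, g p.1 * cl p.2 ∂(M.fst ⊗ₘ M.condKernel) := by rw [M.disintegrate M.condKernel]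
      _ = ∫ q, ∫ x, g q * cl x ∂M.condKernel q ∂M.fst := by
          rw [Measure.integral_compProd]
          exact Integrable.of_bound hgi.aestronglyMeasurable B (Eventually.of_forall hb)
      _ = _ := by simp_rw [integral_const_mul, hfst]

/-- The conditional mean of `X` on `S` given the overlap of the pins. -/
theorem exists_mean (h : IsTreeArray ν ρ) (S : Set Arr) (hS : MeasurableSet S) (X : Arr → ℝ)
    (hX : Measurable X) {B : ℝ} (hB : 0 ≤ B) (hXb : ∀ ω, |X ω| ≤ B) (A : Set ℝ)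
    (hA : MeasurableSet A) {b₀ : ℝ} (hb₀ : 0 < b₀)
    (hb : ∀ J, MeasurableSet J → J ⊆ A →
      ν.real (S ∩ rbar 0 1 ⁻¹' J) = b₀ * (overlapLaw ν).real J) :
    ∃ m : ℝ → ℝ, Measurable m ∧ (∀ q, |m q| ≤ B) ∧ ∀ J, MeasurableSet J → J ⊆ A →
      ∫ ω in S ∩ rbar 0 1 ⁻¹' J, X ω ∂ν = b₀ * ∫ q in J, m q ∂overlapLaw ν := by
  haveI := h.prob
  haveI := overlapLaw_prob h
  obtain ⟨a, ham, hab, hag⟩ := exists_dens h (S.indicator X) (hX.indicator hS) (B := B) fun ω => by
    by_cases hω : ω ∈ S <;> simp [hω, hXb, hB]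
  have hset : ∀ J, MeasurableSet J →
      ∫ ω in S ∩ rbar 0 1 ⁻¹' J, X ω ∂ν = ∫ q in J, a q ∂overlapLaw ν := fun J hJ => by
    have := hag (J.indicator 1) (measurable_one.indicator hJ) (abs_indicator_one_le J)
    have e1 : (fun ω => J.indicator (1 : ℝ → ℝ) (rbar 0 1 ω) * S.indicator X ω) =
        (S ∩ rbar 0 1 ⁻¹' J).indicator X := by
      funext ω
      by_cases h1 : ω ∈ S <;> by_cases h2 : rbar 0 1 ω ∈ J <;> simp [h1, h2]
    have e2 : (fun q => J.indicator (1 : ℝ → ℝ) q * a q) = J.indicator a := by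
      funext q; by_cases h2 : q ∈ J <;> simp [h2]
    rwa [e1, e2, integral_indicator (hS.inter (measurable_rbar 0 1 hJ)),
      integral_indicator hJ] at this
  have hai : Integrable a ((overlapLaw ν).restrict A) :=
    Integrable.of_bound ham.aestronglyMeasurable B (Eventually.of_forall hab)
  have habs : ∀ J, MeasurableSet J → J ⊆ A →
      |∫ q in J, a q ∂overlapLaw ν| ≤ B * (b₀ * (overlapLaw ν).real J) := fun J hJ hJA => by
    rw [← hset J hJ, ← hb J hJ hJA, ← Real.norm_eq_abs]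
    exact norm_setIntegral_le_of_norm_le_const (measure_lt_top _ _) fun ω _ => hXb ω
  have hup : a ≤ᵐ[(overlapLaw ν).restrict A] fun _ => B * b₀ := by
    refine ae_le_of_forall_setIntegral_le hai (integrable_const _) fun J hJ _ => ?_
    rw [Measure.restrict_restrict hJ, setIntegral_const, smul_eq_mul]
    linarith [(abs_le.1 (habs _ (hJ.inter hA) Set.inter_subset_right)).2]
  have hdown : (fun _ => -(B * b₀)) ≤ᵐ[(overlapLaw ν).restrict A] a := by
    refine ae_le_of_forall_setIntegral_le (integrable_const _) hai fun J hJ _ => ?_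
    rw [Measure.restrict_restrict hJ, setIntegral_const, smul_eq_mul]
    linarith [(abs_le.1 (habs _ (hJ.inter hA) Set.inter_subset_right)).1]
  refine ⟨fun q => max (-B) (min B (a q / b₀)),
    measurable_const.max (measurable_const.min (ham.div_const b₀)),
    fun q => abs_le.2 ⟨le_max_left _ _, max_le (by linarith) (min_le_left _ _)⟩, fun J hJ hJA => ?_⟩
  rw [hset J hJ, ← integral_const_mul]
  refine setIntegral_congr_ae hJ ?_
  have hae := ae_imp_of_ae_restrict (hup.and hdown)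
  filter_upwards [hae] with q hq hqJ
  obtain ⟨h1, h2⟩ := hq (hJA hqJ)
  rw [min_eq_right (by rw [div_le_iff₀ hb₀]; linarith),
    max_eq_right (by rw [le_div_iff₀ hb₀]; linarith)]
  field_simp

end Vale.Agent.P168.Structure
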