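import Vale.Agent.P168.Structure.ClassSwitch
import Vale.Agent.P168.Structure.Refine

/-! Two configurations with the same pins and shape have almost the same multi-overlap. -/

open MeasureTheory ProbabilityTheory Filter
open scoped BigOperators NNReal ENNReal

noncomputable section

namespace Vale.Agent.P168.Structure

open Vale.Agent.P168

variable {ν : Measure Arr} {ρ : ℝ}

/-- The attachment cell of a label: its largest cell with a pin. -/
def attachLevel {d : ℕ} (τ : Pat (2 + d)) (l : Fin d) : ℤ :=
  max (τ (Fin.castAdd d 0) (Fin.natAdd 2 l)) (τ (Fin.castAdd d 1) (Fin.natAdd 2 l))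

/-- The hanging class of a label. -/
def hangClass {d : ℕ} (τ : Pat (2 + d)) (l : Fin d) : Finset (Fin d) :=
  Finset.univ.filter fun l' =>
    l' = l ∨ attachLevel τ l < τ (Fin.natAdd 2 l) (Fin.natAdd 2 l')

/-- All hanging classes have at most `m` labels. -/
def ClassesLE {d : ℕ} (τ : Pat (2 + d)) (m : ℕ) : Prop := ∀ l, (hangClass τ l).card ≤ m

theorem measurableSet_shapeSet {ι : ℝ → ℤ} (hι : Monotone ι) (cut : ℝ) {D : ℕ} (τ : Pat D) :
    MeasurableSet (shapeSet ι cut τ) := by
  simp only [shapeSet, Set.setOf_forall]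
  refine MeasurableSet.iInter fun a => MeasurableSet.iInter fun b => MeasurableSet.iInter fun _ =>
    ?_
  have hm : Measurable fun T : Mat D => T a b := by fun_prop
  exact ((hι.measurable.comp hm) (measurableSet_singleton _)).inter (hm measurableSet_Iic)

/-- Configurations with offdiagonal shape `τ` below the cut, inside matrices of `n` replicas. -/
def subShape (ι : ℝ → ℤ) (cut : ℝ) {D n : ℕ} (u : Fin D → Fin n) (τ : Pat D) : Set (Mat n) :=
  (fun T a b => T (u a) (u b)) ⁻¹' shapeSet ι cut τ

theorem measurableSet_subShape {ι : ℝ → ℤ} (hι : Monotone ι) (cut : ℝ) {D n : ℕ}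
    (u : Fin D → Fin n) (τ : Pat D) : MeasurableSet (subShape ι cut u τ) :=
  (by fun_prop : Measurable fun (T : Mat n) a b => T (u a) (u b))
    (measurableSet_shapeSet hι cut τ)

/-- A cell value whose points all lie below the cut. -/
def LowCode (ιf : ℝ → ℤ) (cut : ℝ) (b : ℤ) : Prop := ∀ r, ιf r = b → r ≤ cut

theorem lowCode_le {ιf : ℝ → ℤ} (hιf : Monotone ιf) {cut : ℝ} {b b' : ℤ}
    (hb : LowCode ιf cut b) {r₀ : ℝ} (hr₀ : ιf r₀ = b) (hle : b' ≤ b) : LowCode ιf cut b' := by
  intro r hr
  rcases lt_or_eq_of_le hle with h | h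
  · refine le_trans (le_of_lt ?_) (hb r₀ hr₀)
    by_contra hge
    exact absurd (hιf (not_lt.1 hge)) (by rw [hr₀, hr]; exact not_le.2 h)
  · exact hb r (hr.trans h)

theorem to_star (h : IsTreeArray ν ρ) {ι ιf : ℝ → ℤ} {δ θ η : ℝ} {m d : ℕ} (hη : 0 < η)
    (hη1 : η ≤ 1) (hD : DoublesBd ν ρ δ θ (η ^ 4) m) (hmesh : IsMesh ρ δ ι) (hιf : Monotone ιf)
    (href : ∀ x y, ιf x = ιf y → ι x = ι y) {N : ℕ} (s : Pat N) (hs : PosPat ν ιf s)
    (c : Pat N) (hc : ∀ ω ∈ cell ιf (idRep N) s, ∀ x y : Fin N, ι (rbar x y ω) = c x y)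
    (τ : Pat (2 + d)) (hcl : ClassesLE τ m) (v w : Fin (2 + d) → Fin N)
    (hv : Function.Injective v) (hw : Function.Injective w)
    (hpins : ∀ p, v (Fin.castAdd d p) = w (Fin.castAdd d p))
    (hfresh : ∀ l x, w (Fin.natAdd 2 l) ≠ v x)
    (hvc : ∀ a b, a ≠ b → c (v a) (v b) = τ a b) (hwc : ∀ a b, a ≠ b → c (w a) (w b) = τ a b)
    (hlow : ∀ a b, a ≠ b → LowCode ιf (ρ - θ) (s (v a) (v b)) ∧
      LowCode ιf (ρ - θ) (s (w a) (w b)))
    (hsep : ∀ x l, ∃ p : Fin 2,
      s (v x) (w (Fin.natAdd 2 l)) ≤ s (w (Fin.castAdd d p)) (w (Fin.natAdd 2 l))) :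
    ∫ ω in cell ιf (idRep N) s, |rset (repList v) ω - rset (repList w) ω| ∂ν ≤
      18 * η * d * ν.real (cell ιf (idRep N) s) := by
  classical
  haveI := h.prob
  obtain ⟨ω₀, hω₀, hg₀⟩ := exists_good_mem h hs
  have hcv : ∀ x y : Fin N, ι (rbar x y ω₀) = c x y := hc ω₀ hω₀
  have hsv : ∀ x y : Fin N, ιf (rbar x y ω₀) = s x y := hω₀
  have hcu : IsUltraPat (ι ρ) c :=
    ⟨fun i j => by rw [← hcv, ← hcv, (hg₀ i j i).1], fun i => by rw [← hcv, (hg₀ i i i).2.1],
      fun i j => by rw [← hcv]; exact hg₀.iota_le hmesh.1 i j,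
      fun i j k => by rw [← hcv, ← hcv, ← hcv]; exact hg₀.iota hmesh.1 i j k⟩
  have hsu := hs.isUltra h hιf
  have hmono : ∀ x y x' y' : Fin N, s x y ≤ s x' y' → c x y ≤ c x' y' := by
    intro x y x' y' hle'
    rcases lt_or_eq_of_le hle' with hlt | heq
    · rw [← hcv, ← hcv]
      refine hmesh.1 (le_of_lt ?_)
      by_contra hge
      exact absurd (hιf (not_lt.1 hge)) (by rw [hsv, hsv]; exact not_le.2 hlt)
    · rw [← hcv, ← hcv]
      exact (href _ _ (by rw [hsv, hsv, heq])).le
  -- shorthands for labels and pins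
  let pin : Fin 2 → Fin (2 + d) := Fin.castAdd d
  let lab : Fin d → Fin (2 + d) := Fin.natAdd 2
  have hne_pl : ∀ p l, pin p ≠ lab l := fun p l e => by
    have := congrArg Fin.val e
    simp [pin, lab] at this
    omega
  have hlab_inj : Function.Injective lab := Fin.natAdd_injective _ _
  have htau : ∀ a b, a ≠ b → τ a b = τ b a := fun a b hab => by
    rw [← hvc a b hab, ← hvc b a hab.symm, hcu.symm]
  have htau3 : ∀ a b e, a ≠ b → b ≠ e → a ≠ e → min (τ a b) (τ b e) ≤ τ a e := fun a b e h1 h2 h3 => by
    rw [← hvc a b h1, ← hvc b e h2, ← hvc a e h3]; exact hcu.ultra _ _ _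
  have hattach : ∀ l p, τ (pin p) (lab l) ≤ attachLevel τ l := fun l p => by
    fin_cases p <;> simp [attachLevel, pin, lab]
  have hattach_ex : ∀ l, ∃ p, τ (pin p) (lab l) = attachLevel τ l := fun l => by
    rcases max_choice (τ (pin 0) (lab l)) (τ (pin 1) (lab l)) with e | e
    · exact ⟨0, e.symm⟩
    · exact ⟨1, e.symm⟩
  have hmem_eq : ∀ l l', l' ≠ l → attachLevel τ l < τ (lab l) (lab l') → ∀ p,
      τ (pin p) (lab l) ≤ τ (pin p) (lab l') ∧ τ (pin p) (lab l') ≤ attachLevel τ l := by
    intro l l' hne hlt p
    have hne' : lab l ≠ lab l' := hlab_inj.ne hne.symm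
    refine ⟨(le_min le_rfl ((hattach l p).trans hlt.le)).trans
      (htau3 _ _ _ (hne_pl p l) hne' (hne_pl p l')), ?_⟩
    by_contra hgt
    have h1 := htau3 _ _ _ (hne_pl p l') hne'.symm (hne_pl p l)
    rw [htau (lab l') (lab l) hne'.symm] at h1
    exact absurd ((lt_min (not_le.1 hgt) hlt).trans_le (h1.trans (hattach l p))) (lt_irrefl _)
  have hclass_attach : ∀ l l', l' ∈ hangClass τ l → attachLevel τ l' = attachLevel τ l := by
    intro l l' hl'
    rcases (Finset.mem_filter.1 hl').2 with rfl | hlt
    · rfl
    · by_cases hne : l' = l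
      · rw [hne]
      · obtain ⟨p, hp⟩ := hattach_ex l
        refine le_antisymm (max_le (hmem_eq l l' hne hlt 0).2 (hmem_eq l l' hne hlt 1).2) ?_
        rw [← hp]
        exact (hmem_eq l l' hne hlt p).1.trans (hattach l' p)
  have hclass_in : ∀ l l₁ l₂, l₁ ∈ hangClass τ l → l₂ ∈ hangClass τ l → l₁ ≠ l₂ →
      attachLevel τ l < τ (lab l₁) (lab l₂) := by
    intro l l₁ l₂ h1 h2 hne
    rcases (Finset.mem_filter.1 h1).2 with rfl | h1'
    · exact ((Finset.mem_filter.1 h2).2).resolve_left hne.symm
    · rcases (Finset.mem_filter.1 h2).2 with rfl | h2'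
      · by_cases e : l₁ = l₂
        · exact absurd e hne
        · rw [htau _ _ (hlab_inj.ne hne)]; exact h1'
      · by_cases e1 : l₁ = l
        · subst e1; exact h2'
        by_cases e2 : l₂ = l
        · subst e2; rw [htau _ _ (hlab_inj.ne hne)]; exact h1'
        refine (lt_min ?_ h2').trans_le
          (htau3 _ (lab l) _ (hlab_inj.ne e1) (hlab_inj.ne (Ne.symm e2)) (hlab_inj.ne hne))
        rw [htau _ _ (hlab_inj.ne e1)]; exact h1'
  have hclass_symm : ∀ l l', l' ∈ hangClass τ l → l ∈ hangClass τ l' := by
    intro l l' hl'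
    by_cases e : l = l'
    · simp [hangClass, e]
    · refine Finset.mem_filter.2 ⟨Finset.mem_univ _, Or.inr ?_⟩
      rw [hclass_attach l l' hl']
      exact hclass_in l l' l hl' (by simp [hangClass]) (Ne.symm e)
  have hclass_trans : ∀ l l' l'', l' ∈ hangClass τ l → l'' ∈ hangClass τ l' →
      l'' ∈ hangClass τ l := by
    intro l l' l'' h1 h2
    by_cases e : l'' = l
    · simp [hangClass, e]
    refine Finset.mem_filter.2 ⟨Finset.mem_univ _, Or.inr ?_⟩
    rw [← hclass_attach l l' h1]
    exact hclass_in l' l l'' (hclass_symm l l' h1) h2 (Ne.symm e)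
  -- intermediate configurations
  let conf : Finset (Fin d) → Fin (2 + d) → Fin N := fun S =>
    Fin.addCases (fun p => v (pin p)) fun l => if l ∈ S then w (lab l) else v (lab l)
  have hconf_pin : ∀ S p, conf S (pin p) = v (pin p) := fun S p => by simp [conf, pin]
  have hconf_lab : ∀ S l, conf S (lab l) = if l ∈ S then w (lab l) else v (lab l) := fun S l => by
    simp [conf, lab]
  have hconf_cases : ∀ S x, conf S x = v x ∨ conf S x = w x := by
    intro S x
    induction x using Fin.addCases with
    | left p => exact Or.inl (hconf_pin S p)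
    | right l =>
      show conf S (lab l) = v (lab l) ∨ conf S (lab l) = w (lab l)
      rw [hconf_lab]; split_ifs <;> simp
  suffices key : ∀ S : Finset (Fin d), (∀ l ∈ S, hangClass τ l ⊆ S) →
      ∫ ω in cell ιf (idRep N) s, |rset (repList (conf S)) ω - rset (repList v) ω| ∂ν ≤
        18 * η * S.card * ν.real (cell ιf (idRep N) s) by
    have h1 : conf Finset.univ = w := by
      funext x
      induction x using Fin.addCases with
      | left p =>
        show conf Finset.univ (pin p) = w (pin p)
        rw [hconf_pin]; exact hpins p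
      | right l =>
        show conf Finset.univ (lab l) = w (lab l)
        rw [hconf_lab]; simp
    have := key Finset.univ fun l _ => Finset.subset_univ _
    rw [h1, Finset.card_univ, Fintype.card_fin] at this
    simpa [abs_sub_comm] using this
  intro S
  induction S using Finset.strongInduction with
  | H S ih =>
    intro hS
    rcases S.eq_empty_or_nonempty with rfl | ⟨l, hl⟩
    · have : conf ∅ = v := by
        funext x
        induction x using Fin.addCases with
        | left p => exact hconf_pin _ p
        | right l =>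
          show conf ∅ (lab l) = v (lab l)
          rw [hconf_lab]; simp
      simp [this]
    set C := hangClass τ l with hC
    have hlC : l ∈ C := by simp [hC, hangClass]
    have hCS : C ⊆ S := hS l hl
    set S₀ := S \ C with hS₀
    have hS₀closed : ∀ l' ∈ S₀, hangClass τ l' ⊆ S₀ := by
      intro l' hl' l'' hl''
      obtain ⟨h1, h2⟩ := Finset.mem_sdiff.1 hl'
      exact Finset.mem_sdiff.2 ⟨hS l' h1 hl'',
        fun hc' => h2 (hclass_trans l l'' l' hc' (hclass_symm l' l'' hl''))⟩
    have hih := ih S₀ (Finset.sdiff_ssubset hCS ⟨l, hlC⟩) hS₀closed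
    -- the index maps
    set CC : Finset (Fin (2 + d)) := C.map ⟨lab, hlab_inj⟩ with hCC
    have hCCc : CC.card = C.card := Finset.card_map _
    set e := finSumEquivOfFinset (α := Fin (2 + d)) (s := CCᶜ) (m := CCᶜ.card) (n := CC.card) rfl
      (by rw [compl_compl]) with he
    set Z : Fin CCᶜ.card → Fin N := fun z => conf S₀ (e (Sum.inl z)) with hZ
    set H : Fin CC.card → Fin N := fun i => v (e (Sum.inr i)) with hH
    set H' : Fin CC.card → Fin N := fun i => w (e (Sum.inr i)) with hH'
    have heZ : ∀ z, e (Sum.inl z) ∉ CC := fun z hmem => by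
      have h3 : e (Sum.inl z) ∈ CCᶜ := by simp [he, finSumEquivOfFinset_inl]
      exact (Finset.mem_compl.1 h3) hmem
    have heH : ∀ i, ∃ l' ∈ C, lab l' = e (Sum.inr i) := fun i => by
      have h3 : e (Sum.inr i) ∈ CCᶜᶜ := by
        rw [he, finSumEquivOfFinset_inr]; exact Finset.orderEmbOfFin_mem _ _ _
      rw [compl_compl] at h3
      obtain ⟨l', hl', hl''⟩ := Finset.mem_map.1 h3
      exact ⟨l', hl', hl''⟩
    have hpinZ : ∀ p, ∃ z, e (Sum.inl z) = pin p := fun p => by
      rcases hp : e.symm (pin p) with z | i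
      · exact ⟨z, by rw [← hp, Equiv.apply_symm_apply]⟩
      · obtain ⟨l', -, hl'⟩ := heH i
        rw [← hp, Equiv.apply_symm_apply] at hl'
        exact absurd hl'.symm (hne_pl p l')
    have hM : 1 ≤ CCᶜ.card := by
      obtain ⟨z, -⟩ := hpinZ 0
      exact z.pos
    have hj : 1 ≤ CC.card := by rw [hCCc]; exact Finset.card_pos.2 ⟨l, hlC⟩
    obtain ⟨p₀, hp₀⟩ := hattach_ex l
    obtain ⟨z₀, hz₀⟩ := hpinZ p₀
    set a := attachLevel τ l with ha
    have hCat : ∀ l' ∈ C, τ (pin p₀) (lab l') = a := by
      intro l' hl'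
      by_cases hne : l' = l
      · rw [hne, hp₀]
      · refine le_antisymm ((hattach l' p₀).trans (hclass_attach l l' hl').le) ?_
        rw [← hp₀]
        exact (hmem_eq l l' hne (((Finset.mem_filter.1 hl').2).resolve_left hne) p₀).1
    have hout : ∀ x, x ∉ CC → ∀ l' ∈ C, x ≠ lab l' ∧ τ x (lab l') ≤ a := by
      intro x hx l' hl'
      have hne : x ≠ lab l' := fun e => hx (Finset.mem_map.2 ⟨l', hl', e.symm⟩)
      refine ⟨hne, ?_⟩
      induction x using Fin.addCases with
      | left p => exact (hattach l' p).trans (hclass_attach l l' hl').le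
      | right l'' =>
        by_contra hgt
        rw [ha, ← hclass_attach l l' hl', htau _ _ hne] at hgt
        refine hx (Finset.mem_map.2 ⟨l'', ?_, rfl⟩)
        exact hclass_trans l l' l'' hl' (Finset.mem_filter.2 ⟨Finset.mem_univ _,
          Or.inr (not_le.1 hgt)⟩)
    have hwv : ∀ x l', c (v x) (w (lab l')) ≤ attachLevel τ l' ∧
        (∀ l'', x = lab l'' → c (w (lab l')) (v x) ≤ attachLevel τ l'') := by
      intro x l'
      obtain ⟨p, hp⟩ := hsep x l'
      have hle1 := hmono _ _ _ _ hp
      refine ⟨hle1.trans ((hwc _ _ (hne_pl p l')).le.trans (hattach l' p)), ?_⟩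
      rintro l'' rfl
      have h2 := sep_symm hcu hle1
      rw [← hpins] at h2
      exact h2.trans ((hvc _ _ (hne_pl p l'')).le.trans (hattach l'' p))
    have hinj3 : Function.Injective (joinMap3 Z H H') := by
      have hconf_inj : Function.Injective (conf S₀) := by
        intro x y hxy
        induction x using Fin.addCases with
        | left p =>
          induction y using Fin.addCases with
          | left q =>
            have hxy' : conf S₀ (pin p) = conf S₀ (pin q) := hxy
            rw [hconf_pin, hconf_pin] at hxy'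
            exact hv hxy'
          | right l' =>
            have hxy' : conf S₀ (pin p) = conf S₀ (lab l') := hxy
            rw [hconf_pin, hconf_lab] at hxy'
            split_ifs at hxy'
            · exact absurd hxy'.symm (hfresh _ _)
            · exact hv hxy'
        | right l₁ =>
          induction y using Fin.addCases with
          | left q =>
            have hxy' : conf S₀ (lab l₁) = conf S₀ (pin q) := hxy
            rw [hconf_pin, hconf_lab] at hxy'
            split_ifs at hxy'
            · exact absurd hxy' (hfresh _ _)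
            · exact hv hxy'
          | right l₂ =>
            have hxy' : conf S₀ (lab l₁) = conf S₀ (lab l₂) := hxy
            rw [hconf_lab, hconf_lab] at hxy'
            split_ifs at hxy'
            · exact hw hxy'
            · exact absurd hxy' (hfresh _ _)
            · exact absurd hxy'.symm (hfresh _ _)
            · exact hv hxy'
      refine joinMap_injective (joinMap_injective (hconf_inj.comp (e.injective.comp Sum.inl_injective))
        (hv.comp (e.injective.comp Sum.inr_injective)) fun i z hbad => ?_)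
        (hw.comp (e.injective.comp Sum.inr_injective)) fun i z => ?_
      · obtain ⟨l', hl', hle'⟩ := heH i
        have : conf S₀ (e (Sum.inr i)) = v (e (Sum.inr i)) := by
          rw [← hle', hconf_lab, if_neg fun hm => (Finset.mem_sdiff.1 hm).2 hl']
        exact absurd (e.injective (hconf_inj (this.trans hbad))) (by simp)
      · obtain ⟨l', hl', hle'⟩ := heH i
        induction z using Fin.addCases with
        | left z =>
          rw [joinMap_castAdd]
          intro hbad
          simp only [hH', hZ, ← hle'] at hbad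
          rcases hconf_cases S₀ (e (Sum.inl z)) with h' | h' <;> rw [h'] at hbad
          · exact hfresh _ _ hbad
          · exact heZ z (Finset.mem_map.2 ⟨l', hl', hw hbad⟩)
        | right z =>
          rw [joinMap_natAdd]
          simp only [hH', hH, ← hle']
          exact hfresh _ _
    have hsw := class_switch h hη hη1 hD hmesh hιf href hM hj (hCCc.le.trans (hcl l)) s hs Z H H'
      hinj3 c hc ?_ a z₀ ?_ ?_ ?_ ?_
    rotate_left
    · intro x y hxy
      rcases hxy with ⟨z, i, rfl, hy⟩ | ⟨i, i', hne, ⟨rfl, rfl⟩ | ⟨rfl, rfl⟩⟩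
      · obtain ⟨l', hl', hle'⟩ := heH i
        have hne : e (Sum.inl z) ≠ lab l' := (hout _ (heZ z) l' hl').1
        rcases hy with rfl | rfl <;> simp only [hZ, hH, hH', ← hle'] <;>
          rcases hconf_cases S₀ (e (Sum.inl z)) with h' | h' <;> rw [h']
        · exact (hlow _ _ hne).1
        · have hzl : ∃ l'', e (Sum.inl z) = lab l'' ∨
              w (e (Sum.inl z)) = v (e (Sum.inl z)) := by
            induction e (Sum.inl z) using Fin.addCases with
            | left p => exact ⟨l', Or.inr (hpins p).symm⟩
            | right l'' => exact ⟨l'', Or.inl rfl⟩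
          obtain ⟨l'', hl'' | hl''⟩ := hzl
          · obtain ⟨p, hp⟩ := hsep (lab l') l''
            rw [hl'', hsu.symm]
            exact lowCode_le hιf (hlow _ _ (hne_pl p l'')).2 (hsv _ _) hp
          · rw [hl'']; exact (hlow _ _ hne).1
        · obtain ⟨p, hp⟩ := hsep (e (Sum.inl z)) l'
          exact lowCode_le hιf (hlow _ _ (hne_pl p l')).2 (hsv _ _) hp
        · exact (hlow _ _ hne).2
      · exact (hlow _ _ (e.injective.ne (by simp [hne]))).1
      · exact (hlow _ _ (e.injective.ne (by simp [hne]))).2
    · intro i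
      obtain ⟨l', hl', hle'⟩ := heH i
      simp only [hZ, hH, hH', hz₀, hconf_pin, ← hle']
      exact ⟨(hvc _ _ (hne_pl p₀ l')).trans (hCat l' hl'),
        by rw [hpins]; exact (hwc _ _ (hne_pl p₀ l')).trans (hCat l' hl')⟩
    · intro z i
      obtain ⟨l', hl', hle'⟩ := heH i
      obtain ⟨hne, hle⟩ := hout _ (heZ z) l' hl'
      simp only [hZ, hH, hH', ← hle']
      rcases hconf_cases S₀ (e (Sum.inl z)) with h' | h' <;> rw [h']
      · exact ⟨(hvc _ _ hne).le.trans hle,
          ((hwv (e (Sum.inl z)) l').1).trans (hclass_attach l l' hl').le⟩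
      · refine ⟨?_, (hwc _ _ hne).le.trans hle⟩
        induction e (Sum.inl z) using Fin.addCases with
        | left p =>
          rw [← hpins]
          exact (hvc _ _ (hne_pl p l')).le.trans
            ((hattach l' p).trans (hclass_attach l l' hl').le)
        | right l'' =>
          exact ((hwv (lab l') l'').2 l' rfl).trans (hclass_attach l l' hl').le
    · intro i i' hne
      obtain ⟨l₁, hl₁, hle₁⟩ := heH i
      obtain ⟨l₂, hl₂, hle₂⟩ := heH i'
      have hne' : lab l₁ ≠ lab l₂ := by
        rw [hle₁, hle₂]; exact e.injective.ne (by simp [hne])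
      simp only [hH, hH', ← hle₁, ← hle₂, hvc _ _ hne', hwc _ _ hne']
      exact ⟨trivial, hclass_in l l₁ l₂ hl₁ hl₂ fun e => hne' (by rw [e])⟩
    · intro i i'
      obtain ⟨l', hl', hle'⟩ := heH i'
      obtain ⟨p, hp⟩ := hsep (e (Sum.inr i)) l'
      obtain ⟨z, hz⟩ := hpinZ p
      refine ⟨z, ?_⟩
      simp only [hH, hH', hZ, hz, hconf_pin, ← hle']
      rw [← hpins] at hp
      exact hp
    -- identify the two lists
    set eq' : Fin (CCᶜ.card + CC.card) ≃ Fin (2 + d) := finSumFinEquiv.symm.trans e with heq'
    have hperm : ∀ f : Fin (2 + d) → Fin N, (repList (fun z => f (e (Sum.inl z))) ++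
        repList fun i => f (e (Sum.inr i))).Perm (repList f) := by
      intro f
      rw [← repList_joinMap]
      have h1 : joinMap (fun z => f (e (Sum.inl z))) (fun i => f (e (Sum.inr i))) =
          fun x => f (eq' x) := by
        funext x
        induction x using Fin.addCases <;> simp [joinMap, heq']
      rw [h1, repList, repList]
      have hD' : CCᶜ.card + CC.card = 2 + d := by simpa using Fintype.card_congr eq'
      refine (List.Perm.of_eq (List.ofFn_congr hD' _)).trans ?_
      exact Equiv.Perm.ofFn_comp_perm ((finCongr hD').symm.trans eq') fun x => (f x : ℕ)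
    have hA : ∀ ω, rset (repList Z ++ repList H) ω = rset (repList (conf S₀)) ω := by
      intro ω
      have : H = fun i => conf S₀ (e (Sum.inr i)) := funext fun i => by
        obtain ⟨l', hl', hle'⟩ := heH i
        simp only [hH]
        rw [← hle', hconf_lab, if_neg fun hm => (Finset.mem_sdiff.1 hm).2 hl']
      rw [this, hZ]
      exact rset_perm_list (hperm (conf S₀)) ω
    have hB : ∀ ω, rset (repList Z ++ repList H') ω = rset (repList (conf S)) ω := by
      intro ω
      have h1 : H' = fun i => conf S (e (Sum.inr i)) := funext fun i => by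
        obtain ⟨l', hl', hle'⟩ := heH i
        simp only [hH']
        rw [← hle', hconf_lab, if_pos (hCS hl')]
      have h2 : Z = fun z => conf S (e (Sum.inl z)) := funext fun z => by
        have := heZ z
        simp only [hZ]
        revert this
        generalize e (Sum.inl z) = x
        intro this
        induction x using Fin.addCases with
        | left p => exact (hconf_pin S₀ p).trans (hconf_pin S p).symm
        | right l' =>
          show conf S₀ (lab l') = conf S (lab l')
          have hl' : l' ∉ C := fun hm => this (Finset.mem_map.2 ⟨l', hm, rfl⟩)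
          simp [hconf_lab, hS₀, hl']
      rw [h1, h2]
      exact rset_perm_list (hperm (conf S)) ω
    simp only [hA, hB] at hsw
    have hint : ∀ x y : List ℕ, Integrable (fun ω => |rset x ω - rset y ω|)
        (ν.restrict (cell ιf (idRep N) s)) := fun x y =>
      Integrable.of_bound ((measurable_rset x).sub (measurable_rset y)).norm.aestronglyMeasurable 2
        (Eventually.of_forall fun ω => by
          rw [Real.norm_eq_abs, abs_abs]
          exact (abs_sub _ _).trans (by linarith [abs_rset_le x ω, abs_rset_le y ω]))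
    refine (integral_mono (hint _ _) ((hint (repList (conf S₀)) (repList (conf S))).add
      (hint (repList (conf S₀)) (repList v))) fun ω => ?_).trans ?_
    · simp only [Pi.add_apply]
      calc |rset (repList (conf S)) ω - rset (repList v) ω| ≤ _ := abs_sub_le _
            (rset (repList (conf S₀)) ω) _
        _ = _ := by rw [abs_sub_comm (rset (repList (conf S)) ω)]
    simp only [Pi.add_apply]
    rw [integral_add (hint _ _) (hint _ _)]
    have hcard : (S₀.card : ℝ) + 1 ≤ S.card := by
      have := Finset.card_lt_card (Finset.sdiff_ssubset hCS ⟨l, hlC⟩)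
      exact_mod_cast this
    have hP : 0 ≤ η * ν.real (cell ιf (idRep N) s) := by positivity
    nlinarith [mul_le_mul_of_nonneg_right hcard hP]

/-- Two configurations with common pins and the same shape. -/
theorem switch (h : IsTreeArray ν ρ) {ι : ℝ → ℤ} {δ θ η : ℝ} {m d : ℕ} (hη : 0 < η) (hη1 : η ≤ 1)
    (hD : DoublesBd ν ρ δ θ (η ^ 4) m) (hmesh : IsMesh ρ δ ι) (τ : Pat (2 + d))
    (hcl : ClassesLE τ m) {n : ℕ} (u u' : Fin (2 + d) → Fin n) (hu : Function.Injective u)
    (hu' : Function.Injective u') (hpins : ∀ p, u (Fin.castAdd d p) = u' (Fin.castAdd d p))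
    (E : Set (Mat n)) (hE : MeasurableSet E)
    (hEs : E ⊆ subShape ι (ρ - θ) u τ ∩ subShape ι (ρ - θ) u' τ) :
    ∫ ω in tmat (idRep n) ⁻¹' E, |rset (repList u) ω - rset (repList u') ω| ∂ν ≤
      36 * η * d * ν.real (tmat (idRep n) ⁻¹' E) := by
  classical
  haveI := h.prob
  refine bound_of_cells h hmesh.1 (ρ - θ) _ ((measurableSet_subShape hmesh.1 _ u τ).inter
    (measurableSet_subShape hmesh.1 _ u' τ)) ?_ _
    ((measurable_rset _).sub (measurable_rset _)).norm (fun ω => abs_nonneg _) (B := 2)
    (fun ω => (abs_sub _ _).trans (by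
      linarith [abs_rset_le (repList u) ω, abs_rset_le (repList u') ω]))
    (by positivity) ?_ E hE hEs
  · intro k T T' hTT hT
    refine ⟨fun a b hab => ?_, fun a b hab => ?_⟩
    · obtain ⟨e1, -, e3⟩ := fineIota_eq hmesh.1 (hTT (u a) (u b))
      obtain ⟨g1, g2⟩ := hT.1 a b hab
      exact ⟨e1.symm.trans g1, not_lt.1 fun hlt => absurd (e3.2 hlt) (not_lt.2 g2)⟩
    · obtain ⟨e1, -, e3⟩ := fineIota_eq hmesh.1 (hTT (u' a) (u' b))
      obtain ⟨g1, g2⟩ := hT.2 a b hab
      exact ⟨e1.symm.trans g1, not_lt.1 fun hlt => absurd (e3.2 hlt) (not_lt.2 g2)⟩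
  intro k s hsG hs
  set ιf := fineIota ι (ρ - θ) k with hιfdef
  have hιf : Monotone ιf := monotone_fineIota hmesh.1 _ k
  have href : ∀ x y, ιf x = ιf y → ι x = ι y := fun x y e => (fineIota_eq hmesh.1 e).1
  set pinU : Fin 2 → Fin n := fun p => u (Fin.castAdd d p) with hpinU
  have ht : PosPat ν ιf (patMap u s) := hs.restrict h hιf (by omega) hu
  obtain ⟨s', hs', hold, hnew, hsep⟩ :=
    amalgam h hιf (by norm_num : 1 ≤ 2) pinU s hs d (patMap u s) ht rfl
  obtain ⟨ω₀, hω₀, hg₀⟩ := exists_good_mem h hs'
  set c : Pat (n + d) := fun x y => ι (rbar x y ω₀) with hc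
  have hc' : ∀ ω ∈ cell ιf (idRep (n + d)) s', ∀ x y : Fin (n + d), ι (rbar x y ω) = c x y :=
    fun ω hω x y => href _ _ ((hω x y).trans (hω₀ x y).symm)
  have holdv : ∀ x y, s' (Fin.castAdd d x) (Fin.castAdd d y) = s x y := fun x y =>
    congrFun (congrFun hold x) y
  set star := amalgMap pinU d with hstar
  have hnewv : ∀ a b, s' (star a) (star b) = s (u a) (u b) := fun a b =>
    congrFun (congrFun hnew a) b
  have hT₀ : (fun a b : Fin n => rbar a b ω₀) ∈ patSet ιf s := fun a b =>
    (hω₀ (Fin.castAdd d a) (Fin.castAdd d b)).trans (holdv a b)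
  obtain ⟨hG1, hG2⟩ := hsG hT₀
  have hlow : ∀ (w : Fin (2 + d) → Fin n), (∀ a b, a ≠ b →
      ι (rbar (w a) (w b) ω₀) = τ a b ∧ rbar (w a) (w b) ω₀ ≤ ρ - θ) →
      ∀ a b, a ≠ b → LowCode ιf (ρ - θ) (s (w a) (w b)) := by
    intro w hwG a b hab r hr
    have : ιf r = ιf (rbar (w a) (w b) ω₀) :=
      hr.trans (hT₀ (w a) (w b)).symm
    obtain ⟨-, -, e3⟩ := fineIota_eq hmesh.1 this
    exact not_lt.1 fun hlt => absurd (e3.1 hlt) (not_lt.2 (hwG a b hab).2)
  have hstar_inj : Function.Injective star := by
    intro x y hxy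
    induction x using Fin.addCases with
    | left x =>
      induction y using Fin.addCases with
      | left y =>
        simp only [hstar, amalgMap, Fin.addCases_left] at hxy
        rw [Fin.castAdd_injective _ _ (hu (Fin.castAdd_injective _ _ hxy))]
      | right y =>
        simp only [hstar, amalgMap, Fin.addCases_left, Fin.addCases_right] at hxy
        have := congrArg Fin.val hxy
        simp only [Fin.val_castAdd, Fin.val_natAdd] at this
        omega
    | right x =>
      induction y using Fin.addCases with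
      | left y =>
        simp only [hstar, amalgMap, Fin.addCases_left, Fin.addCases_right] at hxy
        have := congrArg Fin.val hxy
        simp only [Fin.val_castAdd, Fin.val_natAdd] at this
        omega
      | right y =>
        simp only [hstar, amalgMap, Fin.addCases_right] at hxy
        rw [Fin.natAdd_injective _ _ hxy]
  have main : ∀ w : Fin (2 + d) → Fin n, Function.Injective w →
      (∀ p, w (Fin.castAdd d p) = pinU p) →
      (∀ a b, a ≠ b → ι (rbar (w a) (w b) ω₀) = τ a b ∧ rbar (w a) (w b) ω₀ ≤ ρ - θ) →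
      ∫ ω in cell ιf (idRep (n + d)) s',
        |rset (repList w) ω - rset (repList star) ω| ∂ν ≤
        18 * η * d * ν.real (cell ιf (idRep (n + d)) s') := by
    intro w hw hwp hwG
    have hlist : repList w = repList fun a => Fin.castAdd d (w a) := rfl
    rw [hlist]
    refine to_star h hη hη1 hD hmesh hιf href s' hs' c hc' τ hcl (fun a => Fin.castAdd d (w a))
      star ((Fin.castAdd_injective n d).comp hw) hstar_inj (fun p => by simp [hstar, amalgMap, hwp])
      (fun l x hbad => ?_) (fun a b hab => (hwG a b hab).1) (fun a b hab => ?_)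
      (fun a b hab => ⟨by rw [holdv]; exact hlow w hwG a b hab,
        by rw [hnewv]; exact hlow u hG1 a b hab⟩) fun x l => ?_
    · have := congrArg Fin.val hbad
      simp [hstar, amalgMap] at this
      omega
    · refine Eq.trans ?_ (hG1 a b hab).1
      refine href _ _ ?_
      exact ((hω₀ (star a) (star b)).trans (hnewv a b)).trans (hT₀ (u a) (u b)).symm
    · obtain ⟨z, hz⟩ := hsep (w x) l
      refine ⟨z, ?_⟩
      rw [hnewv]
      simpa [hstar, amalgMap, patMap] using hz
  have hsum : ∫ ω in cell ιf (idRep (n + d)) s', |rset (repList u) ω - rset (repList u') ω| ∂ν ≤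
      36 * η * d * ν.real (cell ιf (idRep (n + d)) s') := by
    have hint : ∀ x y : List ℕ, Integrable (fun ω => |rset x ω - rset y ω|)
        (ν.restrict (cell ιf (idRep (n + d)) s')) := fun x y =>
      Integrable.of_bound ((measurable_rset x).sub (measurable_rset y)).norm.aestronglyMeasurable 2
        (Eventually.of_forall fun ω => by
          rw [Real.norm_eq_abs, abs_abs]
          exact (abs_sub _ _).trans (by linarith [abs_rset_le x ω, abs_rset_le y ω]))
    refine (integral_mono (hint _ _) ((hint (repList u) (repList star)).add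
      (hint (repList u') (repList star))) fun ω => ?_).trans ?_
    · simp only [Pi.add_apply]
      rw [abs_sub_comm (rset (repList u') ω)]
      exact abs_sub_le _ _ _
    simp only [Pi.add_apply]
    rw [integral_add (hint _ _) (hint _ _)]
    linarith [main u hu (fun p => rfl) hG1, main u' hu' (fun p => (hpins p).symm) hG2]
  by_cases hn : n = 0
  · subst hn; exact absurd (u (Fin.castAdd d 0)).isLt (by omega)
  have hpat : patMap (Fin.castAdd d) s' = s := hold
  set F : RepData n → ℝ := fun z =>
    |rsetClip (List.ofFn u) z - rsetClip (List.ofFn u') z| with hF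
  have hdown := bound_down h hιf (by omega : 1 ≤ n) (Fin.castAdd d) (Fin.castAdd_injective n d) s'
    hs' F ((measurable_rsetClip _).sub (measurable_rsetClip _)).norm (C := 2) (by norm_num)
    (fun z => by
      rw [abs_abs]
      refine (abs_sub _ _).trans ?_
      linarith [abs_rsetClip_le (List.ofFn u) z, abs_rsetClip_le (List.ofFn u') z])
    (η := 36 * η * d) (by
      simpa [hF, rsetClip_repMap, List.map_ofFn, Function.comp_def, repList] using hsum)
  rw [hpat] at hdown
  simpa [hF, repData_eq_repMap, rsetClip_repMap, List.map_ofFn, Function.comp_def, repList, idRep,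
    Real.norm_eq_abs, Pi.sub_apply] using hdown

end Vale.Agent.P168.Structure
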